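import Claimed.Agent.R285.S46.Defs

/-!
# ROW 285, layer S46: staircase geometry, annuli as `CGeom`s, calculus of the discrete energies `Men`.
MERGED FILE (file budget of 15:22Z): sections = the former files `GeomA`, `AnnGeom`, `En` of `R285/S46/`; every section keeps its header (leaf name, plan).  Provers: replace the sorry IN PLACE, helper lemmas just above.
-/

set_option autoImplicit false

namespace Claimed.Agent.R285.S46

open Filter Topology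
open scoped Classical

/-!
# ROW 285, S46 leaf L-S46-GEOMA: elementary geometry of staircase discs, annuli, guards and ends.   Pure integer arithmetic (`Int.ediv`, `nlinarith`, `omega`), no analysis.
`f k = max (k²) ((k+1)²)` is unimodal (`f k ≤ f k'` if `0 ≤ k ≤ k'` or `k' ≤ k ≤ -1`) and `f k ≤ (|k|+1)²`.   `v ∈ sq n ↔ -n ≤ v.1 < n ∧ -n ≤ v.2 < n`.
Connectivity (`OneComp`): walk along a coordinate direction.
 * the square band `sq (2n) \ sq n` (`n ≥ 1`) is connected by its own bonds: four overlapping rectangles, a rectangle is connected (induction along rows and columns).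
 * `v ∈ stair M S \ sq (2n)`: decrease the larger of `|v.1 + 1/2|, |v.2 + 1/2|` by one: stays in `stair M S` (unimodality) and ends in the band.
 * `v ∈ sq n \ stair M s`: increase it: stays outside `stair M s`, ends in the band.
-/

theorem mem_sq {n : ℕ} {v : ℤ × ℤ} : v ∈ sq n ↔ (-(n : ℤ) ≤ v.1 ∧ v.1 < n) ∧ (-(n : ℤ) ≤ v.2 ∧ v.2 < n) := by
  simp [sq, Finset.mem_product, Finset.mem_Ico]

theorem sq_mono {n n' : ℕ} (h : n ≤ n') : sq n ⊆ sq n' := by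
  intro v hv
  rw [mem_sq] at hv ⊢
  have : (n : ℤ) ≤ n' := by exact_mod_cast h
  omega

theorem stair_subset_sq (M s : ℕ) : stair M s ⊆ sq (M * s) := Finset.filter_subset _ _

theorem ga_mem_stair {M s : ℕ} {v : ℤ × ℤ} : v ∈ stair M s ↔ v ∈ sq (M * s) ∧
    max ((v.1 / (s : ℤ)) ^ 2) ((v.1 / (s : ℤ) + 1) ^ 2) + max ((v.2 / (s : ℤ)) ^ 2) ((v.2 / (s : ℤ) + 1) ^ 2) ≤ (M : ℤ) ^ 2 :=
  Finset.mem_filter

/-- unimodality of `f k = max (k²) ((k+1)²)` -/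
theorem ga_f_mono {k k' : ℤ} (h : (0 ≤ k' ∧ k' ≤ k) ∨ (k ≤ k' ∧ k' ≤ 0)) :
    max (k' ^ 2) ((k' + 1) ^ 2) ≤ max (k ^ 2) ((k + 1) ^ 2) := by
  rcases h with ⟨h1, h2⟩ | ⟨h1, h2⟩
  · exact max_le (le_max_of_le_right (by nlinarith)) (le_max_of_le_right (by nlinarith))
  · refine max_le (le_max_of_le_left (by nlinarith)) ?_
    rcases (by omega : k' ≤ -1 ∨ k' = 0) with h3 | h3
    · exact le_max_of_le_right (by nlinarith)
    · subst h3
      rcases (by omega : k ≤ -1 ∨ k = 0) with h4 | h4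
      · exact le_max_of_le_left (by nlinarith)
      · subst h4; simp

/-- the same for the block index -/
theorem ga_g_mono {s : ℕ} (hs : 1 ≤ s) {x t : ℤ} (h : (0 ≤ t ∧ t ≤ x) ∨ (x ≤ t ∧ t ≤ 0)) :
    max ((t / (s : ℤ)) ^ 2) ((t / (s : ℤ) + 1) ^ 2) ≤ max ((x / (s : ℤ)) ^ 2) ((x / (s : ℤ) + 1) ^ 2) := by
  have hs' : (0 : ℤ) < s := by exact_mod_cast hs
  refine ga_f_mono ?_
  rcases h with ⟨h1, h2⟩ | ⟨h1, h2⟩
  · exact Or.inl ⟨Int.ediv_nonneg h1 hs'.le, Int.ediv_le_ediv hs' h2⟩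
  · refine Or.inr ⟨Int.ediv_le_ediv hs' h1, ?_⟩
    have := Int.ediv_le_ediv hs' h2
    simpa using this

theorem ga_f_le {k a : ℤ} (h1 : -a ≤ k) (h2 : k + 1 ≤ a) : max (k ^ 2) ((k + 1) ^ 2) ≤ a ^ 2 :=
  max_le (by nlinarith) (by nlinarith)

/-- a square well inside the disc lies in the staircase -/
theorem sq_subset_stair (M s n : ℕ) (hs : 1 ≤ s) (h : 2 * (n + s) ^ 2 ≤ (M * s) ^ 2) : sq n ⊆ stair M s := by
  intro v hv
  have hs' : (0 : ℤ) < s := by exact_mod_cast hs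
  have hle : n + s ≤ M * s := by
    by_contra hc
    push Not at hc
    have : (M * s) ^ 2 < (n + s) ^ 2 := Nat.pow_lt_pow_left hc (by norm_num)
    omega
  rw [ga_mem_stair]
  refine ⟨sq_mono (by omega) hv, ?_⟩
  rw [mem_sq] at hv
  obtain ⟨⟨a1, a2⟩, b1, b2⟩ := hv
  have hz : (2 : ℤ) * ((n : ℤ) + s) ^ 2 ≤ ((M : ℤ) * s) ^ 2 := by exact_mod_cast h
  -- bound of one coordinate
  have key : ∀ x : ℤ, -(n : ℤ) ≤ x → x < n →
      (s : ℤ) ^ 2 * max ((x / (s : ℤ)) ^ 2) ((x / (s : ℤ) + 1) ^ 2) ≤ ((n : ℤ) + s) ^ 2 := by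
    intro x h1 h2
    have e1 : (s : ℤ) * (x / (s : ℤ)) ≤ x := Int.mul_ediv_self_le hs'.ne'
    have e2 : x < (s : ℤ) * (x / (s : ℤ)) + s := Int.lt_mul_ediv_self_add hs'
    set k := x / (s : ℤ) with hk
    rcases le_total (k ^ 2) ((k + 1) ^ 2) with h3 | h3
    · rw [max_eq_right h3]
      have : ((s : ℤ) * (k + 1)) ^ 2 ≤ ((n : ℤ) + s) ^ 2 := by
        apply sq_le_sq'
        · nlinarith
        · nlinarith
      nlinarith
    · rw [max_eq_left h3]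
      have : ((s : ℤ) * k) ^ 2 ≤ ((n : ℤ) + s) ^ 2 := by
        apply sq_le_sq'
        · nlinarith
        · nlinarith
      nlinarith
  have k1 := key v.1 a1 a2
  have k2 := key v.2 b1 b2
  have hs2 : (0 : ℤ) < (s : ℤ) ^ 2 := by positivity
  have : (s : ℤ) ^ 2 * (max ((v.1 / (s : ℤ)) ^ 2) ((v.1 / (s : ℤ) + 1) ^ 2) + max ((v.2 / (s : ℤ)) ^ 2) ((v.2 / (s : ℤ) + 1) ^ 2))
      ≤ (s : ℤ) ^ 2 * (M : ℤ) ^ 2 := by nlinarith
  exact le_of_mul_le_mul_left this hs2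


theorem ga_pow4_pos (l : ℕ) : 1 ≤ 4 ^ l := Nat.one_le_pow _ _ (by norm_num)

/-- coarser blocks: no hypothesis on `M`, `λ` -/
theorem ga_stair_coarse (M c s : ℕ) (hc : 1 ≤ c) (hs : 1 ≤ s) : stair M s ⊆ stair M (c * s) := by
  intro v hv
  rw [ga_mem_stair] at hv ⊢
  have hs' : (0 : ℤ) < s := by exact_mod_cast hs
  have hc' : (0 : ℤ) < c := by exact_mod_cast hc
  refine ⟨sq_mono (Nat.mul_le_mul_left _ (Nat.le_mul_of_pos_left _ hc)) hv.1, le_trans (add_le_add ?_ ?_) hv.2⟩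
  all_goals
    push_cast
    rw [mul_comm (c : ℤ) (s : ℤ), ← Int.ediv_ediv_of_nonneg hs'.le]
    refine ga_f_mono ?_
  · rcases le_total 0 (v.1 / (s : ℤ)) with h | h
    · exact Or.inl ⟨Int.ediv_nonneg h hc'.le, Int.ediv_le_self _ h⟩
    · refine Or.inr ⟨?_, ?_⟩
      · rw [Int.le_ediv_iff_mul_le hc']
        nlinarith
      · have := Int.ediv_le_ediv hc' h
        simpa using this
  · rcases le_total 0 (v.2 / (s : ℤ)) with h | h
    · exact Or.inl ⟨Int.ediv_nonneg h hc'.le, Int.ediv_le_self _ h⟩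
    · refine Or.inr ⟨?_, ?_⟩
      · rw [Int.le_ediv_iff_mul_le hc']
        nlinarith
      · have := Int.ediv_le_ediv hc' h
        simpa using this

theorem stair_subset_stair (M l s : ℕ) (hM : 4 ≤ M) (hl : 1 ≤ l) (hs : 1 ≤ s) : stair M s ⊆ stair M (4 ^ l * s) :=
  ga_stair_coarse M (4 ^ l) s (ga_pow4_pos l) hs

theorem ga_four_pow (l : ℕ) : 4 ^ l = 2 ^ l * 2 ^ l := by
  rw [← mul_pow]; norm_num

theorem ga_two_pow_ge {l k : ℕ} (h : k ≤ l) : 2 ^ k ≤ 2 ^ l := Nat.pow_le_pow_right (by norm_num) h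

/-- the outer square of the guard lies in the outer disc -/
theorem ga_sq2_subset_stair (M l s : ℕ) (hM : 4 ≤ M) (hl : 4 ≤ l) (hs : 1 ≤ s) :
    sq (2 * 2 ^ l * (M * s)) ⊆ stair M (4 ^ l * s) := by
  refine sq_subset_stair M (4 ^ l * s) _ (by have := ga_pow4_pos l; nlinarith) ?_
  have ha : 16 ≤ 2 ^ l := ga_two_pow_ge (k := 4) hl
  rw [ga_four_pow]
  set a := 2 ^ l with hadef
  -- `8 (2 a M s + a² s) ≤ 3 M a² s`
  have h1 : 8 * (2 * a * (M * s) + a * a * s) ≤ 3 * (M * (a * a * s)) := by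
    have e1 : 16 * (a * (M * s)) ≤ a * (a * (M * s)) := Nat.mul_le_mul_right _ ha
    have e2 : 4 * (a * a * s) ≤ M * (a * a * s) := Nat.mul_le_mul_right _ hM
    nlinarith
  have h2 : (8 * (2 * a * (M * s) + a * a * s)) ^ 2 ≤ (3 * (M * (a * a * s))) ^ 2 := Nat.pow_le_pow_left h1 2
  nlinarith

theorem guard_subset_ann (M l s : ℕ) (hM : 4 ≤ M) (hl : 4 ≤ l) (hs : 1 ≤ s) : guard M l s ⊆ ann M l s := by
  intro v hv
  rw [guard, Finset.mem_sdiff] at hv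
  rw [ann, Finset.mem_sdiff]
  refine ⟨ga_sq2_subset_stair M l s hM hl hs hv.1, fun h => hv.2 ?_⟩
  exact sq_mono (Nat.le_mul_of_pos_left _ (Nat.pos_of_ne_zero (by positivity))) (stair_subset_sq M s h)

theorem ga_N_pos (M l s : ℕ) (hM : 4 ≤ M) (hs : 1 ≤ s) : 1 ≤ 2 ^ l * (M * s) :=
  Nat.succ_le_of_lt (Nat.mul_pos (by positivity) (Nat.mul_pos (by omega) (by omega)))

theorem ga_guard_eq (M l s : ℕ) : guard M l s = sq (2 * (2 ^ l * (M * s))) \ sq (2 ^ l * (M * s)) := by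
  rw [guard, mul_assoc]

theorem ga_mem_band {N : ℕ} {v : ℤ × ℤ} : v ∈ sq (2 * N) \ sq N ↔
    ((-(2 * (N : ℤ)) ≤ v.1 ∧ v.1 < 2 * N) ∧ (-(2 * (N : ℤ)) ≤ v.2 ∧ v.2 < 2 * N)) ∧
      ¬ ((-(N : ℤ) ≤ v.1 ∧ v.1 < N) ∧ (-(N : ℤ) ≤ v.2 ∧ v.2 < N)) := by
  rw [Finset.mem_sdiff, mem_sq, mem_sq]
  push_cast
  rfl

theorem gbase_mem_guard (M l s : ℕ) (hM : 4 ≤ M) (hs : 1 ≤ s) : gbase M l s ∈ guard M l s := by
  have hN := ga_N_pos M l s hM hs
  rw [ga_guard_eq, ga_mem_band]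
  simp only [gbase]
  generalize 2 ^ l * (M * s) = N at hN
  have : (1 : ℤ) ≤ N := by exact_mod_cast hN
  omega

theorem obox_subset_guard (M l s : ℕ) : obox M l s ⊆ guard M l s := by
  intro v hv
  rw [ga_guard_eq, ga_mem_band]
  rw [obox, mul_assoc, Finset.mem_product, Finset.mem_Ico, Finset.mem_Ico] at hv
  generalize 2 ^ l * (M * s) = N at hv
  push_cast at hv
  omega

theorem ann2_eq_union (M l s : ℕ) (hM : 4 ≤ M) (hl : 1 ≤ l) (hs : 1 ≤ s) : ann2 M l s = ann M l s ∪ ann M l (4 ^ l * s) := by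
  have h1 := stair_subset_stair M l s hM hl hs
  have h2 := stair_subset_stair M l (4 ^ l * s) hM hl (by have := ga_pow4_pos l; nlinarith)
  ext v
  simp only [ann2, ann, Finset.mem_union, Finset.mem_sdiff]
  constructor
  · rintro ⟨a, b⟩
    by_cases c : v ∈ stair M (4 ^ l * s)
    · exact Or.inl ⟨c, b⟩
    · exact Or.inr ⟨a, c⟩
  · rintro (⟨a, b⟩ | ⟨a, b⟩)
    · exact ⟨h2 a, b⟩
    · exact ⟨a, fun c => b (h1 c)⟩

theorem ann2_eq_ann (M l s : ℕ) : ann2 M l s = ann M (2 * l) s := by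
  rw [ann2, ann, two_mul, pow_add, mul_assoc]

theorem ann_disjoint (M l s : ℕ) : Disjoint (ann M l s) (ann M l (4 ^ l * s)) := by
  rw [Finset.disjoint_left]
  intro v h1 h2
  rw [ann, Finset.mem_sdiff] at h1 h2
  exact h2.2 h1.1

theorem stair_eq_union (M l s : ℕ) (hM : 4 ≤ M) (hl : 1 ≤ l) (hs : 1 ≤ s) : stair M (4 ^ l * s) = stair M s ∪ ann M l s := by
  rw [ann, Finset.union_sdiff_of_subset (stair_subset_stair M l s hM hl hs)]

/-! connectivity -/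

theorem ga_mem_bonds {D : Finset (ℤ × ℤ)} {e : Bond} : e ∈ domBonds D ∅ ↔ e.1 ∈ D ∧ e.snd ∈ D := by
  simp [domBonds, Finset.mem_filter, Finset.mem_product]

section walk

variable {D : Finset (ℤ × ℤ)} {h : ℤ × ℤ → ℤ} (hh : ∀ e ∈ domBonds D ∅, h e.snd = h e.1)
include hh

theorem ga_step_x {x y : ℤ} (h1 : (x, y) ∈ D) (h2 : (x + 1, y) ∈ D) : h (x + 1, y) = h (x, y) :=
  hh ((x, y), true) (ga_mem_bonds.2 ⟨h1, by simpa [Bond.snd] using h2⟩)

theorem ga_step_y {x y : ℤ} (h1 : (x, y) ∈ D) (h2 : (x, y + 1) ∈ D) : h (x, y + 1) = h (x, y) :=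
  hh ((x, y), false) (ga_mem_bonds.2 ⟨h1, by simpa [Bond.snd] using h2⟩)

theorem ga_hseg {y a b : ℤ} (hab : a ≤ b) (hD : ∀ t, a ≤ t → t ≤ b → (t, y) ∈ D) : h (b, y) = h (a, y) := by
  obtain ⟨n, rfl⟩ := Int.le.dest hab
  clear hab
  induction n with
  | zero => simp
  | succ n ih =>
    have e := ih (fun t h1 h2 => hD t h1 (by push_cast; omega))
    rw [← e]
    have := ga_step_x hh (x := a + n) (y := y) (hD _ (by omega) (by push_cast; omega)) (hD _ (by omega) (by push_cast; omega))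
    rw [← this]
    push_cast
    rw [add_assoc]

theorem ga_vseg {x a b : ℤ} (hab : a ≤ b) (hD : ∀ t, a ≤ t → t ≤ b → (x, t) ∈ D) : h (x, b) = h (x, a) := by
  obtain ⟨n, rfl⟩ := Int.le.dest hab
  clear hab
  induction n with
  | zero => simp
  | succ n ih =>
    have e := ih (fun t h1 h2 => hD t h1 (by push_cast; omega))
    rw [← e]
    have := ga_step_y hh (x := x) (y := a + n) (hD _ (by omega) (by push_cast; omega)) (hD _ (by omega) (by push_cast; omega))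
    rw [← this]
    push_cast
    rw [add_assoc]

/-- horizontal segments, unordered -/
theorem ga_hline {y a b : ℤ} (hD : ∀ t, (a ≤ t ∧ t ≤ b) ∨ (b ≤ t ∧ t ≤ a) → (t, y) ∈ D) : h (a, y) = h (b, y) := by
  rcases le_total a b with hab | hab
  · exact (ga_hseg hh hab fun t h1 h2 => hD t (Or.inl ⟨h1, h2⟩)).symm
  · exact ga_hseg hh hab fun t h1 h2 => hD t (Or.inr ⟨h1, h2⟩)

theorem ga_vline {x a b : ℤ} (hD : ∀ t, (a ≤ t ∧ t ≤ b) ∨ (b ≤ t ∧ t ≤ a) → (x, t) ∈ D) : h (x, a) = h (x, b) := by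
  rcases le_total a b with hab | hab
  · exact (ga_vseg hh hab fun t h1 h2 => hD t (Or.inl ⟨h1, h2⟩)).symm
  · exact ga_vseg hh hab fun t h1 h2 => hD t (Or.inr ⟨h1, h2⟩)

/-- a rectangle contained in `D` -/
theorem ga_rect {a b c d : ℤ} (hR : ∀ x y, a ≤ x → x < b → c ≤ y → y < d → (x, y) ∈ D) {p q : ℤ × ℤ}
    (hp : (a ≤ p.1 ∧ p.1 < b) ∧ c ≤ p.2 ∧ p.2 < d) (hq : (a ≤ q.1 ∧ q.1 < b) ∧ c ≤ q.2 ∧ q.2 < d) : h p = h q := by
  obtain ⟨x, y⟩ := p
  obtain ⟨x', y'⟩ := q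
  simp only at hp hq
  rw [ga_hline hh (y := y) (a := x) (b := x') (fun t ht => hR t y (by omega) (by omega) (by omega) (by omega)),
    ga_vline hh (x := x') (a := y) (b := y') (fun t ht => hR x' t (by omega) (by omega) (by omega) (by omega))]

end walk

/-- a function which is locally constant on a set containing the band is constant on the band -/
theorem ga_band {D : Finset (ℤ × ℤ)} {h : ℤ × ℤ → ℤ} (hh : ∀ e ∈ domBonds D ∅, h e.snd = h e.1) {N : ℕ} (hN : 1 ≤ N)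
    (hD : sq (2 * N) \ sq N ⊆ D) {p : ℤ × ℤ} (hp : p ∈ sq (2 * N) \ sq N) : h p = h ((N : ℤ), (N : ℤ)) := by
  have hN' : (1 : ℤ) ≤ N := by exact_mod_cast hN
  have hb : ∀ x y : ℤ, (((-(2 * (N : ℤ)) ≤ x ∧ x < 2 * N) ∧ (-(2 * (N : ℤ)) ≤ y ∧ y < 2 * N)) ∧
      ¬ ((-(N : ℤ) ≤ x ∧ x < N) ∧ (-(N : ℤ) ≤ y ∧ y < N))) → (x, y) ∈ D := fun x y hxy => hD (ga_mem_band.2 hxy)
  rw [ga_mem_band] at hp
  -- the four rectangles
  have R1 := @ga_rect D h hh (N : ℤ) (2 * N) (-(2 * (N : ℤ))) (2 * N) (fun x y _ _ _ _ => hb x y (by omega))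
  have R2 := @ga_rect D h hh (-(2 * (N : ℤ))) (-(N : ℤ)) (-(2 * (N : ℤ))) (2 * N) (fun x y _ _ _ _ => hb x y (by omega))
  have R3 := @ga_rect D h hh (-(2 * (N : ℤ))) (2 * N) (N : ℤ) (2 * N) (fun x y _ _ _ _ => hb x y (by omega))
  have R4 := @ga_rect D h hh (-(2 * (N : ℤ))) (2 * N) (-(2 * (N : ℤ))) (-(N : ℤ)) (fun x y _ _ _ _ => hb x y (by omega))
  rcases (by omega : (N : ℤ) ≤ p.1 ∨ p.1 < -(N : ℤ) ∨ (N : ℤ) ≤ p.2 ∨ p.2 < -(N : ℤ)) with c | c | c | c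
  · exact R1 (p := p) (q := ((N : ℤ), (N : ℤ))) (by omega) (by simp only; omega)
  · rw [R2 (p := p) (q := (-(2 * (N : ℤ)), (N : ℤ))) (by omega) (by simp only; omega)]
    exact R3 (p := (-(2 * (N : ℤ)), (N : ℤ))) (q := ((N : ℤ), (N : ℤ))) (by simp only; omega) (by simp only; omega)
  · exact R3 (p := p) (q := ((N : ℤ), (N : ℤ))) (by omega) (by simp only; omega)
  · rw [R4 (p := p) (q := ((N : ℤ), -(2 * (N : ℤ)))) (by omega) (by simp only; omega)]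
    exact R1 (p := ((N : ℤ), -(2 * (N : ℤ)))) (q := ((N : ℤ), (N : ℤ))) (by simp only; omega) (by simp only; omega)


/-- the guard is connected by its own bonds -/
theorem guard_oneComp (M l s : ℕ) (hM : 4 ≤ M) (hs : 1 ≤ s) : OneComp (guard M l s) ∅ ↑(guard M l s) := by
  intro h hh x hx y hy
  rw [ga_guard_eq] at hh hx hy
  have hN := ga_N_pos M l s hM hs
  rw [ga_band hh hN (Finset.Subset.refl _) (Finset.mem_coe.1 hx), ga_band hh hN (Finset.Subset.refl _) (Finset.mem_coe.1 hy)]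

/-- monotonicity of `OneComp` in the graph -/
theorem OneComp.mono {D D' : Finset (ℤ × ℤ)} {cut cut' : Set Bond} {A A' : Set (ℤ × ℤ)} (h : OneComp D cut A) (hD : domBonds D cut ⊆ domBonds D' cut')
    (hA : A' ⊆ A) : OneComp D' cut' A' :=
  fun f hf x hx y hy => h f (fun e he => hf e (hD he)) x (hA hx) y (hA hy)

/-- segments towards the axis stay in the staircase -/
theorem ga_stair_seg_x {M s : ℕ} (hs : 1 ≤ s) {x y t : ℤ} (hv : (x, y) ∈ stair M s) (ht : (0 ≤ t ∧ t ≤ x) ∨ (x ≤ t ∧ t ≤ 0)) :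
    (t, y) ∈ stair M s := by
  rw [ga_mem_stair] at hv ⊢
  refine ⟨?_, le_trans (add_le_add (ga_g_mono hs ht) le_rfl) hv.2⟩
  have := hv.1
  rw [mem_sq] at this ⊢
  simp only at this ⊢
  omega

theorem ga_stair_seg_y {M s : ℕ} (hs : 1 ≤ s) {x y t : ℤ} (hv : (x, y) ∈ stair M s) (ht : (0 ≤ t ∧ t ≤ y) ∨ (y ≤ t ∧ t ≤ 0)) :
    (x, t) ∈ stair M s := by
  rw [ga_mem_stair] at hv ⊢
  refine ⟨?_, le_trans (add_le_add le_rfl (ga_g_mono hs ht)) hv.2⟩
  have := hv.1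
  rw [mem_sq] at this ⊢
  simp only at this ⊢
  omega

/-- the staircase disc is connected -/
theorem stair_oneComp (M s : ℕ) (hM : 4 ≤ M) (hs : 1 ≤ s) : OneComp (stair M s) ∅ ↑(stair M s) := by
  intro h hh
  have key : ∀ p ∈ stair M s, h p = h (0, 0) := by
    rintro ⟨x, y⟩ hp
    rw [ga_hline hh (y := y) (a := x) (b := 0) (fun t ht => ga_stair_seg_x hs hp (by omega)),
      ga_vline hh (x := 0) (a := y) (b := 0) (fun t ht => ga_stair_seg_y hs (ga_stair_seg_x hs hp (t := 0) (by omega)) (by omega))]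
  intro x hx y hy
  rw [key x (Finset.mem_coe.1 hx), key y (Finset.mem_coe.1 hy)]

/-- the annulus is connected -/
theorem ann_oneComp (M l s : ℕ) (hM : 4 ≤ M) (hl : 4 ≤ l) (hs : 1 ≤ s) : OneComp (ann M l s) ∅ ↑(ann M l s) := by
  intro h hh
  have hN := ga_N_pos M l s hM hs
  have hS : 1 ≤ 4 ^ l * s := by have := ga_pow4_pos l; nlinarith
  have hg : sq (2 * (2 ^ l * (M * s))) \ sq (2 ^ l * (M * s)) ⊆ ann M l s := by
    rw [← ga_guard_eq]; exact guard_subset_ann M l s hM hl hs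
  have hout : sq (2 * (2 ^ l * (M * s))) ⊆ stair M (4 ^ l * s) := by
    rw [← mul_assoc]; exact ga_sq2_subset_stair M l s hM hl hs
  have hin : stair M s ⊆ sq (2 ^ l * (M * s)) := fun v hv =>
    sq_mono (Nat.le_mul_of_pos_left _ (Nat.pos_of_ne_zero (by positivity))) (stair_subset_sq M s hv)
  set N := 2 ^ l * (M * s) with hNdef
  have hN' : (1 : ℤ) ≤ N := by exact_mod_cast hN
  -- membership in the annulus from the two squares
  have mem1 : ∀ v, v ∈ stair M (4 ^ l * s) → v ∉ sq N → v ∈ ann M l s := fun v h1 h2 =>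
    Finset.mem_sdiff.2 ⟨h1, fun h3 => h2 (hin h3)⟩
  have mem2 : ∀ v, v ∈ sq (2 * N) → v ∉ stair M s → v ∈ ann M l s := fun v h1 h2 =>
    Finset.mem_sdiff.2 ⟨hout h1, h2⟩
  have key : ∀ p ∈ ann M l s, h p = h ((N : ℤ), (N : ℤ)) := by
    rintro ⟨x, y⟩ hp
    have hp' := Finset.mem_sdiff.1 hp
    by_cases c1 : (x, y) ∈ sq (2 * N)
    · by_cases c2 : (x, y) ∈ sq N
      · -- inside: walk outwards in the first coordinate
        rw [mem_sq] at c2
        simp only at c2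
        rcases le_total 0 x with hx | hx
        · rw [ga_hline hh (y := y) (a := x) (b := N) (fun t ht => mem2 _ (by rw [mem_sq]; push_cast; omega)
            (fun h3 => hp'.2 (ga_stair_seg_x hs h3 (by omega))))]
          exact ga_band hh hN hg (ga_mem_band.2 (by simp only; omega))
        · rw [ga_hline hh (y := y) (a := x) (b := -(N : ℤ) - 1) (fun t ht => mem2 _ (by rw [mem_sq]; push_cast; omega)
            (fun h3 => hp'.2 (ga_stair_seg_x hs h3 (by omega))))]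
          exact ga_band hh hN hg (ga_mem_band.2 (by simp only; omega))
      · exact ga_band hh hN hg (Finset.mem_sdiff.2 ⟨c1, c2⟩)
    · -- outside: clamp the two coordinates
      rw [mem_sq] at c1
      push_cast at c1
      set cx : ℤ := max (-(2 * (N : ℤ))) (min x (2 * N - 1)) with hcx
      set cy : ℤ := max (-(2 * (N : ℤ))) (min y (2 * N - 1)) with hcy
      have e1 : h (x, y) = h (cx, y) := by
        by_cases hxx : cx = x
        · rw [hxx]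
        · refine ga_hline hh (fun t ht => mem1 _ (ga_stair_seg_x hS hp'.1 (by omega)) ?_)
          rw [mem_sq]; simp only; omega
      have hp1 : (cx, y) ∈ stair M (4 ^ l * s) := ga_stair_seg_x hS hp'.1 (by omega)
      have e2 : h (cx, y) = h (cx, cy) := by
        by_cases hyy : cy = y
        · rw [hyy]
        · refine ga_vline hh (fun t ht => mem1 _ (ga_stair_seg_y hS hp1 (by omega)) ?_)
          rw [mem_sq]; simp only; omega
      rw [e1, e2]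
      exact ga_band hh hN hg (ga_mem_band.2 (by simp only; omega))
  intro x hx y hy
  rw [key x (Finset.mem_coe.1 hx), key y (Finset.mem_coe.1 hy)]


theorem ga_snd_cases (e : Bond) : (e.snd.1 = e.1.1 + 1 ∧ e.snd.2 = e.1.2) ∨ (e.snd.1 = e.1.1 ∧ e.snd.2 = e.1.2 + 1) := by
  obtain ⟨⟨x, y⟩, b⟩ := e
  cases b <;> simp [Bond.snd]

theorem ga_mem_bdry {A : Set (ℤ × ℤ)} {e : Bond} : e ∈ bdry A ↔ (e.1 ∈ A ∧ e.snd ∉ A) ∨ (e.1 ∉ A ∧ e.snd ∈ A) := Iff.rfl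

/-- the guard separates: a bond leaving the inner square `sq (√λ ρ)` ends in the guard -/
theorem guard_separates (M l s : ℕ) (hM : 4 ≤ M) (hs : 1 ≤ s) (e : Bond) (he : e ∈ bdry (↑(sq (2 ^ l * (M * s))) : Set (ℤ × ℤ))) :
    e.1 ∈ guard M l s ∨ e.snd ∈ guard M l s := by
  have hN := ga_N_pos M l s hM hs
  rw [ga_guard_eq, ga_mem_band, ga_mem_band]
  rw [ga_mem_bdry] at he
  simp only [Finset.mem_coe, mem_sq] at he
  generalize 2 ^ l * (M * s) = N at hN he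
  have hN' : (1 : ℤ) ≤ N := by exact_mod_cast hN
  have := ga_snd_cases e
  omega

/-- a bond leaving the outer square `sq (2√λ ρ)` starts in the guard -/
theorem guard_separates_out (M l s : ℕ) (hM : 4 ≤ M) (hs : 1 ≤ s) (e : Bond) (he : e ∈ bdry (↑(sq (2 * 2 ^ l * (M * s))) : Set (ℤ × ℤ))) :
    e.1 ∈ guard M l s ∨ e.snd ∈ guard M l s := by
  have hN := ga_N_pos M l s hM hs
  rw [ga_guard_eq, ga_mem_band, ga_mem_band]
  rw [ga_mem_bdry, mul_assoc] at he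
  simp only [Finset.mem_coe, mem_sq] at he
  generalize 2 ^ l * (M * s) = N at hN he
  push_cast at he
  have hN' : (1 : ℤ) ≤ N := by exact_mod_cast hN
  have := ga_snd_cases e
  omega

theorem ga_nbr_sq {n : ℕ} (e : Bond) : (e.1 ∈ sq n → e.snd ∈ sq (n + 1)) ∧ (e.snd ∈ sq n → e.1 ∈ sq (n + 1)) := by
  simp only [mem_sq]
  push_cast
  have := ga_snd_cases e
  omega

/-- the bonds across the inner wall end in the inner end -/
theorem wall_endpoints_in (M l s : ℕ) (hM : 4 ≤ M) (hl : 4 ≤ l) (hs : 1 ≤ s) (e : Bond) (he : e ∈ bdry (↑(stair M s) : Set (ℤ × ℤ))) :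
    (e.1 ∈ ann M l s → e.1 ∈ endIn M l s) ∧ (e.snd ∈ ann M l s → e.snd ∈ endIn M l s) := by
  rw [ga_mem_bdry] at he
  simp only [Finset.mem_coe] at he
  have hMs : 1 ≤ M * s := Nat.succ_le_of_lt (Nat.mul_pos (by omega) (by omega))
  have hsub : sq (M * s + 1) ⊆ sq (4 * (M * s)) := sq_mono (by omega)
  constructor
  · intro h1
    have h2 := (Finset.mem_sdiff.1 h1).2
    have h3 : e.snd ∈ stair M s := by tauto
    exact Finset.mem_inter.2 ⟨h1, hsub ((ga_nbr_sq e).2 (stair_subset_sq M s h3))⟩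
  · intro h1
    have h2 := (Finset.mem_sdiff.1 h1).2
    have h3 : e.1 ∈ stair M s := by tauto
    exact Finset.mem_inter.2 ⟨h1, hsub ((ga_nbr_sq e).1 (stair_subset_sq M s h3))⟩

/-- the endpoints of the bonds across the outer wall lie in the outer end, resp. in the inner end of the next annulus -/
theorem seam_endpoints (M l s : ℕ) (hM : 4 ≤ M) (hl : 4 ≤ l) (hs : 1 ≤ s) (e : Bond) (he : e ∈ seam2 M l s) :
    ((e.1 ∈ ann M l s → e.1 ∈ endOut M l s) ∧ (e.snd ∈ ann M l s → e.snd ∈ endOut M l s)) ∧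
    ((e.1 ∈ ann M l (4 ^ l * s) → e.1 ∈ endIn M l (4 ^ l * s)) ∧ (e.snd ∈ ann M l (4 ^ l * s) → e.snd ∈ endIn M l (4 ^ l * s))) := by
  have hS : 1 ≤ 4 ^ l * s := by have := ga_pow4_pos l; nlinarith
  refine ⟨?_, wall_endpoints_in M l (4 ^ l * s) hM hl hS e he⟩
  have hsub : sq (4 ^ (l - 1) * (M * s) + 1) ⊆ stair M (4 ^ l * s) := by
    refine sq_subset_stair M (4 ^ l * s) _ hS ?_
    obtain ⟨k, rfl⟩ : ∃ k, l = k + 1 := ⟨l - 1, by omega⟩
    simp only [Nat.add_sub_cancel]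
    have hc : 1 ≤ 4 ^ k * s := by have := ga_pow4_pos k; nlinarith
    have e1 : 4 ^ (k + 1) * s = 4 * (4 ^ k * s) := by rw [pow_succ]; ring
    have e2 : 4 ^ k * (M * s) = M * (4 ^ k * s) := by ring
    rw [e1, e2]
    generalize 4 ^ k * s = c at hc
    have h1 : 4 * (M * c + 1 + 4 * c) ≤ 9 * (M * c) := by nlinarith
    have h2 : (4 * (M * c + 1 + 4 * c)) ^ 2 ≤ (9 * (M * c)) ^ 2 := Nat.pow_le_pow_left h1 2
    nlinarith
  rw [seam2, ga_mem_bdry] at he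
  simp only [Finset.mem_coe] at he
  constructor
  · intro h1
    refine Finset.mem_sdiff.2 ⟨h1, fun h2 => ?_⟩
    have a1 : e.1 ∈ stair M (4 ^ l * s) := hsub (sq_mono (by omega) h2)
    have a2 : e.snd ∈ stair M (4 ^ l * s) := hsub ((ga_nbr_sq e).1 h2)
    tauto
  · intro h1
    refine Finset.mem_sdiff.2 ⟨h1, fun h2 => ?_⟩
    have a1 : e.snd ∈ stair M (4 ^ l * s) := hsub (sq_mono (by omega) h2)
    have a2 : e.1 ∈ stair M (4 ^ l * s) := hsub ((ga_nbr_sq e).2 h2)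
    tauto

theorem endIn_subset_sq (M l s : ℕ) : endIn M l s ⊆ sq (4 * (M * s)) := Finset.inter_subset_right

theorem endIn_disjoint_guard (M l s : ℕ) (hl : 2 ≤ l) : Disjoint (endIn M l s) (guard M l s) := by
  rw [Finset.disjoint_left]
  intro v h1 h2
  have h3 := (Finset.mem_sdiff.1 h2).2
  exact h3 (sq_mono (Nat.mul_le_mul_right _ (ga_two_pow_ge (k := 2) hl)) (endIn_subset_sq M l s h1))

theorem endOut_disjoint_guard (M l s : ℕ) (hl : 3 ≤ l) : Disjoint (endOut M l s) (guard M l s) := by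
  rw [Finset.disjoint_left]
  intro v h1 h2
  have h3 := (Finset.mem_sdiff.1 h2).1
  refine (Finset.mem_sdiff.1 h1).2 (sq_mono (Nat.mul_le_mul_right _ ?_) h3)
  obtain ⟨k, rfl⟩ : ∃ k, l = k + 3 := ⟨l - 3, by omega⟩
  have e1 : 4 ^ (k + 3 - 1) = 16 * (2 ^ k * 2 ^ k) := by
    rw [show k + 3 - 1 = k + 2 by omega, pow_add, ga_four_pow]; ring
  have e2 : 2 * 2 ^ (k + 3) = 16 * 2 ^ k := by rw [pow_add]; ring
  rw [e1, e2]
  exact Nat.mul_le_mul_left _ (Nat.le_mul_of_pos_left _ (by positivity))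

/-! blow-ups -/

theorem ga_mem_blow {s : ℕ} {A : Finset (ℤ × ℤ)} {v : ℤ × ℤ} : v ∈ blow s A ↔ (v.1 / (s : ℤ), v.2 / (s : ℤ)) ∈ A := Iff.rfl

theorem ga_blow_sdiff (s : ℕ) (A B : Finset (ℤ × ℤ)) : blow s (A \ B) = blow s A \ blow s B := by
  ext v
  simp only [ga_mem_blow, Finset.mem_sdiff, Set.mem_sdiff]

theorem ga_blow_inter (s : ℕ) (A B : Finset (ℤ × ℤ)) : blow s (A ∩ B) = blow s A ∩ blow s B := by
  ext v
  simp only [ga_mem_blow, Finset.mem_inter, Set.mem_inter_iff]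

/-- blow-up: all regions at scale `s` are blow-ups of the regions at scale `1` -/
theorem blow_sq (n s : ℕ) (hs : 1 ≤ s) : blow s (sq n) = ↑(sq (n * s)) := by
  have hs' : (0 : ℤ) < s := by exact_mod_cast hs
  ext v
  simp only [ga_mem_blow, Finset.mem_coe, mem_sq]
  push_cast
  rw [Int.le_ediv_iff_mul_le hs', Int.le_ediv_iff_mul_le hs', Int.ediv_lt_iff_lt_mul hs', Int.ediv_lt_iff_lt_mul hs', neg_mul]

theorem blow_stair (M t s : ℕ) (hs : 1 ≤ s) (ht : 1 ≤ t) : blow s (stair M t) = ↑(stair M (t * s)) := by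
  have hs' : (0 : ℤ) < s := by exact_mod_cast hs
  ext v
  have h1 : (v.1 / (s : ℤ), v.2 / (s : ℤ)) ∈ sq (M * t) ↔ v ∈ sq (M * (t * s)) := by
    have := Set.ext_iff.1 (blow_sq (M * t) s hs) v
    rw [ga_mem_blow, Finset.mem_coe, mul_assoc] at this
    exact this
  rw [ga_mem_blow, Finset.mem_coe, ga_mem_stair, ga_mem_stair, h1]
  simp only
  push_cast
  rw [Int.ediv_ediv_of_nonneg hs'.le, Int.ediv_ediv_of_nonneg hs'.le, mul_comm (s : ℤ) (t : ℤ)]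

theorem blow_ann (M l s : ℕ) (hs : 1 ≤ s) : blow s (ann M l 1) = ↑(ann M l s) := by
  rw [ann, ann, ga_blow_sdiff, blow_stair M _ s hs (by have := ga_pow4_pos l; omega), blow_stair M 1 s hs le_rfl,
    Finset.coe_sdiff, mul_one, one_mul]

theorem blow_ann2 (M l s : ℕ) (hs : 1 ≤ s) : blow s (ann2 M l 1) = ↑(ann2 M l s) := by
  rw [ann2_eq_ann, ann2_eq_ann, blow_ann M _ s hs]

theorem blow_guard (M l s : ℕ) (hs : 1 ≤ s) : blow s (guard M l 1) = ↑(guard M l s) := by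
  rw [guard, guard, ga_blow_sdiff, blow_sq _ s hs, blow_sq _ s hs, Finset.coe_sdiff, mul_one, mul_assoc _ M s, mul_assoc _ M s]

theorem blow_endIn (M l s : ℕ) (hs : 1 ≤ s) : blow s (endIn M l 1) = ↑(endIn M l s) := by
  rw [endIn, endIn, ga_blow_inter, blow_ann M l s hs, blow_sq _ s hs, Finset.coe_inter, mul_one, mul_assoc _ M s]

theorem blow_endOut (M l s : ℕ) (hs : 1 ≤ s) : blow s (endOut M l 1) = ↑(endOut M l s) := by
  rw [endOut, endOut, ga_blow_sdiff, blow_ann M l s hs, blow_sq _ s hs, Finset.coe_sdiff, mul_one, mul_assoc _ M s]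

theorem blow_obox (M l s : ℕ) (hs : 1 ≤ s) : blow s (obox M l 1) = ↑(obox M l s) := by
  have hs' : (0 : ℤ) < s := by exact_mod_cast hs
  ext v
  simp only [ga_mem_blow, Finset.mem_coe, obox, Finset.mem_product, Finset.mem_Ico]
  push_cast
  rw [Int.le_ediv_iff_mul_le hs', Int.le_ediv_iff_mul_le hs', Int.ediv_lt_iff_lt_mul hs', Int.ediv_lt_iff_lt_mul hs']
  have e1 : (2 : ℤ) ^ l * ((M : ℤ) * 1) * s = 2 ^ l * ((M : ℤ) * s) := by ring
  have e2 : (2 : ℤ) * 2 ^ l * ((M : ℤ) * 1) * s = 2 * 2 ^ l * ((M : ℤ) * s) := by ring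
  rw [e1, e2, zero_mul]

/-!
# ROW 285, S46 leaf L-S46-ANNGEOM: the annuli as `CGeom`s on the centred uniform grids `cgrid m s`.   Bookkeeping, no analysis.
`(cgrid m s).cell κ = {v : (v.1 / s, v.2 / s) = (κ.1 - m, κ.2 - m)}` (`Int.ediv` characterisation: `s k ≤ x < s (k+1) ↔ x / s = k`).
`NoDiag`: with `F k = f (k / λ)`: if `(i,j), (i+1,j+1)` satisfy `F i + F j ≤ M²`, `F (i+1) + F (j+1) ≤ M²`, then one of `F (i+1) + F j`, `F i + F (j+1)` is `≤ M²` (add the inequalities); the same for complements; the inner disc is far from the outer wall.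
-/

theorem ag_ediv_iff {S x k : ℤ} (hS : 0 < S) : (S * k ≤ x ∧ x < S * (k + 1)) ↔ x / S = k := by
  constructor
  · rintro ⟨h1, h2⟩
    have h3 : k ≤ x / S := (Int.le_ediv_iff_mul_le hS).2 (by rw [mul_comm]; exact h1)
    have h4 : x / S < k + 1 := (Int.ediv_lt_iff_lt_mul hS).2 (by rw [mul_comm]; exact h2)
    omega
  · rintro rfl
    have h3 : x / S * S ≤ x := (Int.le_ediv_iff_mul_le hS).1 le_rfl
    have h4 : x < (x / S + 1) * S := (Int.ediv_lt_iff_lt_mul hS).1 (by omega)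
    exact ⟨by rw [mul_comm]; exact h3, by rw [mul_comm]; exact h4⟩

theorem ag_mem_cell (m s : ℕ) (hs : 1 ≤ s) (κ : Fin (2 * m) × Fin (2 * m)) (v : ℤ × ℤ) :
    v ∈ (cgrid m s).cell κ ↔ v.1 / (s : ℤ) = (κ.1.1 : ℤ) - m ∧ v.2 / (s : ℤ) = (κ.2.1 : ℤ) - m := by
  have hS : (0 : ℤ) < (s : ℤ) := by exact_mod_cast hs
  have hmax : max s 1 = s := max_eq_left hs
  unfold DGrid.cell cgrid
  simp only [Finset.mem_product, Finset.mem_Ico, Fin.val_castSucc, Fin.val_succ, hmax]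
  rw [← ag_ediv_iff hS, ← ag_ediv_iff hS]
  push_cast
  have e1 : (κ.1.1 : ℤ) + 1 - m = (κ.1.1 : ℤ) - m + 1 := by ring
  have e2 : (κ.2.1 : ℤ) + 1 - m = (κ.2.1 : ℤ) - m + 1 := by ring
  rw [e1, e2]

theorem ag_mem_cellsOf (m : ℕ) (A : Finset (ℤ × ℤ)) (κ : Fin (2 * m) × Fin (2 * m)) :
    κ ∈ cellsOf m A ↔ (((κ.1.1 : ℤ) - m, (κ.2.1 : ℤ) - m) : ℤ × ℤ) ∈ A := by
  unfold cellsOf
  simp only [Finset.mem_filter, Finset.mem_univ, true_and]

theorem ag_mem_region (m s : ℕ) (hs : 1 ≤ s) (A : Finset (ℤ × ℤ)) (hA : A ⊆ sq m) (v : ℤ × ℤ) :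
    v ∈ (cgrid m s).region (cellsOf m A) ↔ (v.1 / (s : ℤ), v.2 / (s : ℤ)) ∈ A := by
  unfold DGrid.region
  rw [Finset.mem_biUnion]
  constructor
  · rintro ⟨κ, hκ, hv⟩
    rw [ag_mem_cell m s hs] at hv
    rw [ag_mem_cellsOf] at hκ
    rw [hv.1, hv.2]
    exact hκ
  · intro h
    have h1 := mem_sq.1 (hA h)
    simp only at h1
    obtain ⟨⟨a1, a2⟩, ⟨b1, b2⟩⟩ := h1
    refine ⟨(⟨(v.1 / (s : ℤ) + m).toNat, by omega⟩, ⟨(v.2 / (s : ℤ) + m).toNat, by omega⟩), ?_, ?_⟩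
    · rw [ag_mem_cellsOf]
      simp only
      rw [Int.toNat_of_nonneg (by omega), Int.toNat_of_nonneg (by omega), add_sub_cancel_right, add_sub_cancel_right]
      exact h
    · rw [ag_mem_cell m s hs]
      simp only
      rw [Int.toNat_of_nonneg (by omega), Int.toNat_of_nonneg (by omega), add_sub_cancel_right, add_sub_cancel_right]
      exact ⟨rfl, rfl⟩

theorem cgrid_region (m s : ℕ) (hs : 1 ≤ s) (A : Finset (ℤ × ℤ)) (hA : A ⊆ sq m) :
    (↑((cgrid m s).region (cellsOf m A)) : Set (ℤ × ℤ)) = blow s A := by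
  ext v
  rw [Finset.mem_coe, ag_mem_region m s hs A hA]
  rfl

theorem cgrid_admissible (m : ℕ) : Admissible 1 (fun k => cgrid m k) (fun k => max k 1) := by
  refine ⟨?_, fun k => ⟨⟨?_, ?_⟩, ⟨?_, ?_⟩⟩⟩
  · exact Filter.tendsto_atTop_mono (fun k => le_max_left k 1) Filter.tendsto_id
  all_goals
    intro i
    simp only [cgrid, Fin.val_castSucc, Fin.val_succ]
    push_cast
    apply le_of_eq
    ring

theorem ag_region_eq (m s : ℕ) (hs : 1 ≤ s) (A B : Finset (ℤ × ℤ)) (hA : A ⊆ sq m) (hB : blow s A = ↑B) :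
    (cgrid m s).region (cellsOf m A) = B :=
  Finset.coe_injective ((cgrid_region m s hs A hA).trans hB)

theorem ag_ann_subset (M l : ℕ) : ann M l 1 ⊆ sq (M * 4 ^ l) := by
  have h := stair_subset_sq M (4 ^ l * 1)
  rw [mul_one] at h
  intro v hv
  apply h
  unfold ann at hv
  rw [mul_one] at hv
  exact (Finset.mem_sdiff.1 hv).1

theorem annGeom_region (M l s : ℕ) (γ : ℝ) (hs : 1 ≤ s) : (cgrid (M * 4 ^ l) s).region (annGeom M l γ).T = ann M l s := by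
  exact ag_region_eq _ s hs _ _ (ag_ann_subset M l) (blow_ann M l s hs)

theorem annGeom_cutB (M l s : ℕ) (γ : ℝ) : (annGeom M l γ).cutB (cgrid (M * 4 ^ l) s) = ∅ := by
  ext e
  simp [CGeom.cutB, annGeom]

theorem annGeom_region_of (M l s : ℕ) (hl : 1 ≤ l) (hs : 1 ≤ s) :
    (cgrid (M * 4 ^ l) s).region (cellsOf (M * 4 ^ l) (endIn M l 1)) = endIn M l s ∧
    (cgrid (M * 4 ^ l) s).region (cellsOf (M * 4 ^ l) (endOut M l 1)) = endOut M l s ∧
    (cgrid (M * 4 ^ l) s).region (cellsOf (M * 4 ^ l) (guard M l 1)) = guard M l s := by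
  refine ⟨ag_region_eq _ s hs _ _ ?_ (blow_endIn M l s hs), ag_region_eq _ s hs _ _ ?_ (blow_endOut M l s hs),
    ag_region_eq _ s hs _ _ ?_ (blow_guard M l s hs)⟩
  · exact fun v hv => ag_ann_subset M l (Finset.mem_inter.1 hv).1
  · exact fun v hv => ag_ann_subset M l (Finset.mem_sdiff.1 hv).1
  · intro v hv
    refine sq_mono ?_ (Finset.mem_sdiff.1 hv).1
    have h1 : 2 * 2 ^ l ≤ 4 ^ l := by
      have h2 : (4 : ℕ) ^ l = 2 ^ l * 2 ^ l := by rw [← mul_pow]; norm_num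
      have h3 : 2 ≤ 2 ^ l := by
        calc 2 = 2 ^ 1 := rfl
          _ ≤ 2 ^ l := Nat.pow_le_pow_right (by norm_num) hl
      rw [h2]
      exact Nat.mul_le_mul_right _ h3
    calc 2 * 2 ^ l * (M * 1) = M * (2 * 2 ^ l) := by ring
      _ ≤ M * 4 ^ l := Nat.mul_le_mul_left _ h1

/-- `f k = max (k²) ((k+1)²)` -/
def agf (k : ℤ) : ℤ := max (k ^ 2) ((k + 1) ^ 2)

theorem agf_nonneg (k : ℤ) : 0 ≤ agf k := le_max_of_le_left (sq_nonneg k)

theorem ag_mem_stair (M s : ℕ) (hs : 1 ≤ s) (v : ℤ × ℤ) :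
    v ∈ stair M s ↔ agf (v.1 / (s : ℤ)) + agf (v.2 / (s : ℤ)) ≤ (M : ℤ) ^ 2 := by
  unfold stair
  rw [Finset.mem_filter]
  refine ⟨fun h => h.2, fun h => ⟨?_, h⟩⟩
  have hS : (0 : ℤ) < (s : ℤ) := by exact_mod_cast hs
  have key : ∀ x : ℤ, agf (x / (s : ℤ)) ≤ (M : ℤ) ^ 2 → -((M * s : ℕ) : ℤ) ≤ x ∧ x < ((M * s : ℕ) : ℤ) := by
    intro x hx
    obtain ⟨k, hk⟩ : ∃ k : ℤ, k = x / (s : ℤ) := ⟨_, rfl⟩
    rw [← hk] at hx
    have h1 : k ^ 2 ≤ (M : ℤ) ^ 2 := (le_max_left _ _).trans hx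
    have h2 : (k + 1) ^ 2 ≤ (M : ℤ) ^ 2 := (le_max_right _ _).trans hx
    have hM0 : (0 : ℤ) ≤ (M : ℤ) := Int.natCast_nonneg _
    have h3 : -(M : ℤ) ≤ k := (abs_le.1 (abs_le_of_sq_le_sq h1 hM0)).1
    have h4 : k + 1 ≤ (M : ℤ) := (abs_le.1 (abs_le_of_sq_le_sq h2 hM0)).2
    obtain ⟨h5, h6⟩ := (ag_ediv_iff hS).2 hk.symm
    push_cast
    constructor
    · nlinarith
    · nlinarith
  have h1 := agf_nonneg (v.1 / (s : ℤ))
  have h2 := agf_nonneg (v.2 / (s : ℤ))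
  exact mem_sq.2 ⟨key v.1 (by omega), key v.2 (by omega)⟩

theorem ag_mem_ann1 (M l : ℕ) (a b : ℤ) :
    (a, b) ∈ ann M l 1 ↔ agf (a / ((4 ^ l : ℕ) : ℤ)) + agf (b / ((4 ^ l : ℕ) : ℤ)) ≤ (M : ℤ) ^ 2 ∧ ¬ (agf a + agf b ≤ (M : ℤ) ^ 2) := by
  unfold ann
  rw [Finset.mem_sdiff, mul_one, ag_mem_stair M _ (Nat.one_le_pow _ _ (by norm_num)), ag_mem_stair M 1 le_rfl]
  simp only [Nat.cast_one, Int.ediv_one]

/-- near the inner disc the outer condition is automatic -/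
theorem ag_near (M : ℤ) (L : ℤ) (hL : 4 ≤ L) (a : ℤ) (h1 : -(M + 1) ≤ a) (h2 : a ≤ M + 1) :
    16 * agf (a / L) ≤ (M + 5) ^ 2 := by
  obtain ⟨k, hk⟩ : ∃ k : ℤ, k = a / L := ⟨_, rfl⟩
  rw [← hk]
  obtain ⟨h5, h6⟩ := (ag_ediv_iff (by omega : (0 : ℤ) < L)).2 hk.symm
  have hb : -(M + 4) ≤ 4 * k ∧ 4 * k ≤ M + 1 := by
    constructor
    · by_contra h
      have h7 : k + 1 ≤ 0 := by omega
      nlinarith
    · by_contra h
      have h7 : 0 ≤ k := by omega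
      nlinarith
  unfold agf
  rcases max_choice (k ^ 2) ((k + 1) ^ 2) with h | h <;> rw [h] <;> nlinarith

/-- far from the inner disc -/
theorem ag_far (M : ℤ) (hM : 0 ≤ M) (a : ℤ) (h : a ≤ -(M + 1) ∨ M + 1 ≤ a) : M ^ 2 < agf a := by
  refine lt_of_lt_of_le ?_ (le_max_left _ _)
  rcases h with h | h <;> nlinarith

theorem ag_diag (M : ℤ) (L : ℤ) (hM : 4 ≤ M) (hL : 4 ≤ L) (i j : ℤ) :
    ((agf (i / L) + agf (j / L) ≤ M ^ 2 ∧ ¬ (agf i + agf j ≤ M ^ 2)) →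
     (agf ((i + 1) / L) + agf ((j + 1) / L) ≤ M ^ 2 ∧ ¬ (agf (i + 1) + agf (j + 1) ≤ M ^ 2)) →
      (agf ((i + 1) / L) + agf (j / L) ≤ M ^ 2 ∧ ¬ (agf (i + 1) + agf j ≤ M ^ 2)) ∨
      (agf (i / L) + agf ((j + 1) / L) ≤ M ^ 2 ∧ ¬ (agf i + agf (j + 1) ≤ M ^ 2))) ∧
    ((agf ((i + 1) / L) + agf (j / L) ≤ M ^ 2 ∧ ¬ (agf (i + 1) + agf j ≤ M ^ 2)) →
     (agf (i / L) + agf ((j + 1) / L) ≤ M ^ 2 ∧ ¬ (agf i + agf (j + 1) ≤ M ^ 2)) →
      (agf (i / L) + agf (j / L) ≤ M ^ 2 ∧ ¬ (agf i + agf j ≤ M ^ 2)) ∨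
      (agf ((i + 1) / L) + agf ((j + 1) / L) ≤ M ^ 2 ∧ ¬ (agf (i + 1) + agf (j + 1) ≤ M ^ 2))) := by
  have n1 := agf_nonneg i
  have n2 := agf_nonneg (i + 1)
  have n3 := agf_nonneg j
  have n4 := agf_nonneg (j + 1)
  by_cases hnear : (-(M + 1) ≤ i ∧ i + 1 ≤ M + 1) ∧ (-(M + 1) ≤ j ∧ j + 1 ≤ M + 1)
  · obtain ⟨⟨a1, a2⟩, ⟨b1, b2⟩⟩ := hnear
    have f1 := ag_near M L hL i a1 (by omega)
    have f2 := ag_near M L hL (i + 1) (by omega) a2
    have f3 := ag_near M L hL j b1 (by omega)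
    have f4 := ag_near M L hL (j + 1) (by omega) b2
    have hq : 2 * (M + 5) ^ 2 ≤ 16 * M ^ 2 := by nlinarith
    constructor
    · rintro ⟨-, h1⟩ ⟨-, h2⟩
      by_cases h3 : agf (i + 1) + agf j ≤ M ^ 2
      · exact Or.inr ⟨by omega, by omega⟩
      · exact Or.inl ⟨by omega, h3⟩
    · rintro ⟨-, h1⟩ ⟨-, h2⟩
      by_cases h3 : agf i + agf j ≤ M ^ 2
      · exact Or.inr ⟨by omega, by omega⟩
      · exact Or.inl ⟨by omega, h3⟩
  · have hfar : (M ^ 2 < agf i ∧ M ^ 2 < agf (i + 1)) ∨ (M ^ 2 < agf j ∧ M ^ 2 < agf (j + 1)) := by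
      by_cases hi : -(M + 1) ≤ i ∧ i + 1 ≤ M + 1
      · right
        have hj : ¬ (-(M + 1) ≤ j ∧ j + 1 ≤ M + 1) := fun h => hnear ⟨hi, h⟩
        have hj' : j + 1 ≤ -(M + 1) ∨ M + 1 ≤ j := by omega
        exact ⟨ag_far M (by omega) j (by omega), ag_far M (by omega) (j + 1) (by omega)⟩
      · left
        have hi' : i + 1 ≤ -(M + 1) ∨ M + 1 ≤ i := by omega
        exact ⟨ag_far M (by omega) i (by omega), ag_far M (by omega) (i + 1) (by omega)⟩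
    constructor
    · rintro ⟨h1, -⟩ ⟨h2, -⟩
      by_cases h3 : agf ((i + 1) / L) + agf (j / L) ≤ M ^ 2
      · exact Or.inl ⟨h3, by omega⟩
      · exact Or.inr ⟨by omega, by omega⟩
    · rintro ⟨h1, -⟩ ⟨h2, -⟩
      by_cases h3 : agf (i / L) + agf (j / L) ≤ M ^ 2
      · exact Or.inl ⟨h3, by omega⟩
      · exact Or.inr ⟨by omega, by omega⟩

theorem ag_noDiag (M l : ℕ) (hM : 4 ≤ M) (hl : 1 ≤ l) (Γ : CGeom (2 * (M * 4 ^ l)) (2 * (M * 4 ^ l)))
    (hT : Γ.T = cellsOf (M * 4 ^ l) (ann M l 1)) (hc : Γ.cutF = ∅) : Γ.NoDiag := by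
  have hL : (4 : ℤ) ≤ ((4 ^ l : ℕ) : ℤ) := by
    have : 4 ^ 1 ≤ 4 ^ l := Nat.pow_le_pow_right (by norm_num) hl
    exact_mod_cast this
  have hM' : (4 : ℤ) ≤ (M : ℤ) := by exact_mod_cast hM
  refine ⟨?_, ?_⟩
  · intro κ κ' _ _ h
    rw [hc] at h
    simp at h
  · intro i j i' j' hi hj
    have hi' : ((i'.1 : ℕ) : ℤ) - ((M * 4 ^ l : ℕ) : ℤ) = ((i.1 : ℕ) : ℤ) - ((M * 4 ^ l : ℕ) : ℤ) + 1 := by
      rw [← hi]
      push_cast
      ring
    have hj' : ((j'.1 : ℕ) : ℤ) - ((M * 4 ^ l : ℕ) : ℤ) = ((j.1 : ℕ) : ℤ) - ((M * 4 ^ l : ℕ) : ℤ) + 1 := by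
      rw [← hj]
      push_cast
      ring
    have key := ag_diag (M : ℤ) ((4 ^ l : ℕ) : ℤ) hM' hL (((i.1 : ℕ) : ℤ) - ((M * 4 ^ l : ℕ) : ℤ))
      (((j.1 : ℕ) : ℤ) - ((M * 4 ^ l : ℕ) : ℤ))
    rw [hc, hT]
    simp only [ag_mem_cellsOf, hi', hj', ag_mem_ann1, Finset.notMem_empty, not_false_eq_true, and_true]
    exact ⟨fun _ h1 h2 => key.1 h1 h2, fun _ h1 h2 => key.2 h1 h2⟩

theorem annGeom_noDiag (M l : ℕ) (γ : ℝ) (hM : 4 ≤ M) (hl : 1 ≤ l) : (annGeom M l γ).NoDiag := by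
  exact ag_noDiag M l hM hl _ rfl rfl

theorem ag_cgrid_max (m s : ℕ) : cgrid m s = cgrid m (max s 1) := by
  have h : max (max s 1) 1 = max s 1 := by omega
  unfold cgrid
  simp only [h]

/-- a connected geometry with one observation box of positive weight is proper -/
theorem ag_proper_gen {m₁ m₂ : ℕ} (Γ : CGeom m₁ m₂) (g : DGrid m₁ m₂)
    (hOC : OneComp (g.region Γ.T) (Γ.cutB g) ↑(g.region Γ.T)) (o : Fin Γ.nObs) (hw : 0 < Γ.wgt o) (v0 : ℤ × ℤ)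
    (hv0 : v0 ∈ g.region (Γ.box o ∩ Γ.T)) : (Γ.law g).Proper := by
  intro h _ hc
  have h1 : ∀ e : (Γ.graph g).E, h ((Γ.graph g).tgt e) - h ((Γ.graph g).src e) = 0 :=
    fun e => congrFun (congrArg Prod.fst hc) e
  have h2 : ∑ v, (Γ.law g).B o v * (2 * Real.pi * (h v : ℝ)) = 0 := congrFun (congrArg Prod.snd hc) o
  have hconst : ∀ x y : (Γ.graph g).V, h x = h y := by
    intro x y
    have h3 := hOC (fun v => if hv : v ∈ g.region Γ.T then h (show (Γ.graph g).V from ⟨v, hv⟩) else 0) (fun e he => by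
      have h4 := h1 (show (Γ.graph g).E from ⟨e, he⟩)
      simp only [dif_pos (domBonds_snd he), dif_pos (domBonds_fst he)]
      exact sub_eq_zero.1 h4) x.1 x.2 y.1 y.2
    simp only [dif_pos x.2, dif_pos y.2] at h3
    exact h3
  have hT : v0 ∈ g.region Γ.T :=
    Finset.biUnion_subset_biUnion_of_subset_left _ Finset.inter_subset_right hv0
  have hB : v0 ∈ g.region (Γ.box o) :=
    Finset.biUnion_subset_biUnion_of_subset_left _ Finset.inter_subset_left hv0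
  obtain ⟨x0, hx0⟩ : ∃ x0 : (Γ.graph g).V, x0 = (show (Γ.graph g).V from ⟨v0, hT⟩) := ⟨_, rfl⟩
  have hcard : (0 : ℝ) < ((g.region (Γ.box o ∩ Γ.T)).card : ℝ) := by
    exact_mod_cast Finset.card_pos.2 ⟨v0, hv0⟩
  have hnn : ∀ v, 0 ≤ Γ.avgRow g (Γ.box o) v := by
    intro v
    unfold CGeom.avgRow
    split_ifs
    · exact (inv_pos.2 hcard).le
    · exact le_rfl
  have hpos0 : 0 < Γ.avgRow g (Γ.box o) x0 := by
    unfold CGeom.avgRow
    rw [if_pos]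
    · exact inv_pos.2 hcard
    · rw [hx0]
      exact hB
  have hsum : 0 < ∑ v, Γ.avgRow g (Γ.box o) v :=
    Finset.sum_pos' (fun v _ => hnn v) ⟨x0, Finset.mem_univ _, hpos0⟩
  have h5 : ∑ v, (Γ.law g).B o v * (2 * Real.pi * (h v : ℝ)) =
      Real.sqrt (Γ.wgt o) * (2 * Real.pi) * (∑ v, Γ.avgRow g (Γ.box o) v) * (h x0 : ℝ) := by
    rw [Finset.mul_sum, Finset.sum_mul]
    refine Finset.sum_congr rfl fun v _ => ?_
    rw [hconst v x0]
    show Real.sqrt (Γ.wgt o) * Γ.avgRow g (Γ.box o) v * (2 * Real.pi * (h x0 : ℝ)) = _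
    ring
  rw [h5] at h2
  have h6 : (h x0 : ℝ) = 0 := by
    have h7 : Real.sqrt (Γ.wgt o) * (2 * Real.pi) * (∑ v, Γ.avgRow g (Γ.box o) v) ≠ 0 :=
      (mul_pos (mul_pos (Real.sqrt_pos.2 hw) (by positivity)) hsum).ne'
    exact (mul_eq_zero.1 h2).resolve_left h7
  funext v
  rw [hconst v x0]
  exact_mod_cast h6

theorem ag_guard_subset (M l : ℕ) (hl : 1 ≤ l) : guard M l 1 ⊆ sq (M * 4 ^ l) := by
  intro v hv
  refine sq_mono ?_ (Finset.mem_sdiff.1 hv).1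
  have h1 : 2 * 2 ^ l ≤ 4 ^ l := by
    have h2 : (4 : ℕ) ^ l = 2 ^ l * 2 ^ l := by rw [← mul_pow]; norm_num
    have h3 : 2 ≤ 2 ^ l := by
      calc 2 = 2 ^ 1 := rfl
        _ ≤ 2 ^ l := Nat.pow_le_pow_right (by norm_num) hl
    rw [h2]
    exact Nat.mul_le_mul_right _ h3
  calc 2 * 2 ^ l * (M * 1) = M * (2 * 2 ^ l) := by ring
    _ ≤ M * 4 ^ l := Nat.mul_le_mul_left _ h1

theorem annGeom_proper (M l s : ℕ) (γ : ℝ) (hγ : 0 < γ) (hM : 4 ≤ M) (hl : 4 ≤ l) : ((annGeom M l γ).law (cgrid (M * 4 ^ l) s)).Proper := by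
  rw [ag_cgrid_max]
  obtain ⟨s', hs', hs1⟩ : ∃ s' : ℕ, s' = max s 1 ∧ 1 ≤ s' := ⟨_, rfl, le_max_right _ _⟩
  rw [← hs']
  have hOC : OneComp ((cgrid (M * 4 ^ l) s').region (annGeom M l γ).T) ((annGeom M l γ).cutB (cgrid (M * 4 ^ l) s'))
      ↑((cgrid (M * 4 ^ l) s').region (annGeom M l γ).T) := by
    rw [annGeom_region M l s' γ hs1, annGeom_cutB]
    exact ann_oneComp M l s' hM hl hs1
  have hsub : cellsOf (M * 4 ^ l) (obox M l 1) ⊆ cellsOf (M * 4 ^ l) (ann M l 1) := by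
    intro κ hκ
    rw [ag_mem_cellsOf] at hκ ⊢
    exact guard_subset_ann M l 1 hM hl le_rfl (obox_subset_guard M l 1 hκ)
  have hreg : (cgrid (M * 4 ^ l) s').region (cellsOf (M * 4 ^ l) (obox M l 1)) = obox M l s' :=
    ag_region_eq _ s' hs1 _ _ (fun v hv => ag_guard_subset M l (by omega) (obox_subset_guard M l 1 hv)) (blow_obox M l s' hs1)
  refine ag_proper_gen (annGeom M l γ) _ hOC (0 : Fin 1) hγ (((2 ^ l * (M * s') : ℕ) : ℤ), 0) ?_
  show _ ∈ (cgrid (M * 4 ^ l) s').region (cellsOf (M * 4 ^ l) (obox M l 1) ∩ cellsOf (M * 4 ^ l) (ann M l 1))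
  rw [Finset.inter_eq_left.2 hsub, hreg]
  unfold obox
  have hP : 0 < 2 ^ l * (M * s') := by positivity
  simp only [Finset.mem_product, Finset.mem_Ico]
  push_cast
  have hP' : (0 : ℤ) < 2 ^ l * ((M : ℤ) * (s' : ℤ)) := by exact_mod_cast hP
  refine ⟨⟨le_refl _, ?_⟩, ?_, hP'⟩
  · linarith
  · trivial

/-- the ends are separated from the guard by at least one cell -/
theorem annGeom_sep (M l : ℕ) (hM : 4 ≤ M) (hl : 4 ≤ l) :
    (∀ κ ∈ cellsOf (M * 4 ^ l) (endIn M l 1), ∀ κ' ∈ cellsOf (M * 4 ^ l) (guard M l 1),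
      κ.1.1 + 1 < κ'.1.1 ∨ κ'.1.1 + 1 < κ.1.1 ∨ κ.2.1 + 1 < κ'.2.1 ∨ κ'.2.1 + 1 < κ.2.1) ∧
    (∀ κ ∈ cellsOf (M * 4 ^ l) (endOut M l 1), ∀ κ' ∈ cellsOf (M * 4 ^ l) (guard M l 1),
      κ.1.1 + 1 < κ'.1.1 ∨ κ'.1.1 + 1 < κ.1.1 ∨ κ.2.1 + 1 < κ'.2.1 ∨ κ'.2.1 + 1 < κ.2.1) := by
  obtain ⟨P, hP⟩ : ∃ P : ℕ, P = 2 ^ l * (M * 1) := ⟨_, rfl⟩
  obtain ⟨Q, hQ⟩ : ∃ Q : ℕ, Q = 4 ^ (l - 1) * (M * 1) := ⟨_, rfl⟩
  obtain ⟨m, hm⟩ : ∃ m : ℕ, m = M * 4 ^ l := ⟨_, rfl⟩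
  have h16 : 16 ≤ 2 ^ l := by
    calc 16 = 2 ^ 4 := by norm_num
      _ ≤ 2 ^ l := Nat.pow_le_pow_right (by norm_num) hl
  have hP16 : 16 * M ≤ P := by
    rw [hP, mul_one]
    exact Nat.mul_le_mul_right _ h16
  have hQP : 4 * P ≤ Q := by
    have h1 : 4 ^ (l - 1) = 2 ^ l * 2 ^ (l - 2) := by
      rw [← pow_add, show (4 : ℕ) = 2 ^ 2 from rfl, ← pow_mul]
      congr 1
      omega
    have h2 : 4 ≤ 2 ^ (l - 2) := by
      calc 4 = 2 ^ 2 := by norm_num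
        _ ≤ 2 ^ (l - 2) := Nat.pow_le_pow_right (by norm_num) (by omega)
    rw [hQ, hP, h1]
    calc 4 * (2 ^ l * (M * 1)) = 2 ^ l * 4 * (M * 1) := by ring
      _ ≤ 2 ^ l * 2 ^ (l - 2) * (M * 1) := Nat.mul_le_mul_right _ (Nat.mul_le_mul_left _ h2)
  rw [← hm]
  constructor
  · intro κ hκ κ' hκ'
    rw [ag_mem_cellsOf] at hκ hκ'
    have h1 := mem_sq.1 (Finset.mem_inter.1 hκ).2
    have h2 := (Finset.mem_sdiff.1 hκ').2
    rw [← hP, mem_sq] at h2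
    simp only at h1 h2
    push_cast at h1
    omega
  · intro κ hκ κ' hκ'
    rw [ag_mem_cellsOf] at hκ hκ'
    have h1 := (Finset.mem_sdiff.1 hκ).2
    have h2 := mem_sq.1 (Finset.mem_sdiff.1 hκ').1
    rw [← hQ, mem_sq] at h1
    rw [mul_assoc, ← hP] at h2
    simp only at h1 h2
    push_cast at h2
    omega

theorem annGeom0_region (M l s : ℕ) (hs : 1 ≤ s) : (cgrid (M * 4 ^ l) s).region (annGeom0 M l).T = ann M l s := by
  exact ag_region_eq _ s hs _ _ (ag_ann_subset M l) (blow_ann M l s hs)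

theorem annGeom0_cutB (M l s : ℕ) : (annGeom0 M l).cutB (cgrid (M * 4 ^ l) s) = ∅ := by
  ext e
  simp [CGeom.cutB, annGeom0]

theorem annGeom0_noDiag (M l : ℕ) (hM : 4 ≤ M) (hl : 1 ≤ l) : (annGeom0 M l).NoDiag := by
  exact ag_noDiag M l hM hl _ rfl rfl

theorem ag_ray_eq_one (e : Bond) : ray e = 1 ↔ (e.2 = false ∧ e.1.2 = -1 ∧ 0 ≤ e.1.1) := by
  unfold ray
  split_ifs with h
  · exact ⟨fun _ => h, fun _ => rfl⟩
  · exact ⟨fun h0 => absurd h0 (by norm_num), fun h1 => absurd h1 h⟩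

theorem ag_mem_facesOf (m : ℕ) (C : Set Bond) (f : (Fin (2 * m) × Fin (2 * m)) × Bool) :
    f ∈ facesOf m C ↔ (((((f.1.1.1 : ℤ) - m, (f.1.2.1 : ℤ) - m) : ℤ × ℤ), f.2) : Bond) ∈ C := by
  unfold facesOf
  simp only [Finset.mem_filter, Finset.mem_univ, true_and]

theorem ag_ray_iff (m s : ℕ) (hs : 1 ≤ s) (T : Finset (Fin (2 * m) × Fin (2 * m))) (e : Bond)
    (he : e.1 ∈ (cgrid m s).region T) :
    (∃ f ∈ facesOf m {e | ray e = 1}, e.2 = f.2 ∧ e.1 ∈ (cgrid m s).cell f.1 ∧ e.snd ∉ (cgrid m s).cell f.1) ↔ ray e = 1 := by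
  have hS : (0 : ℤ) < (s : ℤ) := by exact_mod_cast hs
  rw [ag_ray_eq_one]
  constructor
  · rintro ⟨f, hf, h2, h3, h4⟩
    have hf' : ray (((((f.1.1.1 : ℤ) - m, (f.1.2.1 : ℤ) - m) : ℤ × ℤ), f.2) : Bond) = 1 := (ag_mem_facesOf m _ f).1 hf
    rw [ag_ray_eq_one] at hf'
    simp only at hf'
    obtain ⟨g1, g2, g3⟩ := hf'
    have h2' : e.2 = false := h2.trans g1
    rw [ag_mem_cell m s hs] at h3 h4
    have hsnd : e.snd = (e.1.1, e.1.2 + 1) := by
      unfold Bond.snd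
      rw [h2']
      rfl
    rw [hsnd] at h4
    simp only at h4
    obtain ⟨a1, a2⟩ := (ag_ediv_iff hS).2 h3.1
    obtain ⟨b1, b2⟩ := (ag_ediv_iff hS).2 h3.2
    rw [g2] at b1 b2
    refine ⟨h2', ?_, ?_⟩
    · by_contra hne
      apply h4
      refine ⟨h3.1, ?_⟩
      rw [g2]
      exact (ag_ediv_iff hS).1 ⟨by omega, by omega⟩
    · nlinarith
  · rintro ⟨h1, h2, h3⟩
    obtain ⟨κ, hκ, hc⟩ := Finset.mem_biUnion.1 he
    have hc' := (ag_mem_cell m s hs κ e.1).1 hc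
    have hk2 : (κ.2.1 : ℤ) - m = -1 := by
      rw [← hc'.2, h2]
      exact (ag_ediv_iff hS).1 ⟨by omega, by omega⟩
    have hk1 : 0 ≤ (κ.1.1 : ℤ) - m := by
      rw [← hc'.1]
      exact Int.ediv_nonneg h3 hS.le
    refine ⟨(κ, false), ?_, h1, hc, ?_⟩
    · rw [ag_mem_facesOf]
      show ray _ = 1
      rw [ag_ray_eq_one]
      exact ⟨rfl, hk2, hk1⟩
    · have hsnd : e.snd = (e.1.1, e.1.2 + 1) := by
        unfold Bond.snd
        rw [h1]
        rfl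
      rw [hsnd, ag_mem_cell m s hs]
      simp only
      rintro ⟨-, h5⟩
      rw [h2, hk2] at h5
      norm_num at h5

/-- the string along the coarse faces below the positive half axis is `q • ray` on the bonds of the graph -/
theorem annGeom0_faceConn (M l s : ℕ) (hs : 1 ≤ s) (q : ℤ) (e : ((annGeom0 M l).graph (cgrid (M * 4 ^ l) s)).E) :
    (annGeom0 M l).faceConn (cgrid (M * 4 ^ l) s) (facesOf (M * 4 ^ l) {e | ray e = 1}) q e
      = (q • ray) (domBond (D := (cgrid (M * 4 ^ l) s).region (annGeom0 M l).T) (cut := (annGeom0 M l).cutB (cgrid (M * 4 ^ l) s)) e) := by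
  obtain ⟨e', he'⟩ := e
  have h1 : e'.1 ∈ (cgrid (M * 4 ^ l) s).region (annGeom0 M l).T := domBonds_fst he'
  have h2 := ag_ray_iff (M * 4 ^ l) s hs _ e' h1
  show (if ∃ f ∈ facesOf (M * 4 ^ l) {e | ray e = 1}, e'.2 = f.2 ∧ e'.1 ∈ (cgrid (M * 4 ^ l) s).cell f.1 ∧
    e'.snd ∉ (cgrid (M * 4 ^ l) s).cell f.1 then q else 0) = q • ray e'
  by_cases h3 : ray e' = 1
  · rw [if_pos (h2.2 h3), h3]
    simp
  · rw [if_neg (fun h => h3 (h2.1 h))]
    have h4 : ray e' = 0 := by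
      unfold ray at h3 ⊢
      split_ifs at h3 ⊢ with h5
      · exact absurd rfl h3
      · rfl
    rw [h4]
    simp

/-!
# ROW 285, S46 leaf L-S46-EN: calculus of the discrete energies `Men` (global form, trial fields, dual flows, blocks).   Finite-dimensional, paper-free.
`Men D cut P τ = inf_v enG D cut v (2π τ)` over real `v` on `ℤ²` vanishing on `P ∩ D` (`rspan` of `flatL G (domSet P) ∅` = real functions vanishing on `domSet P`; `iInf` of a function bounded below by `0`: `ciInf_le`, `le_ciInf`).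
-/

/-- the reference space of `dlaw D cut P ∅`: real functions vanishing on `domSet P` -/
theorem men_mem_rspan (D : Finset (ℤ × ℤ)) (cut : Set Bond) (P : Set (ℤ × ℤ)) (u : (domG D cut).V → ℝ) :
    u ∈ (dlaw D cut P ∅).rspan ↔ ∀ x ∈ (domSet P : Set (domG D cut).V), u x = 0 := by
  constructor
  · intro hu
    unfold HLaw.rspan at hu
    induction hu using Submodule.span_induction with
    | mem y hy =>
      obtain ⟨h, hh, rfl⟩ := hy
      intro x hx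
      have : h x = 0 := hh.1 x hx
      simp [this]
    | zero => intro x _; rfl
    | add y z _ _ hy hz => intro x hx; simp [hy x hx, hz x hx]
    | smul t y _ hy => intro x hx; simp [hy x hx]
  · intro hu
    have e : u = ∑ x, u x • (fun v => (((Pi.single x (1 : ℤ) : (domG D cut).V → ℤ) v : ℤ) : ℝ)) := by
      funext v
      simp only [Finset.sum_apply, Pi.smul_apply, smul_eq_mul]
      rw [Finset.sum_eq_single v]
      · simp
      · intro x _ hx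
        simp [Ne.symm hx]
      · intro h; exact absurd (Finset.mem_univ v) h
    rw [e]
    refine Submodule.sum_mem _ fun x _ => ?_
    by_cases hx : x ∈ (domSet P : Set (domG D cut).V)
    · rw [hu x hx, zero_smul]; exact Submodule.zero_mem _
    · refine Submodule.smul_mem _ _ (Submodule.subset_span ⟨Pi.single x 1, ?_, rfl⟩)
      refine ⟨?_, ?_⟩
      · intro y hy
        have : y ≠ x := fun h => hx (h ▸ hy)
        simp [this]
      · intro F hF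
        rw [Set.image_empty] at hF
        exact absurd hF (Set.notMem_empty _)

/-- the graph energy of a restricted field is the global energy -/
theorem men_en_domFn (D : Finset (ℤ × ℤ)) (cut : Set Bond) (v : ℤ × ℤ → ℝ) (θ : Bond → ℝ) :
    HLaw.en (G := domG D cut) (domFn v) (fun e => θ (domBond e)) = enG D cut v θ :=
  Finset.sum_coe_sort (domBonds D cut) (fun e => (v e.snd - v e.1 + θ e) ^ 2)

/-- extension by zero of a field on the graph -/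
noncomputable def menExt (D : Finset (ℤ × ℤ)) (cut : Set Bond) (u : (domG D cut).V → ℝ) : ℤ × ℤ → ℝ :=
  fun x => if h : x ∈ D then u ⟨x, h⟩ else 0

theorem men_domFn_ext (D : Finset (ℤ × ℤ)) (cut : Set Bond) (u : (domG D cut).V → ℝ) :
    domFn (D := D) (cut := cut) (menExt D cut u) = u := by
  funext x
  obtain ⟨x, hx⟩ := x
  show (if h : x ∈ D then u ⟨x, h⟩ else 0) = _
  rw [dif_pos hx]

theorem men_enG_nonneg (D : Finset (ℤ × ℤ)) (cut : Set Bond) (v : ℤ × ℤ → ℝ) (θ : Bond → ℝ) : 0 ≤ enG D cut v θ :=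
  Finset.sum_nonneg fun _ _ => sq_nonneg _

/-- the cost at stiffness `a`, as an infimum of energies -/
theorem men_gEn_eq (a : ℝ) (D : Finset (ℤ × ℤ)) (cut : Set Bond) (P : Set (ℤ × ℤ)) (τ : Bond → ℤ) :
    (dlaw D cut P ∅).gEn a (fun e => 2 * Real.pi * ((domFnE τ e : ℤ) : ℝ)) (fun o => o.elim)
      = ⨅ v : (dlaw D cut P ∅).rspan, a⁻¹ * enG D cut (menExt D cut (v : (domG D cut).V → ℝ)) fun e => 2 * Real.pi * (τ e : ℝ) := by
  unfold HLaw.gEn
  refine iInf_congr fun v => ?_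
  have h0 : ∑ o : (dlaw D cut P ∅).O, ((dlaw D cut P ∅).obs (v : (domG D cut).V → ℝ) o - (o.elim : ℝ)) ^ 2 = 0 :=
    Finset.sum_eq_zero fun o _ => o.elim
  rw [h0, add_zero, ← men_en_domFn, men_domFn_ext]
  rfl

theorem men_ext_adm (D : Finset (ℤ × ℤ)) (cut : Set Bond) (P : Set (ℤ × ℤ)) (v : (dlaw D cut P ∅).rspan) :
    ∀ x ∈ P, x ∈ D → menExt D cut (v : (domG D cut).V → ℝ) x = 0 := by
  intro x hx hD
  show (if h : x ∈ D then (v : (domG D cut).V → ℝ) ⟨x, h⟩ else 0) = 0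
  rw [dif_pos hD]
  exact (men_mem_rspan D cut P _).1 v.2 ⟨x, hD⟩ hx

theorem men_bdd (a : ℝ) (ha : 0 ≤ a) (D : Finset (ℤ × ℤ)) (cut : Set Bond) (P : Set (ℤ × ℤ)) (θ : Bond → ℝ) :
    BddBelow (Set.range fun v : (dlaw D cut P ∅).rspan => a⁻¹ * enG D cut (menExt D cut (v : (domG D cut).V → ℝ)) θ) :=
  ⟨0, by rintro _ ⟨v, rfl⟩; exact mul_nonneg (inv_nonneg.2 ha) (men_enG_nonneg _ _ _ _)⟩

/-- `enG` only sees the values on `D` -/
theorem men_enG_congr (D : Finset (ℤ × ℤ)) (cut : Set Bond) (v w : ℤ × ℤ → ℝ) (θ : Bond → ℝ) (h : ∀ x ∈ D, v x = w x) :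
    enG D cut v θ = enG D cut w θ := by
  unfold enG
  refine Finset.sum_congr rfl fun e he => ?_
  rw [h _ (domBonds_fst he), h _ (domBonds_snd he)]

/-- trial fields -/
theorem Men_le (D : Finset (ℤ × ℤ)) (cut : Set Bond) (P : Set (ℤ × ℤ)) (τ : Bond → ℤ) (v : ℤ × ℤ → ℝ) (hv : ∀ x ∈ P, x ∈ D → v x = 0) :
    Men D cut P τ ≤ enG D cut v fun e => 2 * Real.pi * (τ e : ℝ) := by
  unfold Men
  rw [men_gEn_eq]
  have hm : (domFn (D := D) (cut := cut) v) ∈ (dlaw D cut P ∅).rspan :=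
    (men_mem_rspan D cut P _).2 fun x hx => hv _ hx x.2
  refine (ciInf_le (men_bdd 1 zero_le_one D cut P _) ⟨_, hm⟩).trans (le_of_eq ?_)
  rw [inv_one, one_mul]
  refine men_enG_congr D cut _ _ _ fun x hx => ?_
  show (if h : x ∈ D then v x else 0) = _
  rw [dif_pos hx]

theorem le_Men (D : Finset (ℤ × ℤ)) (cut : Set Bond) (P : Set (ℤ × ℤ)) (τ : Bond → ℤ) (c : ℝ)
    (h : ∀ v : ℤ × ℤ → ℝ, (∀ x ∈ P, x ∈ D → v x = 0) → c ≤ enG D cut v fun e => 2 * Real.pi * (τ e : ℝ)) : c ≤ Men D cut P τ := by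
  unfold Men
  rw [men_gEn_eq]
  refine le_ciInf fun v => ?_
  rw [inv_one, one_mul]
  exact h _ (men_ext_adm D cut P v)

theorem Men_nonneg (D : Finset (ℤ × ℤ)) (cut : Set Bond) (P : Set (ℤ × ℤ)) (τ : Bond → ℤ) : 0 ≤ Men D cut P τ :=
  le_Men D cut P τ 0 fun _ _ => men_enG_nonneg _ _ _ _

theorem men_neg_le (D : Finset (ℤ × ℤ)) (cut : Set Bond) (P : Set (ℤ × ℤ)) (τ : Bond → ℤ) : Men D cut P (-τ) ≤ Men D cut P τ := by
  refine le_Men D cut P τ _ fun v hv => ?_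
  refine (Men_le D cut P (-τ) (fun x => - v x) fun x hx hD => by rw [hv x hx hD, neg_zero]).trans (le_of_eq ?_)
  unfold enG
  refine Finset.sum_congr rfl fun e _ => ?_
  simp only [Pi.neg_apply, Int.cast_neg]
  ring

theorem Men_neg (D : Finset (ℤ × ℤ)) (cut : Set Bond) (P : Set (ℤ × ℤ)) (τ : Bond → ℤ) : Men D cut P (-τ) = Men D cut P τ := by
  refine le_antisymm (men_neg_le D cut P τ) ?_
  have := men_neg_le D cut P (-τ)
  rwa [neg_neg] at this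

/-- dual (Thomson) bound: a flow `J` orthogonal to all admissible gradients -/
theorem Men_dual (D : Finset (ℤ × ℤ)) (cut : Set Bond) (P : Set (ℤ × ℤ)) (τ : Bond → ℤ) (J : Bond → ℝ)
    (hJ : ∀ v : ℤ × ℤ → ℝ, (∀ x ∈ P, x ∈ D → v x = 0) → ∑ e ∈ domBonds D cut, J e * (v e.snd - v e.1) = 0) :
    (∑ e ∈ domBonds D cut, J e * (2 * Real.pi * (τ e : ℝ))) ^ 2 ≤ Men D cut P τ * ∑ e ∈ domBonds D cut, J e ^ 2 := by
  have hS0 : 0 ≤ ∑ e ∈ domBonds D cut, J e ^ 2 := Finset.sum_nonneg fun _ _ => sq_nonneg _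
  rcases hS0.eq_or_lt with hS | hS
  · have hz : ∀ e ∈ domBonds D cut, J e = 0 := by
      intro e he
      have := (Finset.sum_eq_zero_iff_of_nonneg (fun e _ => sq_nonneg (J e))).1 hS.symm e he
      exact pow_eq_zero_iff (two_ne_zero) |>.1 this
    rw [← hS, mul_zero, Finset.sum_eq_zero (fun e he => by rw [hz e he, zero_mul])]
    simp
  · rw [← div_le_iff₀ hS]
    refine le_Men D cut P τ _ fun v hv => ?_
    rw [div_le_iff₀ hS]
    have h1 : ∑ e ∈ domBonds D cut, J e * (2 * Real.pi * (τ e : ℝ))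
        = ∑ e ∈ domBonds D cut, J e * (v e.snd - v e.1 + 2 * Real.pi * (τ e : ℝ)) := by
      have := hJ v hv
      simp only [mul_add, Finset.sum_add_distrib]
      rw [this, zero_add]
    rw [h1]
    have h2 := Finset.sum_mul_sq_le_sq_mul_sq (domBonds D cut) J
      (fun e => v e.snd - v e.1 + 2 * Real.pi * (τ e : ℝ))
    unfold enG
    linarith

/-- cutting bonds / removing sites decreases the energy -/
theorem Men_mono (D D' : Finset (ℤ × ℤ)) (cut cut' : Set Bond) (P : Set (ℤ × ℤ)) (τ : Bond → ℤ) (h : domBonds D' cut' ⊆ domBonds D cut) (hD : D' ⊆ D) :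
    Men D' cut' P τ ≤ Men D cut P τ := by
  refine le_Men D cut P τ _ fun v hv => ?_
  refine (Men_le D' cut' P τ v fun x hx hx' => hv x hx (hD hx')).trans ?_
  exact Finset.sum_le_sum_of_subset_of_nonneg h fun _ _ _ => sq_nonneg _

/-- the bonds of two isolated blocks -/
theorem men_bonds_union (D₁ D₂ : Finset (ℤ × ℤ)) (cut : Set Bond) (hd : Disjoint D₁ D₂)
    (hcut : ∀ e ∈ bdry (↑D₁ : Set (ℤ × ℤ)), e.1 ∈ D₁ ∪ D₂ → e.snd ∈ D₁ ∪ D₂ → e ∈ cut) :
    domBonds (D₁ ∪ D₂) cut = domBonds D₁ cut ∪ domBonds D₂ cut ∧ Disjoint (domBonds D₁ cut) (domBonds D₂ cut) := by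
  have mem : ∀ (D : Finset (ℤ × ℤ)) (e : Bond), e ∈ domBonds D cut ↔ e.1 ∈ D ∧ e.snd ∈ D ∧ e ∉ cut := by
    intro D e
    unfold domBonds
    simp [Finset.mem_filter, Finset.mem_product]
  constructor
  · ext e
    rw [Finset.mem_union, mem, mem, mem]
    constructor
    · rintro ⟨h1, h2, h3⟩
      by_cases a1 : e.1 ∈ D₁
      · by_cases a2 : e.snd ∈ D₁
        · exact Or.inl ⟨a1, a2, h3⟩
        · exact absurd (hcut e (Or.inl ⟨a1, a2⟩) h1 h2) h3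
      · by_cases a2 : e.snd ∈ D₁
        · exact absurd (hcut e (Or.inr ⟨a1, a2⟩) h1 h2) h3
        · refine Or.inr ⟨?_, ?_, h3⟩
          · exact (Finset.mem_union.1 h1).resolve_left a1
          · exact (Finset.mem_union.1 h2).resolve_left a2
    · rintro (⟨h1, h2, h3⟩ | ⟨h1, h2, h3⟩)
      · exact ⟨Finset.mem_union_left _ h1, Finset.mem_union_left _ h2, h3⟩
      · exact ⟨Finset.mem_union_right _ h1, Finset.mem_union_right _ h2, h3⟩
  · rw [Finset.disjoint_left]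
    intro e h1 h2
    exact (Finset.disjoint_left.1 hd) (domBonds_fst h1) (domBonds_fst h2)

theorem men_enG_union (D₁ D₂ : Finset (ℤ × ℤ)) (cut : Set Bond) (hd : Disjoint D₁ D₂)
    (hcut : ∀ e ∈ bdry (↑D₁ : Set (ℤ × ℤ)), e.1 ∈ D₁ ∪ D₂ → e.snd ∈ D₁ ∪ D₂ → e ∈ cut) (v : ℤ × ℤ → ℝ) (θ : Bond → ℝ) :
    enG (D₁ ∪ D₂) cut v θ = enG D₁ cut v θ + enG D₂ cut v θ := by
  obtain ⟨h1, h2⟩ := men_bonds_union D₁ D₂ cut hd hcut
  unfold enG
  rw [h1, Finset.sum_union h2]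

/-- additivity over isolated blocks -/
theorem Men_prod (D₁ D₂ : Finset (ℤ × ℤ)) (cut : Set Bond) (P : Set (ℤ × ℤ)) (τ : Bond → ℤ) (hd : Disjoint D₁ D₂)
    (hcut : ∀ e ∈ bdry (↑D₁ : Set (ℤ × ℤ)), e.1 ∈ D₁ ∪ D₂ → e.snd ∈ D₁ ∪ D₂ → e ∈ cut) :
    Men (D₁ ∪ D₂) cut P τ = Men D₁ cut P τ + Men D₂ cut P τ := by
  refine le_antisymm ?_ ?_
  · have key : ∀ v₁ v₂ : ℤ × ℤ → ℝ, (∀ x ∈ P, x ∈ D₁ → v₁ x = 0) → (∀ x ∈ P, x ∈ D₂ → v₂ x = 0) →
        Men (D₁ ∪ D₂) cut P τ ≤ (enG D₁ cut v₁ fun e => 2 * Real.pi * (τ e : ℝ)) + enG D₂ cut v₂ fun e => 2 * Real.pi * (τ e : ℝ) := by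
      intro v₁ v₂ h1 h2
      have hv : ∀ x ∈ P, x ∈ D₁ ∪ D₂ → (fun x => if x ∈ D₁ then v₁ x else v₂ x) x = 0 := by
        intro x hx hD
        by_cases a : x ∈ D₁
        · simp only [a, if_true]; exact h1 x hx a
        · simp only [a, if_false]; exact h2 x hx ((Finset.mem_union.1 hD).resolve_left a)
      refine (Men_le _ cut P τ _ hv).trans (le_of_eq ?_)
      rw [men_enG_union D₁ D₂ cut hd hcut]
      congr 1
      · exact men_enG_congr _ _ _ _ _ fun x hx => by simp [hx]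
      · exact men_enG_congr _ _ _ _ _ fun x hx => by
          have : x ∉ D₁ := fun h => (Finset.disjoint_left.1 hd) h hx
          simp [this]
    have s1 : Men (D₁ ∪ D₂) cut P τ - Men D₁ cut P τ ≤ Men D₂ cut P τ := by
      refine le_Men D₂ cut P τ _ fun v₂ h2 => ?_
      have : Men (D₁ ∪ D₂) cut P τ - (enG D₂ cut v₂ fun e => 2 * Real.pi * (τ e : ℝ)) ≤ Men D₁ cut P τ := by
        refine le_Men D₁ cut P τ _ fun v₁ h1 => ?_
        linarith [key v₁ v₂ h1 h2]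
      linarith
    linarith
  · refine le_Men _ cut P τ _ fun v hv => ?_
    rw [men_enG_union D₁ D₂ cut hd hcut]
    exact add_le_add (Men_le D₁ cut P τ v fun x hx h => hv x hx (Finset.mem_union_left _ h))
      (Men_le D₂ cut P τ v fun x hx h => hv x hx (Finset.mem_union_right _ h))

/-- the reference cost at stiffness `a` -/
theorem gEn_eq_Men (a : ℝ) (ha : 0 < a) (D : Finset (ℤ × ℤ)) (cut : Set Bond) (P : Set (ℤ × ℤ)) (τ : Bond → ℤ) :
    (dlaw D cut P ∅).gEn a (fun e => 2 * Real.pi * ((domFnE τ e : ℤ) : ℝ)) (fun o => o.elim) = a⁻¹ * Men D cut P τ := by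
  unfold Men
  rw [men_gEn_eq, men_gEn_eq, Real.mul_iInf_of_nonneg (inv_nonneg.2 ha.le)]
  simp only [inv_one, one_mul]

end Claimed.Agent.R285.S46
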