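import Claimed.Agent.R285.Base.Geom

/-!
# ROW 285, layer S46 ([S]s4-6): DEFINITIONS ONLY (no contract, no sorry).   Owner helper173.   Documentation: header of `R285/Read/S46.lean`.

Every file of `R285/S46/` imports this file (+ the sibling files it uses), never `Read/S46.lean`.
-/

set_option autoImplicit false

namespace Claimed.Agent.R285.S46

open Filter Topology
open scoped Classical

noncomputable section

/-! ## 1. Propagation through positive kernels ([S]L5.4) -/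

/-- unnormalised propagation of the initial weight `g` through the kernels `t i` with reference weights `m i` -/
def prop {X : ℕ → Type} (m : ∀ i, X i → ℝ) (t : ∀ i, X i → X (i + 1) → ℝ) (g : X 0 → ℝ) : ∀ i, X i → ℝ
  | 0 => g
  | i + 1 => fun v => ∑' u, m i u * t i u v * prop m t g i u

/-! ## 2. Partition sums with pins, flat pins, relative data and connections on subsets of `ℤ²` -/

/-- heights vanishing on `P` and constant on every member of `𝓕` -/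
def flatL (G : HGraph) (P : Set G.V) (𝓕 : Set (Set G.V)) : AddSubgroup (G.V → ℤ) where
  carrier := {h | (∀ v ∈ P, h v = 0) ∧ ∀ F ∈ 𝓕, ∀ x ∈ F, ∀ y ∈ F, h x = h y}
  zero_mem' := ⟨fun _ _ => rfl, fun _ _ _ _ _ _ => rfl⟩
  add_mem' := by
    rintro h h' ⟨h1, h2⟩ ⟨h1', h2'⟩
    exact ⟨fun v hv => by simp [h1 v hv, h1' v hv], fun F hF x hx y hy => by simp [h2 F hF x hx y hy, h2' F hF x hx y hy]⟩
  neg_mem' := by
    rintro h ⟨h1, h2⟩
    exact ⟨fun v hv => by simp [h1 v hv], fun F hF x hx y hy => by simp [h2 F hF x hx y hy]⟩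

/-- the law with hard pins `P` and flat pins `𝓕`, no observation -/
def flaw (G : HGraph) (P : Set G.V) (𝓕 : Set (Set G.V)) : HLaw G := { Λ := flatL G P 𝓕, O := Empty, B := fun o => o.elim }

/-- the law on `domG D cut` -/
def dlaw (D : Finset (ℤ × ℤ)) (cut : Set Bond) (P : Set (ℤ × ℤ)) (𝓕 : Set (Set (ℤ × ℤ))) : HLaw (domG D cut) :=
  flaw (domG D cut) (domSet P) (domSet '' 𝓕)

/-- **the** partition sum.  `x`: relative data (only `∇x + τ` matters), `τ`: integral connection. -/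
def ZD (b : ℝ) (D : Finset (ℤ × ℤ)) (cut : Set Bond) (P : Set (ℤ × ℤ)) (𝓕 : Set (Set (ℤ × ℤ))) (x : ℤ × ℤ → ℤ) (τ : Bond → ℤ) : ℝ :=
  ((dlaw D cut P 𝓕).sys b).w (HLaw.Aff.amb (H := dlaw D cut P 𝓕) ⟨domFn x, domFnE τ, fun o => o.elim⟩ b)

/-- centred probability of the flat pins `𝓕` -/
def pFlat (b : ℝ) (D : Finset (ℤ × ℤ)) (cut : Set Bond) (P : Set (ℤ × ℤ)) (𝓕 : Set (Set (ℤ × ℤ))) : ℝ :=
  ZD b D cut P 𝓕 0 0 / ZD b D cut P ∅ 0 0

/-- the flat pin interaction `\bar D(H,p) = log [μ([H] | [p]) / μ([H])]` in the free centred law on `domG D cut` -/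
def Dbar (b : ℝ) (D : Finset (ℤ × ℤ)) (cut : Set Bond) (H p : Set (ℤ × ℤ)) : ℝ :=
  Real.log (pFlat b D cut ∅ {H, p}) - Real.log (pFlat b D cut ∅ {H}) - Real.log (pFlat b D cut ∅ {p})

/-- sector ratio `F^τ = Z^τ/Z^0` -/
def Fsec (b : ℝ) (D : Finset (ℤ × ℤ)) (cut : Set Bond) (P : Set (ℤ × ℤ)) (τ : Bond → ℤ) : ℝ :=
  ZD b D cut P ∅ 0 τ / ZD b D cut P ∅ 0 0

/-- `A` lies in one connected component of `domG D cut` (every locally constant function is constant on `A`) -/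
def OneComp (D : Finset (ℤ × ℤ)) (cut : Set Bond) (A : Set (ℤ × ℤ)) : Prop :=
  ∀ h : ℤ × ℤ → ℤ, (∀ e ∈ domBonds D cut, h e.snd = h e.1) → ∀ x ∈ A, ∀ y ∈ A, h x = h y

/-- guard data: integer functions supported on `F`, vanishing at the base points `O` -/
def Dat (F O : Set (ℤ × ℤ)) : Type := {x : ℤ × ℤ → ℤ // ∀ v, (v ∉ F ∨ v ∈ O) → x v = 0}

/-- the bonds with exactly one endpoint in `A` -/
def bdry (A : Set (ℤ × ℤ)) : Set Bond := {e | (e.1 ∈ A ∧ e.snd ∉ A) ∨ (e.1 ∉ A ∧ e.snd ∈ A)}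

/-- the bonds with at least one endpoint in `A` -/
def touch (A : Set (ℤ × ℤ)) : Set Bond := {e | e.1 ∈ A ∨ e.snd ∈ A}

/-- lattice gradient of an integer function -/
def grad (g : ℤ × ℤ → ℤ) : Bond → ℤ := fun e => g e.snd - g e.1

/-! ### The same sums in GLOBAL form (functions on all of `ℤ²` and on all bonds: no subtypes).  Working form for all product / Markov lemmas. -/

/-- a lattice sum of Bessel weights over the finite set of bonds `E` -/
def ZL (b : ℝ) (E : Finset Bond) (Λ : AddSubgroup (Bond → ℤ)) (σ : Bond → ℤ) : ℝ :=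
  ∑' z : Λ, ∏ e ∈ E, bes b ((z : Bond → ℤ) e + σ e)

/-- admissible integer heights, as functions on `ℤ²` (only the values on `D` matter) -/
def admL (D : Finset (ℤ × ℤ)) (P : Set (ℤ × ℤ)) (𝓕 : Set (Set (ℤ × ℤ))) : AddSubgroup (ℤ × ℤ → ℤ) where
  carrier := {h | (∀ v ∈ P, v ∈ D → h v = 0) ∧ ∀ F ∈ 𝓕, ∀ x ∈ F, ∀ y ∈ F, x ∈ D → y ∈ D → h x = h y}
  zero_mem' := ⟨fun _ _ _ => rfl, fun _ _ _ _ _ _ _ _ => rfl⟩
  add_mem' := by
    rintro h h' ⟨h1, h2⟩ ⟨h1', h2'⟩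
    exact ⟨fun v hv hD => by simp [h1 v hv hD, h1' v hv hD],
      fun F hF x hx y hy hxD hyD => by simp [h2 F hF x hx y hy hxD hyD, h2' F hF x hx y hy hxD hyD]⟩
  neg_mem' := by
    rintro h ⟨h1, h2⟩
    exact ⟨fun v hv hD => by simp [h1 v hv hD], fun F hF x hx y hy hxD hyD => by simp [h2 F hF x hx y hy hxD hyD]⟩

/-- the gradient on the bonds of `(D, cut)`, zero on all other bonds -/
def gradD (D : Finset (ℤ × ℤ)) (cut : Set Bond) : (ℤ × ℤ → ℤ) →+ (Bond → ℤ) where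
  toFun h := fun e => if e ∈ domBonds D cut then h e.snd - h e.1 else 0
  map_zero' := by ext e; simp
  map_add' h h' := by
    ext e
    by_cases he : e ∈ domBonds D cut
    · simp [he]; ring
    · simp [he]

/-- the image lattice in global form -/
def latG (D : Finset (ℤ × ℤ)) (cut : Set Bond) (P : Set (ℤ × ℤ)) (𝓕 : Set (Set (ℤ × ℤ))) : AddSubgroup (Bond → ℤ) :=
  (admL D P 𝓕).map (gradD D cut)

/-- `ZD` in global form (`ZD_eq_ZG`) -/
def ZG (b : ℝ) (D : Finset (ℤ × ℤ)) (cut : Set Bond) (P : Set (ℤ × ℤ)) (𝓕 : Set (Set (ℤ × ℤ))) (σ : Bond → ℤ) : ℝ :=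
  ZL b (domBonds D cut) (latG D cut P 𝓕) σ

/-! ## 3. The lattice geometry of [S]s4-5 -/

/-- the box `[-n,n)²` of dual vertices -/
def sq (n : ℕ) : Finset (ℤ × ℤ) := Finset.Ico (-(n : ℤ)) n ×ˢ Finset.Ico (-(n : ℤ)) n

/-- the staircase disc `ρ P`, `ρ = M s`: union of the `s × s` blocks `(k,l)` contained in the closed disc of radius `M` (in block units) -/
def stair (M s : ℕ) : Finset (ℤ × ℤ) :=
  (sq (M * s)).filter fun v =>
    max ((v.1 / (s : ℤ)) ^ 2) ((v.1 / (s : ℤ) + 1) ^ 2) + max ((v.2 / (s : ℤ)) ^ 2) ((v.2 / (s : ℤ) + 1) ^ 2) ≤ (M : ℤ) ^ 2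

/-- the annular block with walls `ρ P`, `λ ρ P`, `λ = 4^l`, `ρ = M s` -/
def ann (M l s : ℕ) : Finset (ℤ × ℤ) := stair M (4 ^ l * s) \ stair M s

/-- the guard `\bar Q_{2√λ ρ} \ Q_{√λ ρ}` -/
def guard (M l s : ℕ) : Finset (ℤ × ℤ) := sq (2 * 2 ^ l * (M * s)) \ sq (2 ^ l * (M * s))

/-- the inner end -/
def endIn (M l s : ℕ) : Finset (ℤ × ℤ) := ann M l s ∩ sq (4 * (M * s))

/-- the outer end -/
def endOut (M l s : ℕ) : Finset (ℤ × ℤ) := ann M l s \ sq (4 ^ (l - 1) * (M * s))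

/-- the observation box inside the guard: `[√λ ρ, 2√λ ρ) × [0, √λ ρ)` -/
def obox (M l s : ℕ) : Finset (ℤ × ℤ) :=
  Finset.Ico ((2 ^ l * (M * s) : ℕ) : ℤ) ((2 * 2 ^ l * (M * s) : ℕ) : ℤ) ×ˢ Finset.Ico (0 : ℤ) ((2 ^ l * (M * s) : ℕ) : ℤ)

/-- the base point of the guard -/
def gbase (M l s : ℕ) : ℤ × ℤ := (((2 ^ l * (M * s) : ℕ) : ℤ), 0)

/-- the unit connection of a source at the primal site `0` (= the dual face with corners `(-1,-1), (0,0)`): the dual bonds crossing the positive horizontal half axis -/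
def ray : Bond → ℤ := fun e => if e.2 = false ∧ e.1.2 = -1 ∧ 0 ≤ e.1.1 then 1 else 0

/-- two consecutive annuli -/
def ann2 (M l s : ℕ) : Finset (ℤ × ℤ) := stair M (4 ^ l * (4 ^ l * s)) \ stair M s

/-- the seam between them -/
def seam2 (M l s : ℕ) : Set Bond := bdry (↑(stair M (4 ^ l * s)) : Set (ℤ × ℤ))

/-- the two guards -/
def guards2 (M l s : ℕ) : Set (Set (ℤ × ℤ)) := {↑(guard M l s), ↑(guard M l (4 ^ l * s))}

/-- the average `∫ (T^q/d) dm^q dm^q` of the normalised interface kernel between the annuli at scales `s` and `λ s`, in the sector `q` -/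
def avgK (b : ℝ) (M l s : ℕ) (q : ℤ) : ℝ :=
  (ZD b (ann2 M l s) ∅ ∅ ∅ 0 (q • ray) / ZD b (ann2 M l s) (seam2 M l s) ∅ ∅ 0 (q • ray)) /
    (ZD b (ann2 M l s) ∅ ∅ (guards2 M l s) 0 0 / ZD b (ann2 M l s) (seam2 M l s) ∅ (guards2 M l s) 0 0)

/-- blow-up of a set of blocks by the factor `s` -/
def blow (s : ℕ) (A : Finset (ℤ × ℤ)) : Set (ℤ × ℤ) := {v | (v.1 / (s : ℤ), v.2 / (s : ℤ)) ∈ A}

/-! ## 4. The annulus as a `CGeom` on centred uniform grids -/

/-- the centred uniform grid with `2m × 2m` cells of side `max s 1`: cell `(i,j)` is the block `(i - m, j - m)` -/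
def cgrid (m s : ℕ) : DGrid (2 * m) (2 * m) where
  x₁ i := ((max s 1 : ℕ) : ℤ) * ((i.1 : ℤ) - m)
  x₂ j := ((max s 1 : ℕ) : ℤ) * ((j.1 : ℤ) - m)
  mono₁ := by
    intro i j hij
    have h1 : ((i.1 : ℕ) : ℤ) - m < (j.1 : ℤ) - m := by
      have : ((i.1 : ℕ) : ℤ) < (j.1 : ℤ) := by exact_mod_cast hij
      omega
    have h2 : (0 : ℤ) < ((max s 1 : ℕ) : ℤ) := by
      have : 0 < max s 1 := by omega
      exact_mod_cast this
    exact mul_lt_mul_of_pos_left h1 h2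
  mono₂ := by
    intro i j hij
    have h1 : ((i.1 : ℕ) : ℤ) - m < (j.1 : ℤ) - m := by
      have : ((i.1 : ℕ) : ℤ) < (j.1 : ℤ) := by exact_mod_cast hij
      omega
    have h2 : (0 : ℤ) < ((max s 1 : ℕ) : ℤ) := by
      have : 0 < max s 1 := by omega
      exact_mod_cast this
    exact mul_lt_mul_of_pos_left h1 h2

/-- the cells whose block index lies in `A` -/
def cellsOf (m : ℕ) (A : Finset (ℤ × ℤ)) : Finset (Fin (2 * m) × Fin (2 * m)) :=
  Finset.univ.filter fun κ => (((κ.1.1 : ℤ) - m, (κ.2.1 : ℤ) - m) : ℤ × ℤ) ∈ A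

/-- the coarse faces crossed by the bonds of `C` at scale one -/
def facesOf (m : ℕ) (C : Set Bond) : Finset ((Fin (2 * m) × Fin (2 * m)) × Bool) :=
  Finset.univ.filter fun f => (((((f.1.1.1 : ℤ) - m, (f.1.2.1 : ℤ) - m) : ℤ × ℤ), f.2) : Bond) ∈ C

/-- the annulus with one confining box average of weight `γ` in the guard ([S]s4.2) -/
def annGeom (M l : ℕ) (γ : ℝ) : CGeom (2 * (M * 4 ^ l)) (2 * (M * 4 ^ l)) where
  T := cellsOf (M * 4 ^ l) (ann M l 1)
  cutF := ∅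
  pin := ∅
  nObs := 1
  box _ := cellsOf (M * 4 ^ l) (obox M l 1)
  wgt _ := γ

/-- the annulus without observation (for the sector limit [S]T3.1) -/
def annGeom0 (M l : ℕ) : CGeom (2 * (M * 4 ^ l)) (2 * (M * 4 ^ l)) where
  T := cellsOf (M * 4 ^ l) (ann M l 1)
  cutF := ∅
  pin := ∅
  nObs := 0
  box o := o.elim0
  wgt o := o.elim0

/-- the periodised Gaussian `w_γ(t) = ∑_k exp(-γ (t + 2π k)²/2)` ([S]s4.3) -/
def thetaW (γ t : ℝ) : ℝ := ∑' k : ℤ, Real.exp (-γ * (t + 2 * Real.pi * (k : ℝ)) ^ 2 / 2)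

/-! ## 5. Discrete energies -/

/-- `𝓜(D, cut, P; τ) = min_v ∑_e (2π τ_e + ∇_e v)²`, `v = 0` on `P` -/
def Men (D : Finset (ℤ × ℤ)) (cut : Set Bond) (P : Set (ℤ × ℤ)) (τ : Bond → ℤ) : ℝ :=
  (dlaw D cut P ∅).gEn 1 (fun e => 2 * Real.pi * ((domFnE τ e : ℤ) : ℝ)) fun o => o.elim

/-- the energy of a real field `v` on `ℤ²` with a real connection `θ`, global form -/
def enG (D : Finset (ℤ × ℤ)) (cut : Set Bond) (v : ℤ × ℤ → ℝ) (θ : Bond → ℝ) : ℝ :=
  ∑ e ∈ domBonds D cut, (v e.snd - v e.1 + θ e) ^ 2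

end

end Claimed.Agent.R285.S46
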