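import Claimed.Agent.R285.S46.EnAnnA

/-!
# ROW 285, S46 post POT-S46-ENANN: (E1) the unit period energy of a staircase annulus.   Deterministic, paper-free.   Architect helper145; tools and plan: `EnAnnA.lean`.
`z_v = (v.1 + 1/2, v.2 + 1/2)`.  The staircase annulus `ann M l s` lies in the round annulus `(M-2) s ≤ |z| ≤ M λ s` and contains all vertices with `M s < |z| < (M-2) λ s`, `λ = 4^l`.
 (U) `ea_upper` with `R₁ = (M-2) s`, `R₂ = M λ s`;  (L) `ea_lower` with `ρ₁ = M s + 1`, `ρ₂ = (M-2) λ s - 1`;  the two elementary limits `s → ∞` are the leaves ENANN-E1 `ea_ev_upper`, ENANN-E2 `ea_ev_lower`.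
-/

set_option autoImplicit false

namespace Claimed.Agent.R285.S46

open Filter Topology
open scoped Classical

theorem ea_ratio (A B C D : ℝ) (hC : C ≠ 0) :
    Tendsto (fun s : ℕ => (A * s + B) / (C * s + D)) atTop (𝓝 (A / C)) := by
  have h0 : Tendsto (fun s : ℕ => ((s : ℝ))⁻¹) atTop (𝓝 0) := tendsto_inv_atTop_nhds_zero_nat
  have h1 : Tendsto (fun s : ℕ => (A + B * ((s : ℝ))⁻¹) / (C + D * ((s : ℝ))⁻¹)) atTop
      (𝓝 ((A + B * 0) / (C + D * 0))) :=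
    (tendsto_const_nhds.add (tendsto_const_nhds.mul h0)).div
      (tendsto_const_nhds.add (tendsto_const_nhds.mul h0)) (by simpa using hC)
  simp only [mul_zero, add_zero] at h1
  refine h1.congr' ?_
  filter_upwards [eventually_ge_atTop 1] with s hs
  have hs0 : (s : ℝ) ≠ 0 := by
    have : (1 : ℝ) ≤ s := by exact_mod_cast hs
    linarith
  have e1 : A + B * ((s : ℝ))⁻¹ = (A * s + B) / s := by field_simp
  have e2 : C + D * ((s : ℝ))⁻¹ = (C * s + D) / s := by field_simp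
  rw [e1, e2, div_div_div_cancel_right₀ hs0]

theorem ea_inv_lin (C D : ℝ) (hC : C ≠ 0) (N : ℝ) :
    Tendsto (fun s : ℕ => N / (C * s + D)) atTop (𝓝 0) := by
  have := ea_ratio 0 N C D hC
  simpa using this

theorem ea_log_le (m : ℝ) (hm : 4 ≤ m) : Real.log (m / (m - 2)) ≤ 4 / m := by
  have h2 : 0 < m - 2 := by linarith
  have e1 : m / (m - 2) = 1 + 2 / (m - 2) := by field_simp; ring
  have e2 : Real.log (m / (m - 2)) ≤ m / (m - 2) - 1 := Real.log_le_sub_one_of_pos (by positivity)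
  have e3 : 2 / (m - 2) ≤ 4 / m := by
    rw [div_le_div_iff₀ h2 (by linarith)]
    linarith
  rw [e1] at e2 ⊢
  linarith

/-- ENANN-E1.  As `s → ∞` the left side tends to `2π (log 4^l + log (M/(M-2)))` (write `M λ s/((M-2) s - 2) = M λ/((M-2) - 2/s)`; `tendsto_inv_atTop_zero`, `tendsto_natCast_atTop_atTop`, continuity of `log` at a positive point),
and `log (M/(M-2)) = log (1 + 2/(M-2)) ≤ 2/(M-2) ≤ 4/M`; the slack `1/M` absorbs the error (`Tendsto.eventually_lt_const`/`Filter.Tendsto.eventually_le_const`). -/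
theorem ea_ev_upper (M l : ℕ) (hM : 4 ≤ M) : ∀ᶠ s : ℕ in atTop,
    ((1 - 1 / (((M : ℝ) - 2) * s))⁻¹) ^ 2 *
      (2 * Real.pi * (Real.log ((M : ℝ) * ((4 ^ l * s : ℕ) : ℝ) / (((M : ℝ) - 2) * s - 2)) + 1 / (((M : ℝ) - 2) * s - 2)))
      ≤ 2 * Real.pi * Real.log (4 ^ l) + (8 * Real.pi + 1) / M := by
  obtain ⟨m, hm⟩ : ∃ m : ℝ, m = (M : ℝ) := ⟨_, rfl⟩
  have hm4 : 4 ≤ m := by rw [hm]; exact_mod_cast hM
  rw [← hm]
  obtain ⟨lam, hlam⟩ : ∃ lam : ℝ, lam = 4 ^ l := ⟨_, rfl⟩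
  have hlam0 : 0 < lam := by rw [hlam]; positivity
  have hm2 : m - 2 ≠ 0 := by linarith
  have hm2' : 0 < m - 2 := by linarith
  have t1 : Tendsto (fun s : ℕ => 1 / ((m - 2) * s)) atTop (𝓝 0) := by
    have := ea_inv_lin (m - 2) 0 hm2 1
    simpa using this
  have t2 : Tendsto (fun s : ℕ => ((1 - 1 / ((m - 2) * s))⁻¹) ^ 2) atTop (𝓝 (((1 - 0)⁻¹) ^ 2)) :=
    ((tendsto_const_nhds.sub t1).inv₀ (by norm_num)).pow 2
  have t3 : Tendsto (fun s : ℕ => m * ((4 ^ l * s : ℕ) : ℝ) / ((m - 2) * s - 2)) atTop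
      (𝓝 (m * lam / (m - 2))) := by
    have := ea_ratio (m * lam) 0 (m - 2) (-2) hm2
    refine this.congr fun s => ?_
    rw [hlam]
    push_cast
    ring
  have t4 : Tendsto (fun s : ℕ => 1 / ((m - 2) * s - 2)) atTop (𝓝 0) := by
    have := ea_inv_lin (m - 2) (-2) hm2 1
    exact this.congr fun s => by ring
  have hpos : 0 < m * lam / (m - 2) := by positivity
  have t5 := (t3.log hpos.ne').add t4
  have t6 := t2.mul (t5.const_mul (2 * Real.pi))
  refine t6.eventually_le_const ?_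
  have e1 : Real.log (m * lam / (m - 2)) = Real.log lam + Real.log (m / (m - 2)) := by
    rw [← Real.log_mul hlam0.ne' (by positivity)]
    congr 1
    ring
  rw [e1, ← hlam]
  have e2 := ea_log_le m hm4
  have e3 : 0 < 1 / m := by positivity
  have e4 : (8 * Real.pi + 1) / m = 2 * Real.pi * (4 / m) + 1 / m := by ring
  have e5 : 2 * Real.pi * Real.log (m / (m - 2)) ≤ 2 * Real.pi * (4 / m) :=
    mul_le_mul_of_nonneg_left e2 (by positivity)
  have e0 : ((1 - 0 : ℝ)⁻¹) ^ 2 = 1 := by norm_num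
  rw [e4, e0, one_mul, add_zero]
  linarith

/-- ENANN-E2.  `ρ₁ = M s + 1`, `ρ₂ = (M-2) λ s - 1`, `λ = 4^l ≥ 4`.  `L s := log ρ₂ - log ρ₁ → Λ := log (λ (M-2)/M) ≥ log 2 > 0`, the factor `Dn s` of `X` tends to `2π Λ`, so `(2π L s)²/Dn s → 2π Λ`, and
`X ≥ (2π L s)²/Dn s ≥ 2π Λ - 1/M` eventually; `log ((M-2)/M) = - log (1 + 2/(M-2)) ≥ - 4/M`. -/
theorem ea_ev_lower (M l : ℕ) (hM : 4 ≤ M) (hl : 1 ≤ l) : ∀ᶠ s : ℕ in atTop, ∀ X : ℝ, 0 ≤ X →
    (2 * Real.pi * (Real.log (((M : ℝ) - 2) * ((4 ^ l * s : ℕ) : ℝ) - 1) - Real.log ((M : ℝ) * s + 1))) ^ 2 ≤ X *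
      (((((M : ℝ) * s + 1) / (((M : ℝ) * s + 1) - 1)) * (1 - 3 / (((M : ℝ) * s + 1) - 1))⁻¹) ^ 2 *
        (2 * Real.pi * (Real.log (((((M : ℝ) - 2) * ((4 ^ l * s : ℕ) : ℝ) - 1) + 1) / (((M : ℝ) * s + 1) - 3)) + 1 / (((M : ℝ) * s + 1) - 3)))) →
    2 * Real.pi * Real.log (4 ^ l) - (8 * Real.pi + 1) / M ≤ X := by
  obtain ⟨m, hm⟩ : ∃ m : ℝ, m = (M : ℝ) := ⟨_, rfl⟩
  have hm4 : 4 ≤ m := by rw [hm]; exact_mod_cast hM
  rw [← hm]
  obtain ⟨lam, hlam⟩ : ∃ lam : ℝ, lam = 4 ^ l := ⟨_, rfl⟩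
  have hlam4 : 4 ≤ lam := by
    rw [hlam]
    calc (4 : ℝ) = 4 ^ 1 := by norm_num
      _ ≤ 4 ^ l := pow_le_pow_right₀ (by norm_num) hl
  have hlam0 : 0 < lam := by linarith
  have hm0 : m ≠ 0 := by linarith
  have hm0' : 0 < m := by linarith
  have hm2' : 0 < m - 2 := by linarith
  obtain ⟨Lam, hLam⟩ : ∃ Lam : ℝ, Lam = Real.log ((m - 2) * lam / m) := ⟨_, rfl⟩
  have harg : 2 ≤ (m - 2) * lam / m := by
    rw [le_div_iff₀ hm0']
    nlinarith
  have hLam0 : 0 < Lam := by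
    rw [hLam]
    exact Real.log_pos (by linarith)
  -- the numerator
  have t1 : Tendsto (fun s : ℕ => Real.log ((m - 2) * ((4 ^ l * s : ℕ) : ℝ) - 1) - Real.log (m * s + 1))
      atTop (𝓝 Lam) := by
    have h1 := ea_ratio ((m - 2) * lam) (-1) m 1 hm0
    have h2 := h1.log (by linarith : (m - 2) * lam / m ≠ 0)
    rw [← hLam] at h2
    refine h2.congr' ?_
    filter_upwards [eventually_ge_atTop 1] with s hs
    have hs1 : (1 : ℝ) ≤ s := by exact_mod_cast hs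
    have p0 : 8 ≤ (m - 2) * lam := by nlinarith
    have p0' : 8 * 1 ≤ (m - 2) * lam * s := mul_le_mul p0 hs1 (by norm_num) (by positivity)
    have p1 : 0 < (m - 2) * lam * s + -1 := by linarith
    have p2 : 0 < m * s + 1 := by positivity
    rw [Real.log_div p1.ne' p2.ne']
    congr 2
    rw [hlam]
    push_cast
    ring
  -- the denominator
  have t2 : Tendsto (fun s : ℕ => (m * s + 1) / ((m * s + 1) - 1)) atTop (𝓝 1) := by
    have := ea_ratio m 1 m 0 hm0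
    rw [div_self hm0] at this
    exact this.congr fun s => by ring
  have t3 : Tendsto (fun s : ℕ => 3 / ((m * s + 1) - 1)) atTop (𝓝 0) := by
    have := ea_inv_lin m 0 hm0 3
    exact this.congr fun s => by ring
  have t4 : Tendsto (fun s : ℕ => (((m * s + 1) / ((m * s + 1) - 1)) *
      (1 - 3 / ((m * s + 1) - 1))⁻¹) ^ 2) atTop (𝓝 ((1 * (1 - 0)⁻¹) ^ 2)) :=
    (t2.mul ((tendsto_const_nhds.sub t3).inv₀ (by norm_num))).pow 2
  have t5 : Tendsto (fun s : ℕ => (((m - 2) * ((4 ^ l * s : ℕ) : ℝ) - 1) + 1) / ((m * s + 1) - 3))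
      atTop (𝓝 ((m - 2) * lam / m)) := by
    have := ea_ratio ((m - 2) * lam) 0 m (-2) hm0
    refine this.congr fun s => ?_
    rw [hlam]
    push_cast
    ring
  have t6 : Tendsto (fun s : ℕ => 1 / ((m * s + 1) - 3)) atTop (𝓝 0) := by
    have := ea_inv_lin m (-2) hm0 1
    exact this.congr fun s => by ring
  have t7 := (t5.log (by linarith : (m - 2) * lam / m ≠ 0)).add t6
  rw [← hLam] at t7
  have t8 := t4.mul (t7.const_mul (2 * Real.pi))
  have e0 : (1 * (1 - 0 : ℝ)⁻¹) ^ 2 * (2 * Real.pi * (Lam + 0)) = 2 * Real.pi * Lam := by norm_num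
  rw [e0] at t8
  have hD0 : 0 < 2 * Real.pi * Lam := by positivity
  have t9 := ((t1.const_mul (2 * Real.pi)).pow 2).div t8 hD0.ne'
  have e1 : (2 * Real.pi * Lam) ^ 2 / (2 * Real.pi * Lam) = 2 * Real.pi * Lam := by
    field_simp
  rw [e1] at t9
  have hslack : 2 * Real.pi * Lam - 1 / m < 2 * Real.pi * Lam := by
    have : 0 < 1 / m := by positivity
    linarith
  filter_upwards [t9.eventually_const_lt hslack, t8.eventually_const_lt hD0] with s h1 h2 X hX hle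
  simp only [Pi.div_apply] at h1
  rw [lt_div_iff₀ h2] at h1
  have h3 := h1.trans_le hle
  have h4 : 2 * Real.pi * Lam - 1 / m < X := lt_of_mul_lt_mul_right h3 h2.le
  have e2 : Lam = Real.log lam - Real.log (m / (m - 2)) := by
    rw [hLam, ← Real.log_div hlam0.ne' (by positivity)]
    congr 1
    field_simp
  have e3 := ea_log_le m hm4
  have e4 : (8 * Real.pi + 1) / m = 2 * Real.pi * (4 / m) + 1 / m := by ring
  have e5 : 2 * Real.pi * Real.log (m / (m - 2)) ≤ 2 * Real.pi * (4 / m) :=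
    mul_le_mul_of_nonneg_left e3 (by positivity)
  rw [e4, ← hlam]
  rw [e2] at h4
  linarith

/-- POT (E1): the unit period energy of the staircase annulus is `2π log λ + O(1/M)`, uniformly in `λ` and in the mesh. -/
theorem ann_energy : ∃ C : ℝ, ∀ M ≥ 4, ∀ l ≥ 1, ∃ s0, ∀ s ≥ s0,
    |Men (ann M l s) ∅ ∅ ray - 2 * Real.pi * Real.log (4 ^ l)| ≤ C / M := by
  refine ⟨8 * Real.pi + 1, fun M hM l hl => ?_⟩
  obtain ⟨s1, h1⟩ := eventually_atTop.1 (ea_ev_upper M l hM)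
  obtain ⟨s2, h2⟩ := eventually_atTop.1 (ea_ev_lower M l hM hl)
  refine ⟨max 2 (max s1 s2), fun s hs => ?_⟩
  have hs2 : 2 ≤ s := (le_max_left _ _).trans hs
  have hs1' : s1 ≤ s := ((le_max_left _ _).trans (le_max_right _ _)).trans hs
  have hs2' : s2 ≤ s := ((le_max_right _ _).trans (le_max_right _ _)).trans hs
  have hMr : (4 : ℝ) ≤ M := by exact_mod_cast hM
  have hsr : (2 : ℝ) ≤ s := by exact_mod_cast hs2
  have h4 : (4 : ℝ) ≤ (4 : ℝ) ^ l := by
    calc (4 : ℝ) = 4 ^ 1 := by norm_num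
      _ ≤ 4 ^ l := pow_le_pow_right₀ (by norm_num) hl
  have hS1 : 1 ≤ s := by omega
  have hS2 : 1 ≤ 4 ^ l * s := Nat.one_le_iff_ne_zero.2 (by positivity)
  have hcast : ((4 ^ l * s : ℕ) : ℝ) = 4 ^ l * s := by push_cast; ring
  have hls : (4 : ℝ) * s ≤ ((4 ^ l * s : ℕ) : ℝ) := by
    rw [hcast]; exact mul_le_mul_of_nonneg_right h4 (by positivity)
  -- membership
  have hmem : ∀ v ∈ ann M l s, (((M : ℝ) - 2) * s) ^ 2 ≤ nsqC (1 / 2) v ∧
      nsqC (1 / 2) v ≤ ((M : ℝ) * ((4 ^ l * s : ℕ) : ℝ)) ^ 2 := by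
    intro v hv
    obtain ⟨hv1, hv2⟩ := Finset.mem_sdiff.1 hv
    exact ⟨ea_le_of_not_stair M s (by omega) hS1 hv2, ea_stair_le M (4 ^ l * s) hS2 hv1⟩
  have hup := ea_upper (ann M l s) (((M : ℝ) - 2) * s) ((M : ℝ) * ((4 ^ l * s : ℕ) : ℝ))
    (by nlinarith) (by nlinarith) hmem
  have hU := hup.trans (h1 s hs1')
  -- lower bound
  have hρ1 : (7 : ℝ) ≤ (M : ℝ) * s + 1 := by nlinarith
  have hρ12 : (M : ℝ) * s + 1 ≤ ((M : ℝ) - 2) * ((4 ^ l * s : ℕ) : ℝ) - 1 := by nlinarith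
  have hD : ∀ e : Bond, rotJ (psiF ((M : ℝ) * s + 1) (((M : ℝ) - 2) * ((4 ^ l * s : ℕ) : ℝ) - 1)) e ≠ 0 →
      e.1 ∈ ann M l s ∧ e.snd ∈ ann M l s := by
    intro e he
    obtain ⟨⟨a1, a2⟩, ⟨b1, b2⟩⟩ := ea_flow_support _ _ (by linarith) hρ12 e he
    have key : ∀ v : ℤ × ℤ, ((M : ℝ) * s + 1 - 1) ^ 2 < nsqC (1 / 2) v →
        nsqC (1 / 2) v < (((M : ℝ) - 2) * ((4 ^ l * s : ℕ) : ℝ) - 1 + 1) ^ 2 → v ∈ ann M l s := by
      intro v c1 c2
      refine Finset.mem_sdiff.2 ⟨?_, ?_⟩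
      · by_contra hv
        have := ea_le_of_not_stair M (4 ^ l * s) (by omega) hS2 hv
        rw [sub_add_cancel] at c2
        linarith
      · intro hv
        have := ea_stair_le M s hS1 hv
        rw [add_sub_cancel_right] at c1
        linarith
    exact ⟨key _ a1 a2, key _ b1 b2⟩
  have hlow := ea_lower _ _ hρ1 hρ12 (ann M l s) hD
  have hL := h2 s hs2' _ (Men_nonneg _ _ _ _) hlow
  rw [abs_le]
  constructor <;> linarith

end Claimed.Agent.R285.S46
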