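import Claimed.Agent.R285.S46.Geom

/-!
# ROW 285, S46 post POT-S46-ENANN, part A (architect helper145): the tools for `ann_energy`.   Deterministic, paper-free, Mathlib only (+ `Men_le`, `Men_dual`, `Men_nonneg` of `En.lean` as black boxes).

`z_v = (v.1 + 1/2, v.2 + 1/2)` position of the (dual) vertex `v`; primal sites are the integer points.  `nsqC c v = |v + (c,c)|²`.
Only UPPER bounds of lattice sums are needed, and every error which tends to `0` as the mesh `s → ∞` (for fixed `M`, `l`) is harmless.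

PLAN.
* (A) `ea_lat_sum_le`: `∑_{R₁ ≤ |z| ≤ R₂} |z|⁻² ≤ 2π (log (R₂/(R₁-2)) + 1/(R₁-2))`.  For `u` in the unit cell centred at `z`: `|u| - 1 ≤ |z|`, so `|z|⁻² ≤ (|u|-1)⁻²`; the cells are disjoint and lie in
  `R₁ - 1 ≤ |u| ≤ R₂ + 1` (`ea_cell_sum_le`); polar coordinates (`ea_integral_radial`); `∫ r/(r-1)² = log (r-1) - 1/(r-1)`.
* (B) upper bound: trial field `thetaF` = the angle in `(0, 2π)`, written with `arctan`; `ea_theta_incr`: the increment (corrected by `2π ray`) is `arctan` of `∓y/(|z|²+x)`, `±x/(|z|²+y)`; `|arctan t| ≤ |t|`.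
* (C) `ea_stair_le`, `ea_le_of_not_stair`: the staircase disc lies between the round discs of radii `(M-2) S` and `M S`.
* (D) lower bound: `Men_dual` with the rotated gradient `rotJ ψ` of `ψ = psiF ρ₁ ρ₂ = clamp (log |p|)` on the primal sites.
LEAVES (edit only your theorem(s), helper lemmas directly above with prefix `ea_`, statements frozen; if a statement is wrong tell helper145):
 ENANN-A1 `ea_integral_radial`;  ENANN-A2 `ea_cell_sum_le`;  ENANN-A3 `ea_lat_sum_le`;  ENANN-B1 `ea_theta_incr`;  ENANN-B2 `ea_upper`;  ENANN-C `ea_stair_le`, `ea_le_of_not_stair`;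
 ENANN-D0 `ea_flow_support`;  ENANN-D1 `ea_rot_orth`;  ENANN-D2 `ea_flow_flux`;  ENANN-D3 `ea_psi_incr`;  ENANN-D4 `ea_flow_energy`;  ENANN-D5 `ea_lower`.
-/

set_option autoImplicit false

namespace Claimed.Agent.R285.S46

open Filter Topology MeasureTheory
open scoped Classical

noncomputable section

/-- `|v + (c,c)|²` -/
def nsqC (c : ℝ) (v : ℤ × ℤ) : ℝ := ((v.1 : ℝ) + c) ^ 2 + ((v.2 : ℝ) + c) ^ 2

/-- the half open unit cell centred at `v + (c,c)` -/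
def cellC (c : ℝ) (v : ℤ × ℤ) : Set (ℝ × ℝ) :=
  Set.Ico ((v.1 : ℝ) + c - 1 / 2) ((v.1 : ℝ) + c + 1 / 2) ×ˢ Set.Ico ((v.2 : ℝ) + c - 1 / 2) ((v.2 : ℝ) + c + 1 / 2)

/-- the closed round annulus -/
def annR (r₁ r₂ : ℝ) : Set (ℝ × ℝ) := {u | r₁ ^ 2 ≤ u.1 ^ 2 + u.2 ^ 2 ∧ u.1 ^ 2 + u.2 ^ 2 ≤ r₂ ^ 2}

/-! ## (A) lattice sums -/

theorem ea_annR_closed (r₁ r₂ : ℝ) : IsClosed (annR r₁ r₂) := by
  have hc : Continuous fun u : ℝ × ℝ => u.1 ^ 2 + u.2 ^ 2 := by fun_prop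
  exact (isClosed_le continuous_const hc).inter (isClosed_le hc continuous_const)

/-- ENANN-A1.  Polar coordinates.  `integral_comp_polarCoord_symm` for `f u = (annR r₁ r₂).indicator (fun u => g (sqrt (u.1² + u.2²))) u`; `polarCoord.target = Ioi 0 ×ˢ Ioo (-π) π`; `polarCoord.symm (r,θ) = (r cos θ, r sin θ)`,
`(r cos θ)² + (r sin θ)² = r²`; `setIntegral_prod_mul` (no integrability needed); `∫ θ in Ioo (-π) π, 1 = 2π`; `Ioi 0 ∩ {r | r₁² ≤ r² ≤ r₂²} = Icc r₁ r₂`. -/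
theorem ea_integral_radial (g : ℝ → ℝ) (r₁ r₂ : ℝ) (h₁ : 0 < r₁) (h12 : r₁ ≤ r₂) :
    ∫ u in annR r₁ r₂, g (Real.sqrt (u.1 ^ 2 + u.2 ^ 2)) = 2 * Real.pi * ∫ r in Set.Icc r₁ r₂, r * g r := by
  have hmeas : MeasurableSet (annR r₁ r₂) := (ea_annR_closed r₁ r₂).measurableSet
  rw [← integral_indicator hmeas, ← integral_comp_polarCoord_symm]
  have e : ∀ p ∈ polarCoord.target, p.1 • (annR r₁ r₂).indicator
      (fun u : ℝ × ℝ => g (Real.sqrt (u.1 ^ 2 + u.2 ^ 2))) (polarCoord.symm p)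
      = ((Set.Icc r₁ r₂).indicator (fun r => r * g r) p.1) * (fun _ : ℝ => (1 : ℝ)) p.2 := by
    rintro ⟨r, θ⟩ hp
    have hr : 0 < r := by
      rw [polarCoord_target] at hp
      exact hp.1
    have hsq : (r * Real.cos θ) ^ 2 + (r * Real.sin θ) ^ 2 = r ^ 2 := by
      have := Real.cos_sq_add_sin_sq θ
      calc (r * Real.cos θ) ^ 2 + (r * Real.sin θ) ^ 2
          = r ^ 2 * (Real.cos θ ^ 2 + Real.sin θ ^ 2) := by ring
        _ = r ^ 2 := by rw [this, mul_one]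
    have hmem : polarCoord.symm (r, θ) ∈ annR r₁ r₂ ↔ r ∈ Set.Icc r₁ r₂ := by
      simp only [polarCoord_symm_apply, annR, Set.mem_ofPred_eq, hsq, Set.mem_Icc]
      rw [pow_le_pow_iff_left₀ h₁.le hr.le two_ne_zero,
        pow_le_pow_iff_left₀ hr.le (h₁.le.trans h12) two_ne_zero]
    by_cases hm : r ∈ Set.Icc r₁ r₂
    · rw [Set.indicator_of_mem (hmem.2 hm), Set.indicator_of_mem (show (r, θ).1 ∈ _ from hm)]
      simp only [polarCoord_symm_apply, hsq, Real.sqrt_sq hr.le, smul_eq_mul, mul_one]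
    · rw [Set.indicator_of_notMem (fun h => hm (hmem.1 h)),
        Set.indicator_of_notMem (show (r, θ).1 ∉ _ from hm)]
      simp
  rw [setIntegral_congr_fun polarCoord.open_target.measurableSet e, polarCoord_target,
    Measure.volume_eq_prod,
    setIntegral_prod_mul ((Set.Icc r₁ r₂).indicator (fun r => r * g r)) (fun _ : ℝ => (1 : ℝ)),
    setIntegral_indicator measurableSet_Icc]
  have hI : Set.Ioi (0 : ℝ) ∩ Set.Icc r₁ r₂ = Set.Icc r₁ r₂ :=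
    Set.inter_eq_right.2 fun x hx => lt_of_lt_of_le h₁ hx.1
  rw [hI]
  simp only [integral_const, MeasurableSet.univ, measureReal_restrict_apply, Set.univ_inter,
    Real.volume_real_Ioo, smul_eq_mul, mul_one]
  rw [max_eq_left (by linarith [Real.pi_pos])]
  ring

theorem ea_cell_meas (c : ℝ) (v : ℤ × ℤ) : MeasurableSet (cellC c v) :=
  measurableSet_Ico.prod measurableSet_Ico

theorem ea_cell_vol (c : ℝ) (v : ℤ × ℤ) : volume (cellC c v) = 1 := by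
  unfold cellC
  rw [Measure.volume_eq_prod, Measure.prod_prod, Real.volume_Ico, Real.volume_Ico]
  have h1 : (v.1 : ℝ) + c + 1 / 2 - ((v.1 : ℝ) + c - 1 / 2) = 1 := by ring
  have h2 : (v.2 : ℝ) + c + 1 / 2 - ((v.2 : ℝ) + c - 1 / 2) = 1 := by ring
  rw [h1, h2]
  simp

theorem ea_cell_disj (c : ℝ) {v w : ℤ × ℤ} (h : v ≠ w) : Disjoint (cellC c v) (cellC c w) := by
  rw [Set.disjoint_left]
  intro u hv hw
  apply h
  obtain ⟨⟨a1, a2⟩, ⟨a3, a4⟩⟩ := hv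
  obtain ⟨⟨b1, b2⟩, ⟨b3, b4⟩⟩ := hw
  have e1 : v.1 = w.1 := by
    have h1 : (v.1 : ℝ) < w.1 + 1 := by linarith
    have h2 : (w.1 : ℝ) < v.1 + 1 := by linarith
    have h1' : v.1 < w.1 + 1 := by exact_mod_cast h1
    have h2' : w.1 < v.1 + 1 := by exact_mod_cast h2
    omega
  have e2 : v.2 = w.2 := by
    have h1 : (v.2 : ℝ) < w.2 + 1 := by linarith
    have h2 : (w.2 : ℝ) < v.2 + 1 := by linarith
    have h1' : v.2 < w.2 + 1 := by exact_mod_cast h1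
    have h2' : w.2 < v.2 + 1 := by exact_mod_cast h2
    omega
  exact Prod.ext e1 e2

/-- ENANN-A2.  The cells `cellC c v`, `v ∈ ℤ²`, are measurable, pairwise disjoint (if `u` lies in two of them the integer coordinates differ by less than one) and have volume one (`Measure.volume_eq_prod`, `Measure.prod_prod`, `Real.volume_Ico`).
`a v = ∫_{cell} a v ≤ ∫_{cell} Ψ` (`setIntegral_mono_on`), `∑ ∫_{cell} = ∫_{⋃ cells}` (`integral_biUnion_finset`/`integral_finset_biUnion`), `≤ ∫_A` (`setIntegral_mono_set`). -/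
theorem ea_cell_sum_le (c : ℝ) (F : Finset (ℤ × ℤ)) (A : Set (ℝ × ℝ)) (hA : MeasurableSet A) (Ψ : ℝ × ℝ → ℝ) (a : ℤ × ℤ → ℝ)
    (hint : IntegrableOn Ψ A) (h0 : ∀ u ∈ A, 0 ≤ Ψ u) (hsub : ∀ v ∈ F, cellC c v ⊆ A) (hle : ∀ v ∈ F, ∀ u ∈ cellC c v, a v ≤ Ψ u) :
    ∑ v ∈ F, a v ≤ ∫ u in A, Ψ u := by
  have hfin : ∀ v, volume (cellC c v) ≠ ⊤ := fun v => by rw [ea_cell_vol]; exact ENNReal.one_ne_top
  calc ∑ v ∈ F, a v = ∑ v ∈ F, ∫ _ in cellC c v, a v := by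
        refine Finset.sum_congr rfl fun v _ => ?_
        rw [setIntegral_const, measureReal_def, ea_cell_vol]
        simp
    _ ≤ ∑ v ∈ F, ∫ u in cellC c v, Ψ u := Finset.sum_le_sum fun v hv =>
        setIntegral_mono_on (integrableOn_const (hfin v)) (hint.mono_set (hsub v hv))
          (ea_cell_meas c v) (hle v hv)
    _ = ∫ u in ⋃ v ∈ F, cellC c v, Ψ u :=
        (integral_biUnion_finset F (fun v _ => ea_cell_meas c v)
          (fun v _ w _ hvw => ea_cell_disj c hvw) (fun v hv => hint.mono_set (hsub v hv))).symm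
    _ ≤ ∫ u in A, Ψ u := by
        refine setIntegral_mono_set hint ?_ ?_
        · exact (ae_restrict_iff' hA).2 (Filter.Eventually.of_forall fun u hu => h0 u hu)
        · exact (Set.iUnion₂_subset hsub).eventuallyLE

theorem ea_annR_compact (r₁ r₂ : ℝ) : IsCompact (annR r₁ r₂) := by
  refine Metric.isCompact_of_isClosed_isBounded (ea_annR_closed r₁ r₂) ?_
  refine (Metric.isBounded_closedBall (x := (0 : ℝ × ℝ)) (r := |r₂|)).subset fun u hu => ?_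
  rw [mem_closedBall_zero_iff, Prod.norm_def, max_le_iff, Real.norm_eq_abs, Real.norm_eq_abs]
  have h2 := hu.2
  constructor
  · apply sq_le_sq.1
    nlinarith [sq_nonneg u.2]
  · apply sq_le_sq.1
    nlinarith [sq_nonneg u.1]

/-- the modulus of a point of the cell differs from the modulus of the centre by at most one. -/
theorem ea_cell_norm (c : ℝ) (v : ℤ × ℤ) {u : ℝ × ℝ} (hu : u ∈ cellC c v) :
    |Real.sqrt (u.1 ^ 2 + u.2 ^ 2) - Real.sqrt (nsqC c v)| ≤ 1 := by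
  obtain ⟨⟨a1, a2⟩, ⟨a3, a4⟩⟩ := hu
  have h := abs_norm_sub_norm_le (⟨u.1, u.2⟩ : ℂ) (⟨(v.1 : ℝ) + c, (v.2 : ℝ) + c⟩ : ℂ)
  rw [Complex.norm_eq_sqrt_sq_add_sq, Complex.norm_eq_sqrt_sq_add_sq,
    Complex.norm_eq_sqrt_sq_add_sq] at h
  simp only [Complex.sub_re, Complex.sub_im] at h
  refine h.trans ?_
  rw [Real.sqrt_le_iff]
  refine ⟨zero_le_one, ?_⟩
  have k1 : (u.1 - ((v.1 : ℝ) + c)) ^ 2 ≤ (1 / 2) ^ 2 :=
    sq_le_sq' (by linarith) (by linarith)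
  have k2 : (u.2 - ((v.2 : ℝ) + c)) ^ 2 ≤ (1 / 2) ^ 2 :=
    sq_le_sq' (by linarith) (by linarith)
  linarith

/-- ENANN-A3.  `A = annR (R₁ - 1) (R₂ + 1)`, `Ψ u = (sqrt (u.1² + u.2²) - 1)⁻²` (continuous on the compact set `A`, where `sqrt ≥ R₁ - 1 > 1`).  For `u ∈ cellC c v`, `z = v + (c,c)`: `|u - z|² ≤ 1/2`, hence `| |u| - |z| | ≤ 1`.
`ea_cell_sum_le`, `ea_integral_radial` with `g r = (r-1)⁻²`; `∫_{R₁-1}^{R₂+1} r (r-1)⁻² dr = log (R₂/(R₁-2)) + 1/(R₁-2) - 1/R₂` (`integral_Icc_eq_integral_Ioc`, `intervalIntegral.integral_eq_sub_of_hasDerivAt` with `G r = log (r-1) - (r-1)⁻¹`). -/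
theorem ea_lat_sum_le (c : ℝ) (F : Finset (ℤ × ℤ)) (R₁ R₂ : ℝ) (h₁ : 2 < R₁) (h12 : R₁ ≤ R₂)
    (hF : ∀ v ∈ F, R₁ ^ 2 ≤ nsqC c v ∧ nsqC c v ≤ R₂ ^ 2) :
    ∑ v ∈ F, (nsqC c v)⁻¹ ≤ 2 * Real.pi * (Real.log (R₂ / (R₁ - 2)) + 1 / (R₁ - 2)) := by
  set g : ℝ → ℝ := fun r => ((r - 1) ^ 2)⁻¹ with hg
  set A := annR (R₁ - 1) (R₂ + 1) with hAdef
  have hsA : ∀ u ∈ A, R₁ - 1 ≤ Real.sqrt (u.1 ^ 2 + u.2 ^ 2) := fun u hu =>
    Real.le_sqrt_of_sq_le hu.1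
  have hcont : ContinuousOn (fun u : ℝ × ℝ => g (Real.sqrt (u.1 ^ 2 + u.2 ^ 2))) A := by
    refine ContinuousOn.inv₀ (by fun_prop) fun u hu => ?_
    have := hsA u hu
    have h3 : 0 < Real.sqrt (u.1 ^ 2 + u.2 ^ 2) - 1 := by linarith
    positivity
  have hint : IntegrableOn (fun u : ℝ × ℝ => g (Real.sqrt (u.1 ^ 2 + u.2 ^ 2))) A :=
    hcont.integrableOn_compact (ea_annR_compact _ _)
  have key : ∀ v ∈ F, ∀ u ∈ cellC c v, u ∈ A ∧
      (nsqC c v)⁻¹ ≤ g (Real.sqrt (u.1 ^ 2 + u.2 ^ 2)) := by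
    intro v hv u hu
    obtain ⟨b1, b2⟩ := hF v hv
    have hn0 : 0 ≤ nsqC c v := by unfold nsqC; positivity
    have hs0 : 0 ≤ u.1 ^ 2 + u.2 ^ 2 := by positivity
    have hd := abs_le.1 (ea_cell_norm c v hu)
    set s := Real.sqrt (u.1 ^ 2 + u.2 ^ 2) with hs
    set n := Real.sqrt (nsqC c v) with hn
    have hss : s ^ 2 = u.1 ^ 2 + u.2 ^ 2 := Real.sq_sqrt hs0
    have hnn : n ^ 2 = nsqC c v := Real.sq_sqrt hn0
    have hn1 : R₁ ≤ n := Real.le_sqrt_of_sq_le b1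
    have hn2 : n ≤ R₂ := by
      rw [hn]
      exact Real.sqrt_le_iff.2 ⟨by linarith, b2⟩
    refine ⟨⟨?_, ?_⟩, ?_⟩
    · rw [← hss]
      exact pow_le_pow_left₀ (by linarith) (by linarith [hd.1]) 2
    · rw [← hss]
      exact pow_le_pow_left₀ (Real.sqrt_nonneg _) (by linarith [hd.2]) 2
    · simp only [hg]
      rw [← hnn]
      have h3 : 0 < s - 1 := by linarith [hd.1]
      exact inv_anti₀ (by positivity) (pow_le_pow_left₀ h3.le (by linarith [hd.2]) 2)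
  have h1 := ea_cell_sum_le c F A (ea_annR_closed _ _).measurableSet
    (fun u : ℝ × ℝ => g (Real.sqrt (u.1 ^ 2 + u.2 ^ 2))) (fun v => (nsqC c v)⁻¹) hint
    (fun u _ => by simp only [hg]; positivity) (fun v hv u hu => (key v hv u hu).1)
    (fun v hv u hu => (key v hv u hu).2)
  refine h1.trans ?_
  rw [hAdef, ea_integral_radial g (R₁ - 1) (R₂ + 1) (by linarith) (by linarith)]
  refine mul_le_mul_of_nonneg_left ?_ (by positivity)
  rw [integral_Icc_eq_integral_Ioc, ← intervalIntegral.integral_of_le (by linarith)]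
  have hder : ∀ r ∈ Set.uIcc (R₁ - 1) (R₂ + 1),
      HasDerivAt (fun r => Real.log (r - 1) - (r - 1)⁻¹) (r * g r) r := by
    intro r hr
    rw [Set.uIcc_of_le (by linarith)] at hr
    have hr1 : r - 1 ≠ 0 := by
      have := hr.1
      intro h0
      linarith
    have d1 : HasDerivAt (fun r : ℝ => r - 1) 1 r := (hasDerivAt_id r).sub_const 1
    have d2 := d1.log hr1
    have d3 := d1.inv hr1
    refine (d2.sub d3).congr_deriv ?_
    simp only [hg]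
    field_simp
    ring
  have hci : IntervalIntegrable (fun r => r * g r) volume (R₁ - 1) (R₂ + 1) := by
    apply ContinuousOn.intervalIntegrable
    rw [Set.uIcc_of_le (by linarith)]
    refine continuousOn_id.mul (ContinuousOn.inv₀ (by fun_prop) fun r hr => ?_)
    have := hr.1
    have h3 : 0 < r - 1 := by linarith
    positivity
  rw [intervalIntegral.integral_eq_sub_of_hasDerivAt hder hci]
  have e1 : R₂ + 1 - 1 = R₂ := by ring
  have e2 : R₁ - 1 - 1 = R₁ - 2 := by ring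
  rw [e1, e2, Real.log_div (by linarith) (by linarith)]
  have h5 : 0 < R₂⁻¹ := by
    have : 0 < R₂ := by linarith
    positivity
  rw [one_div]
  linarith

/-! ## (B) the angle as a trial field -/

/-- first coordinate of `z_v` -/
def zx (v : ℤ × ℤ) : ℝ := (v.1 : ℝ) + 1 / 2

/-- second coordinate of `z_v` (never zero) -/
def zy (v : ℤ × ℤ) : ℝ := (v.2 : ℝ) + 1 / 2

/-- the angle of `z_v` in `(0, 2π)` -/
def thetaF (v : ℤ × ℤ) : ℝ := (if 0 ≤ v.2 then Real.pi / 2 else 3 * Real.pi / 2) - Real.arctan (zx v / zy v)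

theorem ea_sq_arctan_le (t : ℝ) : Real.arctan t ^ 2 ≤ t ^ 2 := by
  have hpos : ∀ s : ℝ, 0 ≤ s → Real.arctan s ≤ s := by
    intro s hs
    have h1 := Real.le_tan (Real.arctan_nonneg.2 hs) (Real.arctan_lt_pi_div_two s)
    rwa [Real.tan_arctan] at h1
  rcases le_total 0 t with h | h
  · exact pow_le_pow_left₀ (Real.arctan_nonneg.2 h) (hpos t h) 2
  · have h1 := hpos (-t) (by linarith)
    have h2 : 0 ≤ Real.arctan (-t) := Real.arctan_nonneg.2 (by linarith)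
    have h3 := pow_le_pow_left₀ h2 h1 2
    rw [Real.arctan_neg] at h3
    nlinarith

/-- difference of two arctangents. -/
theorem ea_arctan_sub {a b : ℝ} (h : 0 < 1 + a * b) :
    Real.arctan a - Real.arctan b = Real.arctan ((a - b) / (1 + a * b)) := by
  have h1 := Real.arctan_add (x := a) (y := -b) (by nlinarith)
  rw [Real.arctan_neg] at h1
  have e1 : a + -b = a - b := by ring
  have e2 : 1 - a * -b = 1 + a * b := by ring
  rw [e1, e2] at h1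
  linarith

/-- ENANN-B1.  `x = zx e.1`, `y = zy e.1`, `nsqC (1/2) e.1 = x² + y²`.
* `e.2 = true` (`e.snd = (e.1.1 + 1, e.1.2)`, `ray e = 0`): the same branch of `thetaF`; `arctan ((x+1)/y) - arctan (x/y) = arctan (y/(x² + y² + x))` (`Real.arctan_add` with `-(x/y)`; `1 + x (x+1)/y² > 0`), `|arctan t| ≤ |t|`.
* `e.2 = false`, `e.1.2 ≠ -1` (`ray e = 0`, `y (y+1) > 0`, the same branch): `arctan (x/(y+1)) - arctan (x/y) = arctan (-x/(x² + y² + y))`.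
* `e.2 = false`, `e.1.2 = -1` (`y = -1/2`): the expression is `-π - 2 arctan (2x) + 2π [0 ≤ e.1.1] = ± 2 arctan (1/(2|x|))` (`Real.arctan_inv_of_pos`), of modulus `≤ 1/|x| ≤ |x|/(x² - 1/4)`. -/
theorem ea_theta_incr (e : Bond) (h : 4 ≤ nsqC (1 / 2) e.1) :
    (thetaF e.snd - thetaF e.1 + 2 * Real.pi * (ray e : ℝ)) ^ 2 ≤
      if e.2 then zy e.1 ^ 2 / (nsqC (1 / 2) e.1 + zx e.1) ^ 2 else zx e.1 ^ 2 / (nsqC (1 / 2) e.1 + zy e.1) ^ 2 := by
  obtain ⟨⟨k, l⟩, bb⟩ := e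
  set x : ℝ := (k : ℝ) + 1 / 2 with hx
  set y : ℝ := (l : ℝ) + 1 / 2 with hy
  have hn : nsqC (1 / 2) (k, l) = x ^ 2 + y ^ 2 := rfl
  simp only at h
  rw [hn] at h
  have hy0 : y ≠ 0 := by
    intro h0
    have h1 : (2 * l + 1 : ℤ) = 0 := by
      have : ((2 * l + 1 : ℤ) : ℝ) = 0 := by push_cast; linarith
      exact_mod_cast this
    omega
  cases bb with
  | true =>
    have hray : ray ((k, l), true) = 0 := by simp [ray]
    have hsnd : Bond.snd ((k, l), true) = (k + 1, l) := by simp [Bond.snd]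
    simp only [hsnd, hray, if_true, hn]
    have hzx : zx (k, l) = x := rfl
    have hzy : zy (k, l) = y := rfl
    have hzx' : zx (k + 1, l) = x + 1 := by simp only [zx, hx]; push_cast; ring
    have hzy' : zy (k + 1, l) = y := rfl
    have hD : 0 < x ^ 2 + y ^ 2 + x := by nlinarith [sq_nonneg (x + 2), sq_nonneg (x + 1 / 2)]
    have hy2 : 0 < y ^ 2 := by positivity
    have hden : 1 + (x + 1) / y * (x / y) = (x ^ 2 + y ^ 2 + x) / y ^ 2 := by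
      field_simp
      ring
    have hpos : 0 < 1 + (x + 1) / y * (x / y) := by
      rw [hden]
      positivity
    have hDne : x ^ 2 + y ^ 2 + x ≠ 0 := hD.ne'
    have e1 : thetaF (k + 1, l) - thetaF (k, l) = -(Real.arctan ((x + 1) / y) - Real.arctan (x / y)) := by
      simp only [thetaF, hzx, hzy, hzx', hzy']
      ring
    rw [e1, ea_arctan_sub hpos, hzx, hzy]
    have e2 : ((x + 1) / y - x / y) / (1 + (x + 1) / y * (x / y)) = y / (x ^ 2 + y ^ 2 + x) := by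
      rw [hden]
      field_simp
      ring
    rw [e2]
    have := ea_sq_arctan_le (y / (x ^ 2 + y ^ 2 + x))
    rw [div_pow] at this
    simpa using this
  | false =>
    have hsnd : Bond.snd ((k, l), false) = (k, l + 1) := by simp [Bond.snd]
    simp only [hsnd, hn, Bool.false_eq_true, if_false]
    have hzx : zx (k, l) = x := rfl
    have hzy : zy (k, l) = y := rfl
    have hzx' : zx (k, l + 1) = x := rfl
    have hzy' : zy (k, l + 1) = y + 1 := by simp only [zy, hy]; push_cast; ring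
    rw [hzx, hzy]
    by_cases hl : l = -1
    · -- the branch cut
      subst hl
      have hyv : y = -(1 / 2) := by simp only [hy]; push_cast; ring
      have hx2 : 15 / 4 ≤ x ^ 2 := by rw [hyv] at h; nlinarith
      have t1 : thetaF (k, -1 + 1) = Real.pi / 2 - Real.arctan (2 * x) := by
        have : zx (k, -1 + 1) / zy (k, -1 + 1) = 2 * x := by
          rw [hzx', hzy', hyv]; ring
        simp only [thetaF, this]
        simp
      have t2 : thetaF (k, -1) = 3 * Real.pi / 2 + Real.arctan (2 * x) := by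
        have : zx (k, -1) / zy (k, -1) = -(2 * x) := by
          rw [hzx, hzy, hyv]; ring
        simp only [thetaF, this, Real.arctan_neg]
        simp
      rw [t1, t2, hyv]
      have hden : 0 < x ^ 2 + (-(1 / 2)) ^ 2 + -(1 / 2) := by nlinarith
      have hfin : ∀ w : ℝ, w ^ 2 ≤ (1 / x) ^ 2 →
          w ^ 2 ≤ x ^ 2 / (x ^ 2 + (-(1 / 2)) ^ 2 + -(1 / 2)) ^ 2 := by
        intro w hw
        refine hw.trans ?_
        have hx20 : 0 < x ^ 2 := by nlinarith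
        rw [div_pow, one_pow, div_le_div_iff₀ hx20 (by positivity)]
        nlinarith
      by_cases hk : 0 ≤ k
      · have hray : ray ((k, -1), false) = 1 := by simp [ray, hk]
        have hxp : 0 < x := by
          have : (0 : ℝ) ≤ k := by exact_mod_cast hk
          simp only [hx]; linarith
        rw [hray]
        have e3 : Real.pi / 2 - Real.arctan (2 * x) - (3 * Real.pi / 2 + Real.arctan (2 * x)) +
            2 * Real.pi * ((1 : ℤ) : ℝ) = 2 * Real.arctan (2 * x)⁻¹ := by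
          rw [Real.arctan_inv_of_pos (by positivity)]
          push_cast
          ring
        rw [e3]
        apply hfin
        have := ea_sq_arctan_le (2 * x)⁻¹
        have e4 : (1 / x) ^ 2 = 4 * ((2 * x)⁻¹) ^ 2 := by
          field_simp
          ring
        rw [e4]
        nlinarith
      · have hray : ray ((k, -1), false) = 0 := by simp [ray, hk]
        have hxn : x < 0 := by
          have : k ≤ -1 := by omega
          have : (k : ℝ) ≤ -1 := by exact_mod_cast this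
          simp only [hx]; linarith
        rw [hray]
        have e3 : Real.pi / 2 - Real.arctan (2 * x) - (3 * Real.pi / 2 + Real.arctan (2 * x)) +
            2 * Real.pi * ((0 : ℤ) : ℝ) = 2 * Real.arctan (2 * x)⁻¹ := by
          rw [Real.arctan_inv_of_neg (by linarith)]
          push_cast
          ring
        rw [e3]
        apply hfin
        have := ea_sq_arctan_le (2 * x)⁻¹
        have hx0 : x ≠ 0 := hxn.ne
        have e4 : (1 / x) ^ 2 = 4 * ((2 * x)⁻¹) ^ 2 := by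
          field_simp
          ring
        rw [e4]
        nlinarith
    · have hray : ray ((k, l), false) = 0 := by simp [ray, hl]
      rw [hray]
      have hyy : 0 < y * (y + 1) := by
        rcases lt_or_ge l 0 with h0 | h0
        · have : l ≤ -2 := by omega
          have h1 : (l : ℝ) ≤ -2 := by exact_mod_cast this
          have h2 : y ≤ -(3 / 2) := by simp only [hy]; linarith
          nlinarith
        · have h1 : (0 : ℝ) ≤ l := by exact_mod_cast h0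
          have h2 : 0 < y := by simp only [hy]; linarith
          positivity
      have hy1 : y + 1 ≠ 0 := fun h0 => by rw [h0] at hyy; simp at hyy
      have hbr : (0 ≤ l + 1) ↔ (0 ≤ l) := by omega
      have hD : 0 < x ^ 2 + y ^ 2 + y := by nlinarith [sq_nonneg x]
      have hpos : 0 < 1 + x / (y + 1) * (x / y) := by
        have : 1 + x / (y + 1) * (x / y) = (x ^ 2 + y ^ 2 + y) / (y * (y + 1)) := by
          field_simp
          ring
        rw [this]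
        positivity
      have e1 : thetaF (k, l + 1) - thetaF (k, l) =
          -(Real.arctan (x / (y + 1)) - Real.arctan (x / y)) := by
        simp only [thetaF, hzx, hzy, hzx', hzy', hbr]
        ring
      rw [e1, ea_arctan_sub hpos]
      have e2 : (x / (y + 1) - x / y) / (1 + x / (y + 1) * (x / y)) = -x / (x ^ 2 + y ^ 2 + y) := by
        field_simp
        ring
      rw [e2]
      have := ea_sq_arctan_le (-x / (x ^ 2 + y ^ 2 + y))
      rw [div_pow, neg_sq] at this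
      simpa using this

/-- `x² + y² + x ≥ (x² + y²) (1 - 1/R)` if `x² + y² ≥ R²`. -/
theorem ea_den_le {x y R : ℝ} (hR : 0 < R) (h : R ^ 2 ≤ x ^ 2 + y ^ 2) :
    (x ^ 2 + y ^ 2) * (1 - 1 / R) ≤ x ^ 2 + y ^ 2 + x := by
  have hn : 0 ≤ x ^ 2 + y ^ 2 := by positivity
  have h1 : (x * R) ^ 2 ≤ (x ^ 2 + y ^ 2) ^ 2 := by
    have : (x * R) ^ 2 = x ^ 2 * R ^ 2 := by ring
    rw [this]
    nlinarith [sq_nonneg x, sq_nonneg y, mul_nonneg (sq_nonneg x) (sub_nonneg.2 h),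
      mul_nonneg (sq_nonneg y) hn]
  have h2 := (abs_le_of_sq_le_sq' h1 hn).1
  have h3 : -((x ^ 2 + y ^ 2) / R) ≤ x := by
    rw [neg_le, le_div_iff₀ hR]
    linarith
  have e : (x ^ 2 + y ^ 2) * (1 - 1 / R) = x ^ 2 + y ^ 2 - (x ^ 2 + y ^ 2) / R := by ring
  rw [e]
  linarith

/-- ENANN-B2.  `Men_le` with `v = thetaF` (`P = ∅`); `enG` is the sum of the squares of `ea_theta_incr`; `domBonds D ∅ ⊆ D ×ˢ univ`, so the sum is `≤ ∑_{v ∈ D} (term (v,true) + term (v,false))`;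
`|z|² + x ≥ |z|² (1 - 1/R₁)` because `|x| ≤ |z| ≤ |z|²/R₁`; the two numerators add up to `|z|²`; `ea_lat_sum_le` with `c = 1/2`. -/
theorem ea_upper (D : Finset (ℤ × ℤ)) (R₁ R₂ : ℝ) (h₁ : 2 < R₁) (h12 : R₁ ≤ R₂)
    (hD : ∀ v ∈ D, R₁ ^ 2 ≤ nsqC (1 / 2) v ∧ nsqC (1 / 2) v ≤ R₂ ^ 2) :
    Men D ∅ ∅ ray ≤ ((1 - 1 / R₁)⁻¹) ^ 2 * (2 * Real.pi * (Real.log (R₂ / (R₁ - 2)) + 1 / (R₁ - 2))) := by
  have h1 := Men_le D ∅ ∅ ray thetaF (fun x hx => absurd hx (Set.notMem_empty x))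
  refine h1.trans ?_
  unfold enG
  set T : Bond → ℝ := fun e => if e.2 then zy e.1 ^ 2 / (nsqC (1 / 2) e.1 + zx e.1) ^ 2
    else zx e.1 ^ 2 / (nsqC (1 / 2) e.1 + zy e.1) ^ 2 with hT
  have hT0 : ∀ e, 0 ≤ T e := by
    intro e
    simp only [hT]
    split_ifs <;> positivity
  have hR0 : 0 < R₁ := by linarith
  have hq : 0 < 1 - 1 / R₁ := by
    have : 1 / R₁ < 1 := by rw [div_lt_one hR0]; linarith
    linarith
  have hpt : ∀ v ∈ D, T (v, true) + T (v, false) ≤ ((1 - 1 / R₁)⁻¹) ^ 2 * (nsqC (1 / 2) v)⁻¹ := by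
    intro v hv
    have hb := (hD v hv).1
    have hn : nsqC (1 / 2) v = zx v ^ 2 + zy v ^ 2 := rfl
    set x := zx v
    set y := zy v
    rw [hn] at hb ⊢
    have hnpos : 0 < x ^ 2 + y ^ 2 := lt_of_lt_of_le (by positivity) hb
    have d1 := ea_den_le hR0 hb
    have d2 : (x ^ 2 + y ^ 2) * (1 - 1 / R₁) ≤ x ^ 2 + y ^ 2 + y := by
      have := ea_den_le (x := y) (y := x) hR0 (by linarith)
      linarith
    have hm : 0 < (x ^ 2 + y ^ 2) * (1 - 1 / R₁) := by positivity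
    have t1 : T (v, true) ≤ y ^ 2 / ((x ^ 2 + y ^ 2) * (1 - 1 / R₁)) ^ 2 := by
      simp only [hT, if_true, hn]
      exact div_le_div_of_nonneg_left (sq_nonneg _) (by positivity)
        (pow_le_pow_left₀ hm.le d1 2)
    have t2 : T (v, false) ≤ x ^ 2 / ((x ^ 2 + y ^ 2) * (1 - 1 / R₁)) ^ 2 := by
      simp only [hT, Bool.false_eq_true, if_false, hn]
      exact div_le_div_of_nonneg_left (sq_nonneg _) (by positivity)
        (pow_le_pow_left₀ hm.le d2 2)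
    have e : y ^ 2 / ((x ^ 2 + y ^ 2) * (1 - 1 / R₁)) ^ 2 + x ^ 2 / ((x ^ 2 + y ^ 2) * (1 - 1 / R₁)) ^ 2
        = ((1 - 1 / R₁)⁻¹) ^ 2 * (x ^ 2 + y ^ 2)⁻¹ := by
      have hq' := hq.ne'
      have hn' := hnpos.ne'
      field_simp
      ring
    linarith
  calc ∑ e ∈ domBonds D ∅, (thetaF e.snd - thetaF e.1 + 2 * Real.pi * (ray e : ℝ)) ^ 2
      ≤ ∑ e ∈ domBonds D ∅, T e := Finset.sum_le_sum fun e he => by
        refine ea_theta_incr e ?_
        have := (hD e.1 (domBonds_fst he)).1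
        nlinarith
    _ ≤ ∑ e ∈ D ×ˢ (Finset.univ : Finset Bool), T e :=
        Finset.sum_le_sum_of_subset_of_nonneg
          (fun e he => Finset.mem_product.2 ⟨domBonds_fst he, Finset.mem_univ _⟩)
          fun e _ _ => hT0 e
    _ = ∑ v ∈ D, (T (v, true) + T (v, false)) := by
        rw [Finset.sum_product]
        simp
    _ ≤ ∑ v ∈ D, ((1 - 1 / R₁)⁻¹) ^ 2 * (nsqC (1 / 2) v)⁻¹ := Finset.sum_le_sum hpt
    _ = ((1 - 1 / R₁)⁻¹) ^ 2 * ∑ v ∈ D, (nsqC (1 / 2) v)⁻¹ := by rw [Finset.mul_sum]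
    _ ≤ _ := mul_le_mul_of_nonneg_left (ea_lat_sum_le (1 / 2) D R₁ R₂ h₁ h12 hD) (by positivity)

/-! ## (C) the staircase disc between two round discs -/

/-- the block of a coordinate. -/
theorem ea_block (S : ℕ) (hS : 1 ≤ S) (t : ℤ) :
    ((t / (S : ℤ) : ℤ) : ℝ) * S ≤ (t : ℝ) + 1 / 2 ∧
      (t : ℝ) + 1 / 2 ≤ (((t / (S : ℤ) : ℤ) : ℝ) + 1) * S := by
  have hS0 : (0 : ℤ) < S := by exact_mod_cast hS
  have h1 : t / (S : ℤ) * S ≤ t := Int.ediv_mul_le t hS0.ne'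
  have h2 : t + 1 ≤ (t / (S : ℤ) + 1) * S := Int.lt_ediv_add_one_mul_self t hS0
  have h1' : ((t / (S : ℤ) : ℤ) : ℝ) * S ≤ t := by exact_mod_cast h1
  have h2' : (t : ℝ) + 1 ≤ (((t / (S : ℤ) : ℤ) : ℝ) + 1) * S := by exact_mod_cast h2
  constructor <;> linarith

theorem ea_coord_le (S : ℕ) (hS : 1 ≤ S) (t : ℤ) :
    ((t : ℝ) + 1 / 2) ^ 2 ≤
      ((max ((t / (S : ℤ)) ^ 2) ((t / (S : ℤ) + 1) ^ 2) : ℤ) : ℝ) * (S : ℝ) ^ 2 := by
  obtain ⟨h1, h2⟩ := ea_block S hS t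
  set k : ℤ := t / (S : ℤ)
  have hS2 : (0 : ℝ) ≤ (S : ℝ) ^ 2 := by positivity
  rcases le_total 0 ((t : ℝ) + 1 / 2) with h | h
  · have a1 : ((t : ℝ) + 1 / 2) ^ 2 ≤ (((k : ℝ) + 1) * S) ^ 2 := pow_le_pow_left₀ h h2 2
    have a2 : (((k + 1) ^ 2 : ℤ) : ℝ) ≤ ((max (k ^ 2) ((k + 1) ^ 2) : ℤ) : ℝ) := by
      exact_mod_cast le_max_right _ _
    have a3 := mul_le_mul_of_nonneg_right a2 hS2
    push_cast at a3 ⊢
    nlinarith
  · have a1 : ((t : ℝ) + 1 / 2) ^ 2 ≤ ((k : ℝ) * S) ^ 2 := by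
      rw [← neg_sq ((k : ℝ) * S)]
      exact sq_le_sq' (by linarith) (by linarith)
    have a2 : ((k ^ 2 : ℤ) : ℝ) ≤ ((max (k ^ 2) ((k + 1) ^ 2) : ℤ) : ℝ) := by
      exact_mod_cast le_max_left _ _
    have a3 := mul_le_mul_of_nonneg_right a2 hS2
    push_cast at a3 ⊢
    nlinarith

/-- ENANN-C.  `k = v.1 / S` (floor division): `k S ≤ v.1 ≤ (k+1) S - 1` (`Int.ediv_mul_le`/`Int.lt_ediv_add_one_mul_self`), so `(v.1 + 1/2)² ≤ S² max (k²) ((k+1)²)`. -/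
theorem ea_stair_le (M S : ℕ) (hS : 1 ≤ S) {v : ℤ × ℤ} (hv : v ∈ stair M S) : nsqC (1 / 2) v ≤ ((M : ℝ) * S) ^ 2 := by
  have h := (Finset.mem_filter.1 hv).2
  have h' : ((max ((v.1 / (S : ℤ)) ^ 2) ((v.1 / (S : ℤ) + 1) ^ 2) : ℤ) : ℝ) +
      ((max ((v.2 / (S : ℤ)) ^ 2) ((v.2 / (S : ℤ) + 1) ^ 2) : ℤ) : ℝ) ≤ (M : ℝ) ^ 2 := by
    exact_mod_cast h
  have h1 := ea_coord_le S hS v.1
  have h2 := ea_coord_le S hS v.2
  have hS2 : (0 : ℝ) ≤ (S : ℝ) ^ 2 := by positivity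
  have h3 := mul_le_mul_of_nonneg_right h' hS2
  unfold nsqC
  rw [mul_pow]
  linarith

theorem ea_coord_ge (S : ℕ) (hS : 1 ≤ S) (t : ℤ) :
    ∃ a : ℝ, 1 ≤ a ∧ a ^ 2 = ((max ((t / (S : ℤ)) ^ 2) ((t / (S : ℤ) + 1) ^ 2) : ℤ) : ℝ) ∧
      ((a - 1) * S) ^ 2 ≤ ((t : ℝ) + 1 / 2) ^ 2 := by
  obtain ⟨h1, h2⟩ := ea_block S hS t
  set k : ℤ := t / (S : ℤ)
  have hS0 : (0 : ℝ) ≤ S := by positivity
  rcases lt_or_ge k 0 with hk | hk
  · have hk' : k ≤ -1 := by omega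
    have hkr : (k : ℝ) ≤ -1 := by exact_mod_cast hk'
    refine ⟨-(k : ℝ), by linarith, ?_, ?_⟩
    · rw [max_eq_left (by nlinarith)]
      push_cast
      ring
    · have h3 : ((k : ℝ) + 1) * S ≤ 0 := mul_nonpos_of_nonpos_of_nonneg (by linarith) hS0
      have e : (-(k : ℝ) - 1) * S = -(((k : ℝ) + 1) * S) := by ring
      rw [e, ← neg_sq ((t : ℝ) + 1 / 2)]
      exact sq_le_sq' (by linarith) (by linarith)
  · have hkr : (0 : ℝ) ≤ k := by exact_mod_cast hk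
    refine ⟨(k : ℝ) + 1, by linarith, ?_, ?_⟩
    · rw [max_eq_right (by nlinarith)]
      push_cast
      ring
    · have e : ((k : ℝ) + 1 - 1) * S = (k : ℝ) * S := by ring
      rw [e]
      exact pow_le_pow_left₀ (by positivity) h1 2

theorem ea_ab {a b M : ℝ} (hM : 2 ≤ M) (h : M ^ 2 ≤ a ^ 2 + b ^ 2) :
    (M - 2) ^ 2 ≤ (a - 1) ^ 2 + (b - 1) ^ 2 := by
  have h1 : 2 * M * (a + b) ≤ (a ^ 2 + b ^ 2) + 2 * M ^ 2 := by
    nlinarith [sq_nonneg (a + b - 2 * M), sq_nonneg (a - b)]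
  have h0 : 0 ≤ (M - 1) * (a ^ 2 + b ^ 2 - M ^ 2) := mul_nonneg (by linarith) (by linarith)
  have h2 : M * ((M - 1) * (M - 2)) ≤ M * ((a - 1) ^ 2 + (b - 1) ^ 2) := by nlinarith
  have h3 : (M - 1) * (M - 2) ≤ (a - 1) ^ 2 + (b - 1) ^ 2 :=
    le_of_mul_le_mul_left h2 (by linarith)
  nlinarith

/-- ENANN-C.  If `v ∉ sq (M S)` one coordinate of `z_v` has modulus `≥ M S`.  Otherwise `a² + b² > M²` with `a = max |k| |k+1| ≥ 1`, `b` likewise, `|v.1 + 1/2| ≥ (a - 1) S`, and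
`(a-1)² + (b-1)² = a² + b² - 2 (a+b) + 2 ≥ (M-2)²` because `2 (a+b) ≤ (a+b)²/(2M) + 2M ≤ (a²+b²)/M + 2M`. -/
theorem ea_le_of_not_stair (M S : ℕ) (hM : 2 ≤ M) (hS : 1 ≤ S) {v : ℤ × ℤ} (hv : v ∉ stair M S) :
    (((M : ℝ) - 2) * S) ^ 2 ≤ nsqC (1 / 2) v := by
  have hMr : (2 : ℝ) ≤ M := by exact_mod_cast hM
  have hS0 : (0 : ℝ) ≤ S := by positivity
  have hbig : (((M : ℝ) - 2) * S) ^ 2 ≤ ((M : ℝ) * S) ^ 2 :=
    pow_le_pow_left₀ (mul_nonneg (by linarith) hS0)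
      (mul_le_mul_of_nonneg_right (by linarith) hS0) 2
  have hMS0 : (0 : ℝ) ≤ (M : ℝ) * S := by positivity
  have hout : ∀ t : ℤ, ¬ (-((M * S : ℕ) : ℤ) ≤ t ∧ t < ((M * S : ℕ) : ℤ)) →
      ((M : ℝ) * S) ^ 2 ≤ ((t : ℝ) + 1 / 2) ^ 2 := by
    intro t ht
    rw [not_and_or, not_le, not_lt] at ht
    rcases ht with h | h
    · have h' : t + 1 ≤ -((M * S : ℕ) : ℤ) := h
      have h'' : (t : ℝ) + 1 ≤ -((M : ℝ) * S) := by exact_mod_cast h'
      nlinarith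
    · have h'' : (M : ℝ) * S ≤ t := by exact_mod_cast h
      nlinarith
  by_cases hsq : v ∈ sq (M * S)
  · have hnot : ¬ (max ((v.1 / (S : ℤ)) ^ 2) ((v.1 / (S : ℤ) + 1) ^ 2) +
        max ((v.2 / (S : ℤ)) ^ 2) ((v.2 / (S : ℤ) + 1) ^ 2) ≤ (M : ℤ) ^ 2) := fun h =>
      hv (Finset.mem_filter.2 ⟨hsq, h⟩)
    rw [not_le] at hnot
    have h' : (M : ℝ) ^ 2 < ((max ((v.1 / (S : ℤ)) ^ 2) ((v.1 / (S : ℤ) + 1) ^ 2) : ℤ) : ℝ) +
        ((max ((v.2 / (S : ℤ)) ^ 2) ((v.2 / (S : ℤ) + 1) ^ 2) : ℤ) : ℝ) := by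
      exact_mod_cast hnot
    obtain ⟨a, ha1, ha2, ha3⟩ := ea_coord_ge S hS v.1
    obtain ⟨b, hb1, hb2, hb3⟩ := ea_coord_ge S hS v.2
    rw [← ha2, ← hb2] at h'
    have h4 := ea_ab hMr h'.le
    have hS2 : (0 : ℝ) ≤ (S : ℝ) ^ 2 := by positivity
    have h5 := mul_le_mul_of_nonneg_right h4 hS2
    unfold nsqC
    rw [mul_pow] at ha3 hb3 ⊢
    linarith
  · have : ¬ ((-((M * S : ℕ) : ℤ) ≤ v.1 ∧ v.1 < ((M * S : ℕ) : ℤ)) ∧
        (-((M * S : ℕ) : ℤ) ≤ v.2 ∧ v.2 < ((M * S : ℕ) : ℤ))) := by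
      intro h
      apply hsq
      unfold sq
      rw [Finset.mem_product, Finset.mem_Ico, Finset.mem_Ico]
      exact h
    rw [not_and_or] at this
    unfold nsqC
    rcases this with h | h
    · have := hout v.1 h
      nlinarith [sq_nonneg ((v.2 : ℝ) + 1 / 2)]
    · have := hout v.2 h
      nlinarith [sq_nonneg ((v.1 : ℝ) + 1 / 2)]

/-! ## (D) the dual flow -/

/-- the rotated gradient of a function `ψ` on the primal sites (= integer points; the vertex `v` sits at `v + (1/2,1/2)`): a divergence free flow on the bonds -/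
def rotJ (ψ : ℤ × ℤ → ℝ) (e : Bond) : ℝ :=
  if e.2 then ψ (e.1.1 + 1, e.1.2 + 1) - ψ (e.1.1 + 1, e.1.2) else ψ (e.1.1, e.1.2 + 1) - ψ (e.1.1 + 1, e.1.2 + 1)

/-- `clamp (log |p|)` between `log ρ₁` and `log ρ₂` -/
def psiF (ρ₁ ρ₂ : ℝ) (p : ℤ × ℤ) : ℝ := max (Real.log ρ₁) (min (Real.log ρ₂) (Real.log (nsqC 0 p) / 2))

theorem ea_norm_close {x y x' y' : ℝ} (h1 : |x - x'| ≤ 1 / 2) (h2 : |y - y'| ≤ 1 / 2) :
    |Real.sqrt (x ^ 2 + y ^ 2) - Real.sqrt (x' ^ 2 + y' ^ 2)| ≤ 1 := by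
  have h := abs_norm_sub_norm_le (⟨x, y⟩ : ℂ) (⟨x', y'⟩ : ℂ)
  rw [Complex.norm_eq_sqrt_sq_add_sq, Complex.norm_eq_sqrt_sq_add_sq,
    Complex.norm_eq_sqrt_sq_add_sq] at h
  simp only [Complex.sub_re, Complex.sub_im] at h
  refine h.trans ?_
  rw [Real.sqrt_le_iff]
  refine ⟨zero_le_one, ?_⟩
  have k1 : (x - x') ^ 2 ≤ (1 / 2) ^ 2 := sq_le_sq' (abs_le.1 h1).1 (abs_le.1 h1).2
  have k2 : (y - y') ^ 2 ≤ (1 / 2) ^ 2 := sq_le_sq' (abs_le.1 h2).1 (abs_le.1 h2).2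
  linarith

theorem ea_shift_lower {ρ p1 p2 z1 z2 : ℝ} (hρ : 1 ≤ ρ) (h : ρ ^ 2 < p1 ^ 2 + p2 ^ 2)
    (h1 : |z1 - p1| ≤ 1 / 2) (h2 : |z2 - p2| ≤ 1 / 2) : (ρ - 1) ^ 2 < z1 ^ 2 + z2 ^ 2 := by
  have a1 : ρ < Real.sqrt (p1 ^ 2 + p2 ^ 2) := (Real.lt_sqrt (by linarith)).2 h
  have a2 := (abs_le.1 (ea_norm_close h1 h2)).1
  have a3 : ρ - 1 < Real.sqrt (z1 ^ 2 + z2 ^ 2) := by linarith
  have a4 := pow_lt_pow_left₀ a3 (by linarith) two_ne_zero
  rwa [Real.sq_sqrt (by positivity)] at a4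

theorem ea_shift_upper {ρ p1 p2 z1 z2 : ℝ} (hρ : 0 < ρ) (h : p1 ^ 2 + p2 ^ 2 < ρ ^ 2)
    (h1 : |z1 - p1| ≤ 1 / 2) (h2 : |z2 - p2| ≤ 1 / 2) : z1 ^ 2 + z2 ^ 2 < (ρ + 1) ^ 2 := by
  have a1 : Real.sqrt (p1 ^ 2 + p2 ^ 2) < ρ := (Real.sqrt_lt' hρ).2 h
  have a2 := (abs_le.1 (ea_norm_close h1 h2)).2
  have a3 : Real.sqrt (z1 ^ 2 + z2 ^ 2) < ρ + 1 := by linarith
  have a4 := pow_lt_pow_left₀ a3 (Real.sqrt_nonneg _) two_ne_zero
  rwa [Real.sq_sqrt (by positivity)] at a4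

theorem ea_psi_low {ρ₁ ρ₂ : ℝ} (h1 : 1 ≤ ρ₁) {p : ℤ × ℤ} (hp : nsqC 0 p ≤ ρ₁ ^ 2) :
    psiF ρ₁ ρ₂ p = Real.log ρ₁ := by
  have hn : 0 ≤ nsqC 0 p := by unfold nsqC; positivity
  have hl : Real.log (nsqC 0 p) / 2 ≤ Real.log ρ₁ := by
    rcases hn.eq_or_lt with h0 | h0
    · rw [← h0, Real.log_zero, zero_div]
      exact Real.log_nonneg h1
    · have := Real.log_le_log h0 hp
      rw [Real.log_pow] at this
      push_cast at this
      linarith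
  unfold psiF
  exact max_eq_left ((min_le_right _ _).trans hl)

theorem ea_psi_high {ρ₁ ρ₂ : ℝ} (h1 : 1 ≤ ρ₁) (h12 : ρ₁ ≤ ρ₂) {p : ℤ × ℤ}
    (hp : ρ₂ ^ 2 ≤ nsqC 0 p) : psiF ρ₁ ρ₂ p = Real.log ρ₂ := by
  have h2 : 0 < ρ₂ := by linarith
  have hl : Real.log ρ₂ ≤ Real.log (nsqC 0 p) / 2 := by
    have := Real.log_le_log (by positivity) hp
    rw [Real.log_pow] at this
    push_cast at this
    linarith
  unfold psiF
  rw [min_eq_left hl]
  exact max_eq_right (Real.log_le_log (by linarith) h12)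

theorem ea_supp_aux {ρ₁ ρ₂ : ℝ} (h1 : 1 ≤ ρ₁) (h12 : ρ₁ ≤ ρ₂) {p p' z : ℤ × ℤ}
    (hne : psiF ρ₁ ρ₂ p ≠ psiF ρ₁ ρ₂ p')
    (c1 : |(z.1 : ℝ) + 1 / 2 - p.1| ≤ 1 / 2) (c2 : |(z.2 : ℝ) + 1 / 2 - p.2| ≤ 1 / 2)
    (c1' : |(z.1 : ℝ) + 1 / 2 - p'.1| ≤ 1 / 2) (c2' : |(z.2 : ℝ) + 1 / 2 - p'.2| ≤ 1 / 2) :
    (ρ₁ - 1) ^ 2 < nsqC (1 / 2) z ∧ nsqC (1 / 2) z < (ρ₂ + 1) ^ 2 := by
  have e0 : ∀ q : ℤ × ℤ, nsqC 0 q = (q.1 : ℝ) ^ 2 + (q.2 : ℝ) ^ 2 := fun q => by simp [nsqC]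
  constructor
  · by_cases hp : nsqC 0 p ≤ ρ₁ ^ 2
    · by_cases hp' : nsqC 0 p' ≤ ρ₁ ^ 2
      · exact absurd (by rw [ea_psi_low h1 hp, ea_psi_low h1 hp']) hne
      · rw [not_le, e0] at hp'
        exact ea_shift_lower h1 hp' c1' c2'
    · rw [not_le, e0] at hp
      exact ea_shift_lower h1 hp c1 c2
  · by_cases hp : ρ₂ ^ 2 ≤ nsqC 0 p
    · by_cases hp' : ρ₂ ^ 2 ≤ nsqC 0 p'
      · exact absurd (by rw [ea_psi_high h1 h12 hp, ea_psi_high h1 h12 hp']) hne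
      · rw [not_le, e0] at hp'
        exact ea_shift_upper (by linarith) hp' c1' c2'
    · rw [not_le, e0] at hp
      exact ea_shift_upper (by linarith) hp c1 c2

/-- ENANN-D0.  If the two primal sites `p, p'` of `e` have different `psiF`, one of them has `|p|² > ρ₁²` and one of them `|p|² < ρ₂²`.  Both end points `z` of `e` are of the form `p + (±1/2, ±1/2)` for both of them:
`|z|² = |p|² ± p.1 ± p.2 + 1/2`, `|p.1| + |p.2| =: t`, `t² ≤ 2 |p|²`, `t ≤ |p|²/(2μ) + μ` (`μ = ρ₁`, resp. `μ = ρ₂`). -/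
theorem ea_flow_support (ρ₁ ρ₂ : ℝ) (h1 : 1 ≤ ρ₁) (h12 : ρ₁ ≤ ρ₂) (e : Bond) (he : rotJ (psiF ρ₁ ρ₂) e ≠ 0) :
    ((ρ₁ - 1) ^ 2 < nsqC (1 / 2) e.1 ∧ nsqC (1 / 2) e.1 < (ρ₂ + 1) ^ 2) ∧
      ((ρ₁ - 1) ^ 2 < nsqC (1 / 2) e.snd ∧ nsqC (1 / 2) e.snd < (ρ₂ + 1) ^ 2) := by
  obtain ⟨⟨k, l⟩, bb⟩ := e
  cases bb with
  | true =>
    have hsnd : Bond.snd ((k, l), true) = (k + 1, l) := by simp [Bond.snd]
    have hne : psiF ρ₁ ρ₂ (k + 1, l + 1) ≠ psiF ρ₁ ρ₂ (k + 1, l) := by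
      intro h
      apply he
      simp [rotJ, h]
    rw [hsnd]
    constructor
    · refine ea_supp_aux h1 h12 hne ?_ ?_ ?_ ?_ <;>
        · rw [abs_le]
          constructor <;> push_cast <;> linarith
    · refine ea_supp_aux h1 h12 hne ?_ ?_ ?_ ?_ <;>
        · rw [abs_le]
          constructor <;> push_cast <;> linarith
  | false =>
    have hsnd : Bond.snd ((k, l), false) = (k, l + 1) := by simp [Bond.snd]
    have hne : psiF ρ₁ ρ₂ (k, l + 1) ≠ psiF ρ₁ ρ₂ (k + 1, l + 1) := by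
      intro h
      apply he
      simp [rotJ, h]
    rw [hsnd]
    constructor
    · refine ea_supp_aux h1 h12 hne ?_ ?_ ?_ ?_ <;>
        · rw [abs_le]
          constructor <;> push_cast <;> linarith
    · refine ea_supp_aux h1 h12 hne ?_ ?_ ?_ ?_ <;>
        · rw [abs_le]
          constructor <;> push_cast <;> linarith

theorem ea_mem_domBonds_cut {D : Finset (ℤ × ℤ)} {cut : Set Bond} {e : Bond} :
    e ∈ domBonds D cut ↔ e.1 ∈ D ∧ e.snd ∈ D ∧ e ∉ cut := by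
  unfold domBonds
  rw [Finset.mem_filter, Finset.mem_product]
  simp

theorem ea_mem_domBonds {D : Finset (ℤ × ℤ)} {e : Bond} :
    e ∈ domBonds D ∅ ↔ e.1 ∈ D ∧ e.snd ∈ D := by
  rw [ea_mem_domBonds_cut]
  simp

/-- sums over the bonds of `D` of a function supported in the support of the flow. -/
theorem ea_sum_domBonds {J : Bond → ℝ} {D : Finset (ℤ × ℤ)}
    (hD : ∀ e : Bond, J e ≠ 0 → e.1 ∈ D ∧ e.snd ∈ D) (f : Bond → ℝ)
    (hf : ∀ e, J e = 0 → f e = 0) :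
    ∑ e ∈ domBonds D ∅, f e = ∑ v ∈ D, (f (v, true) + f (v, false)) := by
  have h1 : ∑ e ∈ domBonds D ∅, f e = ∑ e ∈ D ×ˢ (Finset.univ : Finset Bool), f e := by
    refine Finset.sum_subset
      (fun e he => Finset.mem_product.2 ⟨domBonds_fst he, Finset.mem_univ _⟩) fun e _ he => ?_
    apply hf
    by_contra hne
    exact he (ea_mem_domBonds.2 (hD e hne))
  rw [h1, Finset.sum_product]
  simp

/-- ENANN-D1.  Summation by parts.  Because of `hD` the sum over `domBonds D ∅` equals the sum over ALL bonds (finite support: `tsum`/`finsum`, or a big box); `∑_v J(v,true) u(v + e₁) = ∑_v J(v - e₁,true) u(v)` (`Equiv.tsum_eq` with a shift), and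
`J(v - e₁, true) + J(v - e₂, false) - J(v,true) - J(v,false) = 0` identically (unfold `rotJ`, `ring`). -/
theorem ea_rot_orth (ψ : ℤ × ℤ → ℝ) (D : Finset (ℤ × ℤ)) (hD : ∀ e : Bond, rotJ ψ e ≠ 0 → e.1 ∈ D ∧ e.snd ∈ D) (u : ℤ × ℤ → ℝ) :
    ∑ e ∈ domBonds D ∅, rotJ ψ e * (u e.snd - u e.1) = 0 := by
  rw [ea_sum_domBonds hD (fun e => rotJ ψ e * (u e.snd - u e.1)) (fun e he => by simp [he])]
  have s1 : ∑ v ∈ D, rotJ ψ (v, true) * u (v.1 + 1, v.2) =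
      ∑ w ∈ D, rotJ ψ ((w.1 - 1, w.2), true) * u w := by
    refine Finset.sum_bij_ne_zero (fun a _ _ => (a.1 + 1, a.2)) ?_ ?_ ?_ ?_
    · intro a _ h2
      have := (hD (a, true) (left_ne_zero_of_mul h2)).2
      simpa [Bond.snd] using this
    · intro a _ _ b _ _ hab
      have h1 := congrArg Prod.fst hab
      have h2 := congrArg Prod.snd hab
      simp only at h1 h2
      exact Prod.ext (by omega) h2
    · intro b _ hb
      have hm := (hD _ (left_ne_zero_of_mul hb)).1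
      have e1 : ((b.1 - 1 + 1, b.2) : ℤ × ℤ) = b := Prod.ext (by simp) rfl
      refine ⟨(b.1 - 1, b.2), hm, ?_, e1⟩
      simp only [e1]
      exact hb
    · intro a _ _
      simp
  have s2 : ∑ v ∈ D, rotJ ψ (v, false) * u (v.1, v.2 + 1) =
      ∑ w ∈ D, rotJ ψ ((w.1, w.2 - 1), false) * u w := by
    refine Finset.sum_bij_ne_zero (fun a _ _ => (a.1, a.2 + 1)) ?_ ?_ ?_ ?_
    · intro a _ h2
      have := (hD (a, false) (left_ne_zero_of_mul h2)).2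
      simpa [Bond.snd] using this
    · intro a _ _ b _ _ hab
      have h1 := congrArg Prod.fst hab
      have h2 := congrArg Prod.snd hab
      simp only at h1 h2
      exact Prod.ext h1 (by omega)
    · intro b _ hb
      have hm := (hD _ (left_ne_zero_of_mul hb)).1
      have e1 : ((b.1, b.2 - 1 + 1) : ℤ × ℤ) = b := Prod.ext rfl (by simp)
      refine ⟨(b.1, b.2 - 1), hm, ?_, e1⟩
      simp only [e1]
      exact hb
    · intro a _ _
      simp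
  have e : ∀ v : ℤ × ℤ, rotJ ψ (v, true) * (u (Bond.snd (v, true)) - u v) +
      rotJ ψ (v, false) * (u (Bond.snd (v, false)) - u v) =
      rotJ ψ (v, true) * u (v.1 + 1, v.2) + rotJ ψ (v, false) * u (v.1, v.2 + 1) -
        (rotJ ψ (v, true) + rotJ ψ (v, false)) * u v := by
    intro v
    simp only [Bond.snd, if_true, Bool.false_eq_true, if_false]
    ring
  simp only [e]
  rw [Finset.sum_sub_distrib, Finset.sum_add_distrib, s1, s2, ← Finset.sum_add_distrib,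
    ← Finset.sum_sub_distrib]
  refine Finset.sum_eq_zero fun w _ => ?_
  simp only [rotJ, if_true, Bool.false_eq_true, if_false, sub_add_cancel]
  ring

/-- ENANN-D2.  `ray e = 1` iff `e = ((x,-1), false)`, `x ≥ 0`, and then `rotJ ψ e = ψ (x,0) - ψ (x+1,0)`: the sum telescopes (`Finset.sum_range_sub'`) to `ψ (0,0) - ψ (N,0)`, `N` large; `psiF (0,0) = log ρ₁` (`Real.log 0 = 0`), `psiF (N,0) = log ρ₂` for `N ≥ ρ₂`.
The bonds which are not in `domBonds D ∅` do not contribute by `hD`. -/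
theorem ea_flow_flux (ρ₁ ρ₂ : ℝ) (h1 : 1 ≤ ρ₁) (h12 : ρ₁ ≤ ρ₂) (D : Finset (ℤ × ℤ))
    (hD : ∀ e : Bond, rotJ (psiF ρ₁ ρ₂) e ≠ 0 → e.1 ∈ D ∧ e.snd ∈ D) :
    ∑ e ∈ domBonds D ∅, rotJ (psiF ρ₁ ρ₂) e * (2 * Real.pi * (ray e : ℝ)) = 2 * Real.pi * (Real.log ρ₁ - Real.log ρ₂) := by
  set ψ := psiF ρ₁ ρ₂ with hψ
  set N : ℕ := ⌈ρ₂⌉₊ with hN
  have hρN : ρ₂ ≤ N := Nat.le_ceil ρ₂
  have hρ0 : 0 ≤ ρ₂ := by linarith
  have hhigh : ∀ x : ℤ, (N : ℤ) ≤ x → ψ (x, 0) = Real.log ρ₂ := by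
    intro x hx
    apply ea_psi_high h1 h12
    have hx' : (N : ℝ) ≤ x := by exact_mod_cast hx
    have : nsqC 0 (x, 0) = (x : ℝ) ^ 2 := by simp [nsqC]
    rw [this]
    exact pow_le_pow_left₀ hρ0 (hρN.trans hx') 2
  set T : Finset Bond := (Finset.range N).image (fun x : ℕ => ((((x : ℤ), (-1 : ℤ)), false) : Bond))
    with hT
  have hJ : ∀ x : ℤ, rotJ ψ ((x, -1), false) = ψ (x, 0) - ψ (x + 1, 0) := by
    intro x
    simp [rotJ]
  have s1 : ∑ e ∈ domBonds D ∅, rotJ ψ e * (2 * Real.pi * (ray e : ℝ)) =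
      ∑ e ∈ T, rotJ ψ e * (2 * Real.pi * (ray e : ℝ)) := by
    refine Finset.sum_congr_of_eq_on_inter ?_ ?_ (fun _ _ _ => rfl)
    · rintro ⟨⟨x, y⟩, bb⟩ _ heT
      by_cases hr : bb = false ∧ y = -1 ∧ 0 ≤ x
      · obtain ⟨rfl, rfl, hx⟩ := hr
        have hxN : (N : ℤ) ≤ x := by
          by_contra hlt
          rw [not_le] at hlt
          apply heT
          rw [hT, Finset.mem_image]
          refine ⟨x.toNat, Finset.mem_range.2 (by omega), ?_⟩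
          rw [Int.toNat_of_nonneg hx]
        rw [hJ, hhigh x hxN, hhigh (x + 1) (by omega)]
        simp
      · have : ray ((x, y), bb) = 0 := by
          simp only [ray]
          rw [if_neg hr]
        rw [this]
        simp
    · intro e _ he
      have : rotJ ψ e = 0 := by
        by_contra hne
        exact he (ea_mem_domBonds.2 (hD e hne))
      rw [this, zero_mul]
  rw [s1, hT, Finset.sum_image]
  · have e1 : ∀ x : ℕ, rotJ ψ (((x : ℤ), -1), false) * (2 * Real.pi * (ray (((x : ℤ), -1), false) : ℝ)) =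
        2 * Real.pi * ((fun n : ℕ => ψ ((n : ℤ), 0)) x - (fun n : ℕ => ψ ((n : ℤ), 0)) (x + 1)) := by
      intro x
      have hr : ray (((x : ℤ), -1), false) = 1 := by simp [ray]
      rw [hJ, hr]
      push_cast
      ring
    simp only [e1]
    rw [← Finset.mul_sum, Finset.sum_range_sub']
    have z0 : ψ (((0 : ℕ) : ℤ), 0) = Real.log ρ₁ := by
      apply ea_psi_low h1
      have : nsqC 0 (((0 : ℕ) : ℤ), 0) = 0 := by simp [nsqC]
      rw [this]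
      positivity
    rw [z0, hhigh (N : ℤ) le_rfl]
  · intro x _ y _ hxy
    have := congrArg (fun e : Bond => e.1.1) hxy
    simpa using this

theorem ea_clamp_lip (a b s t : ℝ) : |max a (min b s) - max a (min b t)| ≤ |s - t| := by
  have h1 := abs_max_sub_max_le_max a (min b s) a (min b t)
  have h2 := abs_min_sub_min_le_max b s b t
  simp only [sub_self, abs_zero] at h1 h2
  have h3 : max 0 |s - t| = |s - t| := max_eq_right (abs_nonneg _)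
  have h4 : max 0 |min b s - min b t| = |min b s - min b t| := max_eq_right (abs_nonneg _)
  rw [h4] at h1
  rw [h3] at h2
  exact h1.trans h2

theorem ea_abs_log_one_add {u q : ℝ} (hq : q < 1) (hu : |u| ≤ q) :
    |Real.log (1 + u)| ≤ |u| * (1 - q)⁻¹ := by
  have hq0 : 0 ≤ q := (abs_nonneg u).trans hu
  have h1q : 0 < 1 - q := by linarith
  obtain ⟨hu1, hu2⟩ := abs_le.1 hu
  have hpos : 0 < 1 + u := by linarith
  have hinv : 1 ≤ (1 - q)⁻¹ := (one_le_inv₀ h1q).2 (by linarith)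
  rw [abs_le]
  constructor
  · have h1 := Real.one_sub_inv_le_log_of_pos hpos
    refine le_trans ?_ h1
    have e : 1 - (1 + u)⁻¹ = u * (1 + u)⁻¹ := by
      field_simp
      ring
    rw [e]
    rcases le_total 0 u with h | h
    · have : 0 ≤ u * (1 + u)⁻¹ := by positivity
      have h2 : 0 ≤ |u| * (1 - q)⁻¹ := by positivity
      linarith
    · rw [abs_of_nonpos h]
      have h3 : (1 + u)⁻¹ ≤ (1 - q)⁻¹ := inv_anti₀ h1q (by linarith)
      nlinarith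
  · have h1 := Real.log_le_sub_one_of_pos hpos
    have h2 : u ≤ |u| := le_abs_self u
    have h3 : |u| ≤ |u| * (1 - q)⁻¹ := le_mul_of_one_le_right (abs_nonneg _) hinv
    linarith

theorem ea_log_incr {n t R : ℝ} (hR : 6 ≤ R) (hn : R ^ 2 ≤ n) (ht : |t| ≤ 3 * n / R) :
    |Real.log (n + t) - Real.log n| ≤ |t| / n * (1 - 3 / R)⁻¹ := by
  have hR0 : 0 < R := by linarith
  have hn0 : 0 < n := lt_of_lt_of_le (by positivity) hn
  have hq : 3 / R < 1 := by rw [div_lt_one hR0]; linarith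
  have hu : |t / n| ≤ 3 / R := by
    rw [abs_div, abs_of_pos hn0, div_le_iff₀ hn0]
    calc |t| ≤ 3 * n / R := ht
      _ = 3 / R * n := by ring
  have hpos : 0 < 1 + t / n := by
    have := (abs_le.1 hu).1
    linarith
  have e : n + t = n * (1 + t / n) := by
    field_simp
  rw [e, Real.log_mul hn0.ne' hpos.ne', add_sub_cancel_left]
  have := ea_abs_log_one_add hq hu
  rwa [abs_div, abs_of_pos hn0] at this

theorem ea_psi_incr_one (ρ₁ ρ₂ : ℝ) {R : ℝ} (hR : 6 ≤ R) {p p' : ℤ × ℤ} {a : ℝ}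
    (hp : R ^ 2 ≤ nsqC 0 p) (ha : a ^ 2 ≤ nsqC 0 p) (hp' : nsqC 0 p' = nsqC 0 p + (2 * a + 1)) :
    (psiF ρ₁ ρ₂ p' - psiF ρ₁ ρ₂ p) ^ 2 ≤
      (a + 1 / 2) ^ 2 / nsqC 0 p ^ 2 * ((1 - 3 / R)⁻¹) ^ 2 := by
  set n := nsqC 0 p with hn
  have hR0 : 0 < R := by linarith
  have hn0 : 0 < n := lt_of_lt_of_le (by positivity) hp
  set s := Real.sqrt n with hs
  have hss : s ^ 2 = n := Real.sq_sqrt hn0.le
  have hsR : R ≤ s := Real.le_sqrt_of_sq_le hp
  have has : |a| ≤ s := Real.abs_le_sqrt ha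
  have ht : |2 * a + 1| ≤ 3 * n / R := by
    have h1 : |2 * a + 1| ≤ 3 * s := by
      have := abs_le.1 has
      rw [abs_le]
      constructor <;> linarith [this.1, this.2]
    have h2 : s ≤ n / R := by
      rw [le_div_iff₀ hR0, ← hss]
      nlinarith
    calc |2 * a + 1| ≤ 3 * s := h1
      _ ≤ 3 * (n / R) := by linarith
      _ = 3 * n / R := by ring
  have h1 := ea_log_incr hR hp ht
  have h2 : |psiF ρ₁ ρ₂ p' - psiF ρ₁ ρ₂ p| ≤ |Real.log (nsqC 0 p') / 2 - Real.log n / 2| :=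
    ea_clamp_lip _ _ _ _
  rw [hp'] at h2
  have h3 : |Real.log (n + (2 * a + 1)) / 2 - Real.log n / 2| =
      |Real.log (n + (2 * a + 1)) - Real.log n| / 2 := by
    rw [← sub_div, abs_div]
    norm_num
  rw [h3] at h2
  have h4 : |psiF ρ₁ ρ₂ p' - psiF ρ₁ ρ₂ p| ≤ |a + 1 / 2| / n * (1 - 3 / R)⁻¹ := by
    have e : |2 * a + 1| = 2 * |a + 1 / 2| := by
      have : 2 * a + 1 = 2 * (a + 1 / 2) := by ring
      rw [this, abs_mul]
      norm_num
    rw [e] at h1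
    calc |psiF ρ₁ ρ₂ p' - psiF ρ₁ ρ₂ p| ≤ _ := h2
      _ ≤ 2 * |a + 1 / 2| / n * (1 - 3 / R)⁻¹ / 2 := by linarith
      _ = |a + 1 / 2| / n * (1 - 3 / R)⁻¹ := by ring
  have h5 := pow_le_pow_left₀ (abs_nonneg _) h4 2
  rw [sq_abs, mul_pow, div_pow, sq_abs] at h5
  exact h5

/-- ENANN-D3.  The clamp is `1`-Lipschitz (`abs_max_sub_max_le_abs`, `abs_min_sub_min_le_max`…): `|ψ p' - ψ p| ≤ |log (1+u)|/2`, `u = (2 p.1 + 1)/|p|²`, `|u| ≤ 3/|p| ≤ 3/R ≤ 1/2`; `|log (1+u)| ≤ |u|/(1-|u|)` (`Real.log_le_sub_one_of_pos`, `Real.one_sub_inv_le_log_of_pos`);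
`(p.1 + 1/2)² + (p.2 + 1/2)² ≤ (|p| + 1)²`, `(|p|+1)/|p| ≤ (R+1)/R`. -/
theorem ea_psi_incr (ρ₁ ρ₂ R : ℝ) (hR : 6 ≤ R) (p : ℤ × ℤ) (hp : R ^ 2 ≤ nsqC 0 p) :
    (psiF ρ₁ ρ₂ (p.1 + 1, p.2) - psiF ρ₁ ρ₂ p) ^ 2 + (psiF ρ₁ ρ₂ (p.1, p.2 + 1) - psiF ρ₁ ρ₂ p) ^ 2 ≤
      (((R + 1) / R) * (1 - 3 / R)⁻¹) ^ 2 * (nsqC 0 p)⁻¹ := by
  have hn : nsqC 0 p = (p.1 : ℝ) ^ 2 + (p.2 : ℝ) ^ 2 := by simp [nsqC]
  have h1 := ea_psi_incr_one ρ₁ ρ₂ hR (p := p) (p' := (p.1 + 1, p.2)) (a := (p.1 : ℝ)) hp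
    (by rw [hn]; nlinarith [sq_nonneg (p.2 : ℝ)])
    (by simp only [nsqC]; push_cast; ring)
  have h2 := ea_psi_incr_one ρ₁ ρ₂ hR (p := p) (p' := (p.1, p.2 + 1)) (a := (p.2 : ℝ)) hp
    (by rw [hn]; nlinarith [sq_nonneg (p.1 : ℝ)])
    (by simp only [nsqC]; push_cast; ring)
  set n := nsqC 0 p with hndef
  set a : ℝ := (p.1 : ℝ)
  set b : ℝ := (p.2 : ℝ)
  have hR0 : 0 < R := by linarith
  have hn0 : 0 < n := lt_of_lt_of_le (by positivity) hp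
  set s := Real.sqrt n with hs
  have hss : s ^ 2 = n := Real.sq_sqrt hn0.le
  have hsR : R ≤ s := Real.le_sqrt_of_sq_le hp
  have has : |a| ≤ s := Real.abs_le_sqrt (by rw [hn]; nlinarith [sq_nonneg b])
  have hbs : |b| ≤ s := Real.abs_le_sqrt (by rw [hn]; nlinarith [sq_nonneg a])
  have k1 : (a + 1 / 2) ^ 2 + (b + 1 / 2) ^ 2 ≤ (s + 1) ^ 2 := by
    have := (abs_le.1 has).2
    have := (abs_le.1 hbs).2
    nlinarith
  have k2 : (s + 1) ^ 2 ≤ ((R + 1) / R) ^ 2 * n := by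
    rw [← hss, ← mul_pow]
    refine pow_le_pow_left₀ (by linarith) ?_ 2
    have : (R + 1) / R * s = s + s / R := by
      field_simp
    rw [this]
    have : 1 ≤ s / R := (one_le_div hR0).2 hsR
    linarith
  set c := ((1 - 3 / R)⁻¹) ^ 2 with hc
  have hc0 : 0 ≤ c := by positivity
  calc _ ≤ (a + 1 / 2) ^ 2 / n ^ 2 * c + (b + 1 / 2) ^ 2 / n ^ 2 * c := add_le_add h1 h2
    _ = ((a + 1 / 2) ^ 2 + (b + 1 / 2) ^ 2) / n ^ 2 * c := by ring
    _ ≤ (((R + 1) / R) ^ 2 * n) / n ^ 2 * c := by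
        refine mul_le_mul_of_nonneg_right ?_ hc0
        exact div_le_div_of_nonneg_right (k1.trans k2) (by positivity)
    _ = (((R + 1) / R) * (1 - 3 / R)⁻¹) ^ 2 * n⁻¹ := by
        rw [hc, mul_pow]
        field_simp

theorem ea_norm_close1 {x y x' y' : ℝ} (h1 : (x - x') ^ 2 + (y - y') ^ 2 ≤ 1) :
    |Real.sqrt (x ^ 2 + y ^ 2) - Real.sqrt (x' ^ 2 + y' ^ 2)| ≤ 1 := by
  have h := abs_norm_sub_norm_le (⟨x, y⟩ : ℂ) (⟨x', y'⟩ : ℂ)
  rw [Complex.norm_eq_sqrt_sq_add_sq, Complex.norm_eq_sqrt_sq_add_sq,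
    Complex.norm_eq_sqrt_sq_add_sq] at h
  simp only [Complex.sub_re, Complex.sub_im] at h
  refine h.trans ?_
  rw [Real.sqrt_le_iff]
  exact ⟨zero_le_one, by linarith⟩

/-- a primal site with a non vanishing increment of `psiF` lies in the annulus. -/
theorem ea_supp_site {ρ₁ ρ₂ : ℝ} (h1 : 1 ≤ ρ₁) (h12 : ρ₁ ≤ ρ₂) {p p' : ℤ × ℤ}
    (hne : psiF ρ₁ ρ₂ p' ≠ psiF ρ₁ ρ₂ p)
    (hd : ((p.1 : ℝ) - p'.1) ^ 2 + ((p.2 : ℝ) - p'.2) ^ 2 ≤ 1) :
    (ρ₁ - 1) ^ 2 ≤ nsqC 0 p ∧ nsqC 0 p ≤ (ρ₂ + 1) ^ 2 := by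
  have e0 : ∀ q : ℤ × ℤ, nsqC 0 q = (q.1 : ℝ) ^ 2 + (q.2 : ℝ) ^ 2 := fun q => by simp [nsqC]
  have hc := abs_le.1 (ea_norm_close1 hd)
  have hsq : Real.sqrt ((p.1 : ℝ) ^ 2 + (p.2 : ℝ) ^ 2) ^ 2 = nsqC 0 p := by
    rw [e0, Real.sq_sqrt (by positivity)]
  constructor
  · by_cases hp : nsqC 0 p ≤ ρ₁ ^ 2
    · by_cases hp' : nsqC 0 p' ≤ ρ₁ ^ 2
      · exact absurd (by rw [ea_psi_low h1 hp, ea_psi_low h1 hp']) hne
      · rw [not_le, e0] at hp'
        have a1 : ρ₁ < Real.sqrt ((p'.1 : ℝ) ^ 2 + (p'.2 : ℝ) ^ 2) :=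
          (Real.lt_sqrt (by linarith)).2 hp'
        rw [← hsq]
        exact pow_le_pow_left₀ (by linarith) (by linarith [hc.1]) 2
    · rw [not_le] at hp
      nlinarith
  · by_cases hp : ρ₂ ^ 2 ≤ nsqC 0 p
    · by_cases hp' : ρ₂ ^ 2 ≤ nsqC 0 p'
      · exact absurd (by rw [ea_psi_high h1 h12 hp, ea_psi_high h1 h12 hp']) hne
      · rw [not_le, e0] at hp'
        have a1 : Real.sqrt ((p'.1 : ℝ) ^ 2 + (p'.2 : ℝ) ^ 2) < ρ₂ :=
          (Real.sqrt_lt' (by linarith)).2 hp'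
        rw [← hsq]
        exact pow_le_pow_left₀ (Real.sqrt_nonneg _) (by linarith [hc.2]) 2
    · rw [not_le] at hp
      nlinarith

/-- ENANN-D4.  `rotJ ψ (v,true) = ψ (p + e₂) - ψ p`, `p = (v.1 + 1, v.2)`;  `rotJ ψ (v,false) = -(ψ (p + e₁) - ψ p)`, `p = (v.1, v.2 + 1)`: injective reindexing of the bonds with `rotJ ≠ 0` by (primal site, direction).
If the increment does not vanish then `(ρ₁ - 1)² ≤ |p|² ≤ (ρ₂ + 1)²` (one of `p, p'` has modulus `> ρ₁`, one `< ρ₂`).  `F` := the finite set of these `p`; `ea_psi_incr` with `R = ρ₁ - 1`; `ea_lat_sum_le` with `c = 0`, `R₁ = ρ₁ - 1`, `R₂ = ρ₂ + 1`. -/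
theorem ea_flow_energy (ρ₁ ρ₂ : ℝ) (h1 : 7 ≤ ρ₁) (h12 : ρ₁ ≤ ρ₂) (D : Finset (ℤ × ℤ)) :
    ∑ e ∈ domBonds D ∅, rotJ (psiF ρ₁ ρ₂) e ^ 2 ≤
      ((ρ₁ / (ρ₁ - 1)) * (1 - 3 / (ρ₁ - 1))⁻¹) ^ 2 * (2 * Real.pi * (Real.log ((ρ₂ + 1) / (ρ₁ - 3)) + 1 / (ρ₁ - 3))) := by
  set ψ := psiF ρ₁ ρ₂ with hψ
  set g₁ : ℤ × ℤ → ℝ := fun p => (ψ (p.1 + 1, p.2) - ψ p) ^ 2 with hg₁
  set g₂ : ℤ × ℤ → ℝ := fun p => (ψ (p.1, p.2 + 1) - ψ p) ^ 2 with hg₂
  set s₁ : ℤ × ℤ → ℤ × ℤ := fun v => (v.1 + 1, v.2) with hs₁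
  set s₂ : ℤ × ℤ → ℤ × ℤ := fun v => (v.1, v.2 + 1) with hs₂
  have hs₁i : Function.Injective s₁ := by
    intro a b hab
    have e1 := congrArg Prod.fst hab
    have e2 := congrArg Prod.snd hab
    simp only [hs₁] at e1 e2
    exact Prod.ext (by omega) e2
  have hs₂i : Function.Injective s₂ := by
    intro a b hab
    have e1 := congrArg Prod.fst hab
    have e2 := congrArg Prod.snd hab
    simp only [hs₂] at e1 e2
    exact Prod.ext e1 (by omega)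
  set A : ℤ × ℤ → Prop := fun p => (ρ₁ - 1) ^ 2 ≤ nsqC 0 p ∧ nsqC 0 p ≤ (ρ₂ + 1) ^ 2 with hA
  set F : Finset (ℤ × ℤ) := (D.image s₁ ∪ D.image s₂).filter A with hF
  have hA₁ : ∀ p, g₁ p ≠ 0 → A p := by
    intro p hp
    refine ea_supp_site (by linarith) h12 (p' := (p.1 + 1, p.2)) ?_ ?_
    · intro h
      apply hp
      simp only [hg₁, hψ, h, sub_self]
      norm_num
    · push_cast
      nlinarith
  have hA₂ : ∀ p, g₂ p ≠ 0 → A p := by
    intro p hp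
    refine ea_supp_site (by linarith) h12 (p' := (p.1, p.2 + 1)) ?_ ?_
    · intro h
      apply hp
      simp only [hg₂, hψ, h, sub_self]
      norm_num
    · push_cast
      nlinarith
  have hg₁0 : ∀ p, 0 ≤ g₁ p := fun p => sq_nonneg _
  have hg₂0 : ∀ p, 0 ≤ g₂ p := fun p => sq_nonneg _
  have b₂ : ∑ v ∈ D, g₂ (s₁ v) ≤ ∑ p ∈ F, g₂ p := by
    rw [← Finset.sum_image (f := g₂) (fun a _ b _ h => hs₁i h),
      ← Finset.sum_filter_of_ne (p := A) (fun p _ hp => hA₂ p hp)]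
    refine Finset.sum_le_sum_of_subset_of_nonneg ?_ fun p _ _ => hg₂0 p
    exact Finset.filter_subset_filter _ Finset.subset_union_left
  have b₁ : ∑ v ∈ D, g₁ (s₂ v) ≤ ∑ p ∈ F, g₁ p := by
    rw [← Finset.sum_image (f := g₁) (fun a _ b _ h => hs₂i h),
      ← Finset.sum_filter_of_ne (p := A) (fun p _ hp => hA₁ p hp)]
    refine Finset.sum_le_sum_of_subset_of_nonneg ?_ fun p _ _ => hg₁0 p
    exact Finset.filter_subset_filter _ Finset.subset_union_right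
  have hFA : ∀ p ∈ F, (ρ₁ - 1) ^ 2 ≤ nsqC 0 p ∧ nsqC 0 p ≤ (ρ₂ + 1) ^ 2 := fun p hp =>
    (Finset.mem_filter.1 hp).2
  have hlat := ea_lat_sum_le 0 F (ρ₁ - 1) (ρ₂ + 1) (by linarith) (by linarith) hFA
  have e3 : ρ₁ - 1 - 2 = ρ₁ - 3 := by ring
  have e4 : ρ₁ - 1 + 1 = ρ₁ := by ring
  rw [e3] at hlat
  calc ∑ e ∈ domBonds D ∅, rotJ ψ e ^ 2
      ≤ ∑ e ∈ D ×ˢ (Finset.univ : Finset Bool), rotJ ψ e ^ 2 :=
        Finset.sum_le_sum_of_subset_of_nonneg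
          (fun e he => Finset.mem_product.2 ⟨domBonds_fst he, Finset.mem_univ _⟩)
          fun e _ _ => sq_nonneg _
    _ = ∑ v ∈ D, (g₂ (s₁ v) + g₁ (s₂ v)) := by
        rw [Finset.sum_product]
        refine Finset.sum_congr rfl fun v _ => ?_
        simp only [Fintype.sum_bool, rotJ, if_true, Bool.false_eq_true, if_false, hg₁, hg₂, hs₁,
          hs₂]
        ring
    _ = ∑ v ∈ D, g₂ (s₁ v) + ∑ v ∈ D, g₁ (s₂ v) := Finset.sum_add_distrib
    _ ≤ ∑ p ∈ F, g₂ p + ∑ p ∈ F, g₁ p := add_le_add b₂ b₁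
    _ = ∑ p ∈ F, (g₁ p + g₂ p) := by rw [Finset.sum_add_distrib, add_comm]
    _ ≤ ∑ p ∈ F, ((ρ₁ / (ρ₁ - 1)) * (1 - 3 / (ρ₁ - 1))⁻¹) ^ 2 * (nsqC 0 p)⁻¹ :=
        Finset.sum_le_sum fun p hp => by
          have := ea_psi_incr ρ₁ ρ₂ (ρ₁ - 1) (by linarith) p (hFA p hp).1
          rw [e4] at this
          exact this
    _ = ((ρ₁ / (ρ₁ - 1)) * (1 - 3 / (ρ₁ - 1))⁻¹) ^ 2 * ∑ p ∈ F, (nsqC 0 p)⁻¹ := by
        rw [Finset.mul_sum]
    _ ≤ _ := mul_le_mul_of_nonneg_left hlat (by positivity)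

/-- ENANN-D5.  `Men_dual` with `J = rotJ (psiF ρ₁ ρ₂)`, `P = ∅`: `ea_rot_orth`, `ea_flow_flux`, `ea_flow_energy`, `Men_nonneg`. -/
theorem ea_lower (ρ₁ ρ₂ : ℝ) (h1 : 7 ≤ ρ₁) (h12 : ρ₁ ≤ ρ₂) (D : Finset (ℤ × ℤ))
    (hD : ∀ e : Bond, rotJ (psiF ρ₁ ρ₂) e ≠ 0 → e.1 ∈ D ∧ e.snd ∈ D) :
    (2 * Real.pi * (Real.log ρ₂ - Real.log ρ₁)) ^ 2 ≤ Men D ∅ ∅ ray *
      (((ρ₁ / (ρ₁ - 1)) * (1 - 3 / (ρ₁ - 1))⁻¹) ^ 2 * (2 * Real.pi * (Real.log ((ρ₂ + 1) / (ρ₁ - 3)) + 1 / (ρ₁ - 3)))) := by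
  have h := Men_dual D ∅ ∅ ray (rotJ (psiF ρ₁ ρ₂)) (fun v _ => ea_rot_orth _ D hD v)
  rw [ea_flow_flux ρ₁ ρ₂ (by linarith) h12 D hD] at h
  have e : (2 * Real.pi * (Real.log ρ₂ - Real.log ρ₁)) ^ 2 =
      (2 * Real.pi * (Real.log ρ₁ - Real.log ρ₂)) ^ 2 := by ring
  rw [e]
  exact h.trans (mul_le_mul_of_nonneg_left (ea_flow_energy ρ₁ ρ₂ h1 h12 D) (Men_nonneg _ _ _ _))

end

end Claimed.Agent.R285.S46
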