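import Claimed.Agent.R285.S46.GPinA
import Claimed.Agent.R285.Pot.LinTr

/-!
# ROW 285, S46 post POT-S46-GPIN: the GAUSSIAN pin interaction across a long annulus, uniformly in the mesh ([S]s4.2, discrete form).   Deterministic, paper-free.   CUT by helper145 (`GPinA.lean` = sections KIT, CORE, GEO; this file = section LIN + the assembly, PROVED).
`𝒯(u) = a⁻¹ ∑_e (∇_e u)² + γ (avg_{box} u)²` on the lattice annulus, `p` = guard (contains the box), `A` = one of the ends.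
 (1) `gPin a ∅ A p ≤ ½ E[plGap p A φ]` (Jensen, POT-LIN), the data `φ` on the GUARD: `f = harm_p φ` is discrete harmonic between the guard and the wall, with free wall: NO FLUX, no observation off `p`.
 (2) `plGap ≤ 𝒯(g)` for every competitor `g = f` on `A`, `g = 0` on `p`;  Courant-Fischer (POT-LIN): `E[gap] ≤ ∑_j μ_j` if `𝒯(g) ≤ μ_j 𝒯(f)` on subspaces of codimension `j`.      [section LIN]
 (3) `J ≈ l` dyadic square shells between `A` and `p`.  Energy identity `E(η f) = ∑_e f f (∇η)²`, Poincare on shells: hole filling, bounded means, multi-scale cutoff: `μ_j = C₁/J` for all `j`.   [`GPinA`, section CORE]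
 (4) cell sums on two shells: `μ_j = C₂/j²` for `j ≥ 8`.   `∑_j min (C₁/J, C₂/j²) ≤ j₀ C₁/J + C₂/(j₀-1)`.
 All constants independent of the mesh `s` and of `l`; they depend on `a`, `γ` only.
-/

set_option autoImplicit false

namespace Claimed.Agent.R285.S46

open Filter Topology MeasureTheory
open scoped Classical
open Claimed.Agent.R285.Pot

noncomputable section

/-!
# ROW 285, S46 post POT-S46-GPIN, file 2/2, section LIN: from the determinants to competitors (architect helper145).   Paper-free.   Uses the POT-LIN interface of helper83 (`Pot/Lin*.lean`).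

* `gp_gPin_le` (any graph, any law, no own pins): if for every `j` there are `j` linear functionals such that every field `f` which is form-harmonic off `p` and killed by them has a competitor `g`
  (`g = 0` on `p`, `g = f` on `A`) with `form g ≤ μ j · form f`, then `gPin a ∅ A p ≤ ½ sup_n ∑_{j<n} μ j`.
  [`pl_gPin_le_jensen`, `pl_gap_le`, `pl_quad_mean_le_of_codim`.]
* `gp_bridge`: the same on `domG D ∅` in the global notation of `GPinKit`.
-/


/-! ## Leaf GP-L1.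
`P = ∅`, `∅ ∪ p = p` (`Set.empty_union`).   `pl_gPin_le_jensen H ha h A p`: `gPin ≤ ½ ∫ plGap H a p A φ`.
`plGap H a p A u = form a (L u)`, `L u = plHarm (p ∪ A) (plRes p u) - plHarm p u` (`pl_gap_eq`), linear in `u` and depending only on `u|_p` (explicit formula of `plHarm`, or `pl_harm_add/smul/congr`), so with `K = G.E ⊕ H.O`,
`g (inl e) x = √a⁻¹ · plGrad (L δ_x) e`, `g (inr o) x = obs (L δ_x) o`:  `plGap u = ∑_k ⟨g k, u⟩²`, `g k = 0` off `p`.
Functionals for `pl_quad_mean_le_of_codim`: `ℓ' i x = ⟨ℓ i, plHarm p δ_x⟩`, so `⟨ℓ' i, u⟩ = ⟨ℓ i, plHarm p u⟩`.   For `u` in the kernel: `f = plHarm p u` satisfies `pl_harm_orth`; `pl_gap_le` with the competitor; `plEn = form f`. -/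
/-- transpose of a linear map, on row vectors -/
theorem gp_pair_transpose {G : HGraph} (L : (G.V → ℝ) →ₗ[ℝ] (G.V → ℝ)) (r u : G.V → ℝ) :
    HLaw.pair (fun x => HLaw.pair r (L fun j => if x = j then 1 else 0)) u = HLaw.pair r (L u) := by
  conv_rhs => rw [LinearMap.pi_apply_eq_sum_univ L u]
  simp only [HLaw.pair, Finset.sum_apply, Pi.smul_apply, smul_eq_mul, Finset.mul_sum, Finset.sum_mul]
  rw [Finset.sum_comm]
  refine Finset.sum_congr rfl fun y _ => Finset.sum_congr rfl fun x _ => by ring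

/-- the harmonic extension as a linear map -/
def gpHm {G : HGraph} (H : HLaw G) {a : ℝ} (ha : 0 < a) {P : Set G.V} (h : plPD H P) : (G.V → ℝ) →ₗ[ℝ] (G.V → ℝ) where
  toFun := plHarm H a P
  map_add' := pl_harm_add H ha h
  map_smul' := pl_harm_smul H ha h

/-- restriction as a linear map -/
def gpRs {G : HGraph} (P : Set G.V) : (G.V → ℝ) →ₗ[ℝ] (G.V → ℝ) where
  toFun := plRes P
  map_add' u v := by funext x; by_cases hx : x ∈ P <;> simp [plRes, hx]
  map_smul' t u := by funext x; by_cases hx : x ∈ P <;> simp [plRes, hx]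

/-- the form as a sum of squares of row vectors -/
def gpRow {G : HGraph} (H : HLaw G) (a : ℝ) : G.E ⊕ H.O → G.V → ℝ
  | Sum.inl e => fun x => Real.sqrt a⁻¹ * ((if G.tgt e = x then 1 else 0) - (if G.src e = x then 1 else 0))
  | Sum.inr o => H.B o

theorem gp_lin_eqns_cite : True := by
  have := @gpHm.eq_1; have := @gpRs.eq_1; have := @gpRow.eq_1; have := @gpRow.eq_2
  trivial

theorem gp_form_rows {G : HGraph} (H : HLaw G) {a : ℝ} (ha : 0 < a) (v : G.V → ℝ) :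
    H.form a v = ∑ k, HLaw.pair (gpRow H a k) v ^ 2 := by
  rw [pl_form_expand, Fintype.sum_sum_type, Finset.mul_sum]
  congr 1
  refine Finset.sum_congr rfl fun e _ => ?_
  have h1 : HLaw.pair (gpRow H a (Sum.inl e)) v = Real.sqrt a⁻¹ * plGrad v e := by
    simp only [HLaw.pair, gpRow, plGrad]
    have : ∀ x, Real.sqrt a⁻¹ * ((if G.tgt e = x then 1 else 0) - (if G.src e = x then 1 else 0)) * v x
        = Real.sqrt a⁻¹ * ((if G.tgt e = x then v x else 0) - (if G.src e = x then v x else 0)) := by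
      intro x; split_ifs <;> ring
    simp only [this]
    rw [← Finset.mul_sum, Finset.sum_sub_distrib]
    simp
  rw [h1, mul_pow, Real.sq_sqrt (by positivity)]

theorem gp_gPin_le {G : HGraph} (H : HLaw G) {a : ℝ} (ha : 0 < a) (h : plPD H ∅) (A p : Set G.V) (hd : ∀ x ∈ A, x ∉ p)
    (μ : ℕ → ℝ) (Sg : ℝ) (hS : ∀ n, ∑ j ∈ Finset.range n, μ j ≤ Sg)
    (hμ : ∀ j, ∃ ℓ : Fin j → G.V → ℝ, ∀ f : G.V → ℝ,
      (∀ w : G.V → ℝ, (∀ x ∈ p, w x = 0) → plB H a f w = 0) → (∀ i, HLaw.pair (ℓ i) f = 0) →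
      ∃ g : G.V → ℝ, (∀ x ∈ p, g x = 0) ∧ (∀ x ∈ A, g x = f x) ∧ H.form a g ≤ μ j * H.form a f) :
    H.gPin a ∅ A p ≤ Sg / 2 := by
  have hp : plPD H p := pl_PD_mono H h (Set.empty_subset p)
  have hpA : plPD H (p ∪ A) := pl_PD_mono H h (Set.empty_subset _)
  have hJ := pl_gPin_le_jensen H ha h A p (fun x hx => absurd hx.2 (hd x hx.1))
  rw [Set.empty_union] at hJ
  set L : (G.V → ℝ) →ₗ[ℝ] (G.V → ℝ) := (gpHm H ha hpA).comp (gpRs p) - gpHm H ha hp with hL
  have hLu : ∀ u, L u = plHarm H a (p ∪ A) (plRes p u) - plHarm H a p u := fun u => rfl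
  set g : G.E ⊕ H.O → G.V → ℝ := fun k x => HLaw.pair (gpRow H a k) (L fun j => if x = j then 1 else 0) with hg
  have hgap : ∀ u, plGap H a p A u = ∑ k, HLaw.pair (g k) u ^ 2 := by
    intro u
    rw [pl_gap_eq H ha hp A u, ← hLu, gp_form_rows H ha]
    exact Finset.sum_congr rfl fun k _ => by rw [hg, gp_pair_transpose]
  have hg0 : ∀ k, ∀ x ∉ p, g k x = 0 := by
    intro k x hx
    have h1 : plRes p (fun j => if x = j then (1 : ℝ) else 0) = 0 := by
      funext y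
      by_cases hy : y ∈ p
      · have : x ≠ y := fun e => hx (e ▸ hy)
        simp [plRes, hy, this]
      · simp [plRes, hy]
    have h2 : plHarm H a p (fun j => if x = j then (1 : ℝ) else 0) = 0 := by
      rw [← pl_harm_zero H ha hp]
      refine pl_harm_congr H ha hp fun y hy => ?_
      have : x ≠ y := fun e => hx (e ▸ hy)
      simp [this]
    simp only [hg]
    rw [hLu, h1, h2, pl_harm_zero H ha hpA, sub_zero, pl_pair_zero_right]
  have hmean := pl_quad_mean_le_of_codim H ha h p (fun x _ => Set.notMem_empty x) g hg0 μ (by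
    intro j _
    obtain ⟨ℓ, hℓ⟩ := hμ j
    refine ⟨fun i x => HLaw.pair (ℓ i) (gpHm H ha hp fun j => if x = j then 1 else 0), ?_⟩
    intro u _ hker
    rw [Set.empty_union, ← hgap]
    obtain ⟨g₀, h0, hA, hle⟩ := hℓ (plHarm H a p u) (fun w hw => pl_harm_orth H ha hp u hw) (fun i => by
      have := hker i
      rw [gp_pair_transpose] at this
      exact this)
    exact (pl_gap_le H ha hp A u h0 fun x hx _ => hA x hx).trans hle)
  have hint : (fun φ => plGap H a p A φ) = fun φ => ∑ k, HLaw.pair (g k) φ ^ 2 := funext hgap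
  rw [hint] at hJ
  have := hS (Fintype.card {x : G.V // x ∈ p})
  linarith

/-! ## Leaf GP-L2: sums over `domG D ∅` in global notation -/

/-- extension by zero -/
def gpExt {D : Finset (ℤ × ℤ)} {cut : Set Bond} (f : (domG D cut).V → ℝ) : ℤ × ℤ → ℝ := fun x => if h : x ∈ D then f ⟨x, h⟩ else 0

theorem gpExt_eqns_cite : True := by
  have := @gpExt.eq_1
  trivial

theorem gp_domFn_ext {D : Finset (ℤ × ℤ)} {cut : Set Bond} (f : (domG D cut).V → ℝ) : domFn (gpExt f) = f := by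
  funext x
  have hx : domPos x ∈ D := Subtype.property (p := fun v => v ∈ D) x
  unfold domFn gpExt
  rw [dif_pos hx]
  rfl

theorem gp_sum_V {D : Finset (ℤ × ℤ)} {cut : Set Bond} (g : ℤ × ℤ → ℝ) : ∑ x : (domG D cut).V, g (domPos x) = ∑ x ∈ D, g x :=
  (Finset.sum_subtype D (fun _ => Iff.rfl) g).symm

theorem gp_sum_E {D : Finset (ℤ × ℤ)} {cut : Set Bond} (g : Bond → ℝ) : ∑ e : (domG D cut).E, g (domBond e) = ∑ e ∈ domBonds D cut, g e :=
  (Finset.sum_subtype (domBonds D cut) (fun _ => Iff.rfl) g).symm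

theorem gp_grad_domFn {D : Finset (ℤ × ℤ)} {cut : Set Bond} (F : ℤ × ℤ → ℝ) (e : (domG D cut).E) :
    plGrad (domFn F) e = F (domBond e).snd - F (domBond e).1 := rfl

theorem gp_form_domFn {D : Finset (ℤ × ℤ)} (H : HLaw (domG D ∅)) (a γ : ℝ) (box : Finset (ℤ × ℤ))
    (hobs : ∀ F : ℤ × ℤ → ℝ, ∑ o, H.obs (domFn F) o ^ 2 = γ * gpAvg box F ^ 2) (F : ℤ × ℤ → ℝ) :
    H.form a (domFn F) = gpT a γ D box F := by
  unfold HLaw.form gpT gpE
  rw [hobs F, ← gp_sum_E (D := D) (cut := ∅) fun e => (F e.snd - F e.1) ^ 2]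
  congr 2
  unfold HLaw.en
  refine Finset.sum_congr rfl fun e _ => ?_
  rw [Pi.zero_apply, add_zero]
  rfl

/-- real locally constant functions are constant on a connected set (apply `OneComp` to `h x = if v x = v x₀ then 1 else 0`) -/
theorem gp_const_of_oneComp {D : Finset (ℤ × ℤ)} (hc : OneComp D ∅ ↑D) (v : ℤ × ℤ → ℝ) (hv : ∀ e ∈ domBonds D ∅, v e.snd = v e.1) :
    ∀ x ∈ D, ∀ y ∈ D, v x = v y := by
  intro x hx y hy
  have h := hc (fun z => if v z = v x then 1 else 0) (fun e he => by simp only [hv e he]) x (Finset.mem_coe.2 hx) y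
    (Finset.mem_coe.2 hy)
  simp only [if_true] at h
  by_contra hne
  rw [if_neg (fun h' => hne h'.symm)] at h
  exact one_ne_zero h

theorem gp_PD {D : Finset (ℤ × ℤ)} (H : HLaw (domG D ∅)) {γ : ℝ} (hγ : 0 < γ) (box : Finset (ℤ × ℤ)) (hbD : box ⊆ D) (hne : box.Nonempty)
    (hc : OneComp D ∅ ↑D) (hobs : ∀ F : ℤ × ℤ → ℝ, ∑ o, H.obs (domFn F) o ^ 2 = γ * gpAvg box F ^ 2) : plPD H ∅ := by
  intro v _ hgr hob
  have hv : domFn (gpExt v) = v := gp_domFn_ext v
  have hloc : ∀ e ∈ domBonds D ∅, gpExt v e.snd = gpExt v e.1 := by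
    intro e he
    have h1 := hgr ⟨e, he⟩
    rw [← hv] at h1
    exact sub_eq_zero.1 ((gp_grad_domFn (D := D) (cut := ∅) (gpExt v) ⟨e, he⟩).symm.trans h1)
  have hconst := gp_const_of_oneComp hc (gpExt v) hloc
  obtain ⟨x₀, hx₀⟩ := hne
  have havg : gpAvg box (gpExt v) = gpExt v x₀ := by
    unfold gpAvg
    rw [Finset.sum_congr rfl fun x hx => hconst x (hbD hx) x₀ (hbD hx₀), Finset.sum_const, nsmul_eq_mul]
    have hc0 : (box.card : ℝ) ≠ 0 := by
      have : 0 < box.card := Finset.card_pos.2 ⟨x₀, hx₀⟩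
      exact_mod_cast this.ne'
    field_simp
  have h2 := hobs (gpExt v)
  rw [hv, Finset.sum_eq_zero (fun o _ => by rw [hob o]; ring), havg] at h2
  have h3 : gpExt v x₀ = 0 := by
    have := (mul_eq_zero.1 h2.symm).resolve_left hγ.ne'
    exact pow_eq_zero_iff (two_ne_zero) |>.1 this
  rw [← hv]
  funext x
  show gpExt v (domPos x) = 0
  exact (hconst (domPos x) (Subtype.property (p := fun v => v ∈ D) x) x₀ (hbD hx₀)).trans h3

/-! ## Leaf GP-L3: the bridge.   `subst hcut`; `gp_gPin_le` with `ℓ i := domFn (ℓ i)`, `F := gpExt f`, `g := domFn g`.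
`gpHarm D p F`: for `W = 0` on `p`: `obs (domFn W) = 0` (from `hobs`: `∑_o obs² = γ (avg_box W)² = 0`), so `0 = plB H a f (domFn W) = a⁻¹ gpB D F W`. -/
theorem gp_bridge (D : Finset (ℤ × ℤ)) (cut : Set Bond) (hcut : cut = ∅) (H : HLaw (domG D cut)) {a γ : ℝ} (ha : 0 < a) (hγ : 0 < γ)
    (A p box : Finset (ℤ × ℤ)) (hbox : box ⊆ p) (hpD : p ⊆ D) (hne : box.Nonempty) (hAp : Disjoint A p) (hconn : OneComp D ∅ ↑D)
    (hobs : ∀ F : ℤ × ℤ → ℝ, ∑ o, H.obs (domFn F) o ^ 2 = γ * gpAvg box F ^ 2)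
    (μ : ℕ → ℝ) (Sg : ℝ) (hS : ∀ n, ∑ j ∈ Finset.range n, μ j ≤ Sg)
    (hμ : ∀ j, ∃ ℓ : Fin j → ℤ × ℤ → ℝ, ∀ F : ℤ × ℤ → ℝ, gpHarm D p F → (∀ i, ∑ x ∈ D, ℓ i x * F x = 0) →
      ∃ g : ℤ × ℤ → ℝ, (∀ x ∈ p, g x = 0) ∧ (∀ x ∈ A, g x = F x) ∧ a⁻¹ * gpE D g ≤ μ j * gpT a γ D box F) :
    H.gPin a ∅ (domSet (↑A : Set (ℤ × ℤ))) (domSet (↑p : Set (ℤ × ℤ))) ≤ Sg / 2 := by
  subst hcut
  have hPD := gp_PD H hγ box (hbox.trans hpD) hne hconn hobs
  refine gp_gPin_le H ha hPD (domSet (↑A : Set (ℤ × ℤ))) (domSet (↑p : Set (ℤ × ℤ))) ?_ μ Sg hS ?_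
  · intro x hxA hxp
    exact Finset.disjoint_left.1 hAp (Finset.mem_coe.1 hxA) (Finset.mem_coe.1 hxp)
  · intro j
    obtain ⟨ℓ, hℓ⟩ := hμ j
    refine ⟨fun i => domFn (ℓ i), fun f hf hker => ?_⟩
    have hfF : domFn (gpExt f) = f := gp_domFn_ext f
    have havg0 : ∀ W : ℤ × ℤ → ℝ, (∀ x ∈ p, W x = 0) → gpAvg box W = 0 := by
      intro W hW
      rw [gpAvg, Finset.sum_eq_zero fun x hx => hW x (hbox hx), zero_div]
    have hharm : gpHarm D p (gpExt f) := by
      intro W hW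
      have h1 := hf (domFn W) (fun x hx => hW _ (Finset.mem_coe.1 hx))
      have hobs0 : ∀ o, H.obs (domFn W) o = 0 := by
        have h2 := hobs W
        rw [havg0 W hW] at h2
        have h3 := (Finset.sum_eq_zero_iff_of_nonneg fun o _ => sq_nonneg (H.obs (domFn W) o)).1 (by rw [h2]; ring)
        intro o
        exact pow_eq_zero_iff (two_ne_zero) |>.1 (h3 o (Finset.mem_univ o))
      rw [plB, Finset.sum_eq_zero (s := Finset.univ) (f := fun o => H.obs f o * H.obs (domFn W) o) fun o _ => by rw [hobs0 o, mul_zero],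
        add_zero] at h1
      have h4 : ∑ e, plGrad f e * plGrad (domFn W) e = 0 := by
        rcases mul_eq_zero.1 h1 with h5 | h5
        · exact absurd h5 (by positivity)
        · exact h5
      rw [gpB, ← gp_sum_E (D := D) (cut := ∅) fun e => (gpExt f e.snd - gpExt f e.1) * (W e.snd - W e.1), ← h4]
      refine Finset.sum_congr rfl fun e _ => ?_
      rw [← gp_grad_domFn, ← gp_grad_domFn, hfF]
    obtain ⟨g, hg0, hgA, hle⟩ := hℓ (gpExt f) hharm (fun i => by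
      have h1 := hker i
      rw [← gp_sum_V (D := D) (cut := ∅) fun x => ℓ i x * gpExt f x, ← h1, HLaw.pair]
      refine Finset.sum_congr rfl fun x _ => ?_
      have : gpExt f (domPos x) = f x := congrFun hfF x
      rw [this]; rfl)
    refine ⟨domFn g, fun x hx => hg0 _ (Finset.mem_coe.1 hx), fun x hx => ?_, ?_⟩
    · have h1 : gpExt f (domPos x) = f x := congrFun hfF x
      rw [← h1]
      exact hgA _ (Finset.mem_coe.1 hx)
    · rw [gp_form_domFn H a γ box hobs g, ← hfF, gp_form_domFn H a γ box hobs (gpExt f)]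
      rw [gpT, havg0 g hg0]
      simpa using hle


/-! # Assembly (PROVED) -/

/-- `∑_j min`-type bound -/
theorem gp_sum_mu {c C₂ : ℝ} (h1 : 0 ≤ c) (h2 : 0 ≤ C₂) (j₀ : ℕ) (hj₀ : 2 ≤ j₀) (n : ℕ) :
    ∑ j ∈ Finset.range n, (if j < j₀ then c else C₂ / (j : ℝ) ^ 2) ≤ j₀ * c + C₂ / ((j₀ : ℝ) - 1) := by
  have hsplit : ∀ j ∈ Finset.range n, (if j < j₀ then c else C₂ / (j : ℝ) ^ 2)
      = (if j < j₀ then c else 0) + (if j₀ ≤ j then C₂ * ((j : ℝ) ^ 2)⁻¹ else 0) := by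
    intro j _
    by_cases hj : j < j₀
    · simp [hj, not_le.2 hj]
    · simp [hj, not_lt.1 hj, div_eq_mul_inv]
  rw [Finset.sum_congr rfl hsplit, Finset.sum_add_distrib]
  have hA : ∑ j ∈ Finset.range n, (if j < j₀ then c else 0) ≤ j₀ * c := by
    rw [← Finset.sum_filter]
    calc ∑ j ∈ (Finset.range n).filter (fun j => j < j₀), c ≤ ∑ j ∈ Finset.range j₀, c :=
          Finset.sum_le_sum_of_subset_of_nonneg (fun j hj => Finset.mem_range.2 (Finset.mem_filter.1 hj).2) fun _ _ _ => h1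
      _ = j₀ * c := by simp
  have hB : ∑ j ∈ Finset.range n, (if j₀ ≤ j then C₂ * ((j : ℝ) ^ 2)⁻¹ else 0) ≤ C₂ / ((j₀ : ℝ) - 1) := by
    rw [← Finset.sum_filter]
    have hsub : (Finset.range n).filter (fun j => j₀ ≤ j) ⊆ Finset.Ioc (j₀ - 1) (n + j₀) := fun j hj => by
      have := Finset.mem_filter.1 hj
      have h3 := Finset.mem_range.1 this.1
      exact Finset.mem_Ioc.2 ⟨by omega, by omega⟩
    have h4 := sum_Ioc_inv_sq_le_sub (α := ℝ) (k := j₀ - 1) (n := n + j₀) (by omega) (by omega)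
    have h5 : ((j₀ - 1 : ℕ) : ℝ) = (j₀ : ℝ) - 1 := by rw [Nat.cast_sub (by omega)]; simp
    calc _ ≤ ∑ j ∈ Finset.Ioc (j₀ - 1) (n + j₀), C₂ * ((j : ℝ) ^ 2)⁻¹ :=
          Finset.sum_le_sum_of_subset_of_nonneg hsub fun _ _ _ => by positivity
      _ = C₂ * ∑ j ∈ Finset.Ioc (j₀ - 1) (n + j₀), ((j : ℝ) ^ 2)⁻¹ := by rw [Finset.mul_sum]
      _ ≤ C₂ * (((j₀ - 1 : ℕ) : ℝ)⁻¹ - ((n + j₀ : ℕ) : ℝ)⁻¹) := mul_le_mul_of_nonneg_left h4 h2
      _ ≤ C₂ * ((j₀ : ℝ) - 1)⁻¹ := by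
          rw [h5]
          refine mul_le_mul_of_nonneg_left ?_ h2
          have : (0 : ℝ) ≤ ((n + j₀ : ℕ) : ℝ)⁻¹ := by positivity
          linarith
      _ = _ := by rw [div_eq_mul_inv]
  linarith

/-- **a long chain of shells makes the Gaussian pin interaction small** -/
theorem gp_of_chain {a γ δ : ℝ} (ha : 0 < a) (hγ : 0 < γ) (hδ : 0 < δ) :
    ∃ J0 : ℕ, ∀ (D p A box : Finset (ℤ × ℤ)) (J : ℕ) (n : ℕ → ℕ) (S : ℕ → Finset (ℤ × ℤ)) (η : ℕ → ℤ × ℤ → ℝ),
      GpChain D p A box J n S η → J0 ≤ J → OneComp D ∅ ↑D → ∀ (cut : Set Bond), cut = ∅ → ∀ H : HLaw (domG D cut),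
      (∀ F : ℤ × ℤ → ℝ, ∑ o, H.obs (domFn F) o ^ 2 = γ * gpAvg box F ^ 2) →
      H.gPin a ∅ (domSet (↑A : Set (ℤ × ℤ))) (domSet (↑p : Set (ℤ × ℤ))) ≤ δ := by
  obtain ⟨C₁, C₂, hC₁, hC₂, hmain⟩ := gp_chain_main ha hγ
  set j₀ : ℕ := ⌈C₂ / δ⌉₊ + 8 with hj₀
  refine ⟨⌈(j₀ : ℝ) * C₁ / δ⌉₊ + 2, ?_⟩
  intro D p A box J n S η h hJ hconn cut hcut H hobs
  obtain ⟨hE0, hEj⟩ := hmain D p A box J n S η h (by omega)
  have hJ' : (0 : ℝ) < J := by exact_mod_cast (by omega : 0 < J)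
  have hne : box.Nonempty := by
    rw [← Finset.card_pos]
    have h1 := h.box_card
    have h2 := h.n_pos (j := J) le_rfl
    have : (0 : ℝ) < (box.card : ℝ) := lt_of_lt_of_le (by positivity) h1
    exact_mod_cast this
  have hAp : Disjoint A p := Finset.disjoint_left.2 fun x hxA hxp => h.not_mem_S (Nat.zero_le J) hxp (h.A_sub hxA)
  have hfin := gp_bridge D cut hcut H ha hγ A p box h.box_sub h.p_D hne hAp hconn hobs
    (fun j => if j < j₀ then C₁ / (J : ℝ) else C₂ / (j : ℝ) ^ 2) (2 * δ) ?_ ?_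
  · linarith
  · intro m
    refine (gp_sum_mu (by positivity) hC₂ j₀ (by omega) m).trans ?_
    have h1 : (j₀ : ℝ) * (C₁ / (J : ℝ)) ≤ δ := by
      have h2 : (j₀ : ℝ) * C₁ / δ ≤ J := (Nat.le_ceil _).trans (by exact_mod_cast (by omega : ⌈(j₀ : ℝ) * C₁ / δ⌉₊ ≤ J))
      rw [div_le_iff₀ hδ] at h2
      rw [← mul_div_assoc, div_le_iff₀ hJ']
      linarith
    have h3 : C₂ / ((j₀ : ℝ) - 1) ≤ δ := by
      have h4 : C₂ / δ ≤ (j₀ : ℝ) - 1 := by
        have : C₂ / δ ≤ (⌈C₂ / δ⌉₊ : ℝ) := Nat.le_ceil _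
        rw [hj₀]; push_cast; linarith
      have h5 : (0 : ℝ) < (j₀ : ℝ) - 1 := by rw [hj₀]; push_cast; have : (0 : ℝ) ≤ (⌈C₂ / δ⌉₊ : ℝ) := by positivity
                                             linarith
      rw [div_le_iff₀ hδ] at h4
      rw [div_le_iff₀ h5]
      linarith
    linarith
  · intro j
    by_cases hj : j < j₀
    · refine ⟨fun _ _ => 0, fun F hF _ => ?_⟩
      simp only [hj, if_true]
      exact hE0 F hF
    · simp only [hj, if_false]
      exact hEj j (by omega)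

/-- the statement on `domG (ann M l s) ∅` -/
theorem gp_ann (a : ℝ) (ha : 0 < a) (M : ℕ) (hM : 4 ≤ M) (γ : ℝ) (hγ : 0 < γ) (δ : ℝ) (hδ : 0 < δ) :
    ∃ l0, ∀ l ≥ l0, ∀ s ≥ 1, ∀ (D : Finset (ℤ × ℤ)) (cut : Set Bond), D = ann M l s → cut = ∅ → ∀ H : HLaw (domG D cut),
      (∀ F : ℤ × ℤ → ℝ, ∑ o, H.obs (domFn F) o ^ 2 = γ * gpAvg (obox M l s) F ^ 2) →
      H.gPin a ∅ (domSet (↑(endIn M l s) : Set (ℤ × ℤ))) (domSet (↑(guard M l s) : Set (ℤ × ℤ))) ≤ δ ∧
      H.gPin a ∅ (domSet (↑(endOut M l s) : Set (ℤ × ℤ))) (domSet (↑(guard M l s) : Set (ℤ × ℤ))) ≤ δ := by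
  obtain ⟨J0, hJ0⟩ := gp_of_chain ha hγ hδ
  refine ⟨J0 + 4, ?_⟩
  intro l hl s hs D cut hD hcut H hobs
  subst hD
  have hconn := ann_oneComp M l s hM (by omega) hs
  exact ⟨hJ0 _ _ _ _ _ _ _ _ (gp_chain_in M l s hM (by omega) hs) (by omega) hconn cut hcut H hobs,
    hJ0 _ _ _ _ _ _ _ _ (gp_chain_out M l s hM (by omega) hs) (by omega) hconn cut hcut H hobs⟩

theorem gpin_annulus (a : ℝ) (ha : 0 < a) (M : ℕ) (hM : 4 ≤ M) (γ : ℝ) (hγ : 0 < γ) (δ : ℝ) (hδ : 0 < δ) :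
    ∃ l0, ∀ l ≥ l0, ∃ s0, ∀ s ≥ s0,
      ((annGeom M l γ).law (cgrid (M * 4 ^ l) s)).gPin a ((annGeom M l γ).sites (cgrid (M * 4 ^ l) s) (annGeom M l γ).pin)
          ((annGeom M l γ).sites (cgrid (M * 4 ^ l) s) (cellsOf (M * 4 ^ l) (endIn M l 1)))
          ((annGeom M l γ).sites (cgrid (M * 4 ^ l) s) (cellsOf (M * 4 ^ l) (guard M l 1))) ≤ δ ∧
      ((annGeom M l γ).law (cgrid (M * 4 ^ l) s)).gPin a ((annGeom M l γ).sites (cgrid (M * 4 ^ l) s) (annGeom M l γ).pin)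
          ((annGeom M l γ).sites (cgrid (M * 4 ^ l) s) (cellsOf (M * 4 ^ l) (endOut M l 1)))
          ((annGeom M l γ).sites (cgrid (M * 4 ^ l) s) (cellsOf (M * 4 ^ l) (guard M l 1))) ≤ δ := by
  obtain ⟨l0, hl0⟩ := gp_ann a ha M hM γ hγ δ hδ
  refine ⟨l0 + 4, fun l hl => ⟨1, fun s hs => ?_⟩⟩
  have hmain := hl0 l (by omega) s hs _ _ (annGeom_region M l s γ hs) (annGeom_cutB M l s γ) ((annGeom M l γ).law (cgrid (M * 4 ^ l) s))
    (gp_law_obs M l s γ hγ hM (by omega) hs)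
  obtain ⟨r1, r2, r3⟩ := annGeom_region_of M l s (by omega) hs
  have hpin : (annGeom M l γ).sites (cgrid (M * 4 ^ l) s) (annGeom M l γ).pin = ∅ := by
    ext x
    simp [CGeom.sites, domSet, annGeom, DGrid.region]
    exact Iff.rfl
  rw [hpin]
  simp only [CGeom.sites, r1, r2, r3]
  exact hmain

end

end Claimed.Agent.R285.S46
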