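import Claimed.Agent.R285.S46.ZD
import Claimed.Agent.R285.S46.Geom
import Claimed.Agent.R285.S46.GPin
import Claimed.Agent.R285.Sec.Imp
import Claimed.Agent.R285.Sec.PinKit

/-!
# ROW 285, layer S46: [S]P4.1 (separated flat pins).
MERGED FILE (file budget of 15:22Z): sections = the former files `Theta`, `FlatAbs`, `GPin`, `Flat` of `R285/S46/`; every section keeps its header (leaf name, plan).
STATUS 17:50Z: NOTHING OPEN in this file.  `flat_interaction` is proved from `theta_flat`, `gp_ann`, `flat_le_abs_gen` and the import `Sec.imp_pin` (= `C3.pin_interaction` + `Sec.scen_fixed`).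
-/

set_option autoImplicit false

namespace Claimed.Agent.R285.S46

open Filter Topology
open scoped Classical

/-!
# ROW 285, S46 leaf L-S46-THETA: the periodised Gaussian is nearly constant for small `γ` ([S]s4.3, Poisson summation step).   Paper-free, one real variable.
Route A (Mathlib): `Real.tsum_exp_neg_mul_int_sq` / `jacobiTheta₂_functional_equation`: `√(2πγ) w_γ(t) = 1 + 2 ∑_{j ≥ 1} e^{-j²/(2γ)} cos (j t)`, so `|√(2πγ) w_γ(t) - 1| ≤ δ_γ = 2 ∑_{j≥1} e^{-j²/2γ} ≤ 2 e^{-1/2γ}/(1 - e^{-1/2γ})`.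
Route B (elementary): `f(x) = e^{-γ x²/2}` is unimodal with maximum `1`: `|2π ∑_k f(t + 2πk) - ∫ f| ≤ 4π`, `∫ f = √(2π/γ) → ∞`.
-/

open Complex in
/-- Gaussians are summable over `ℤ` -/
theorem theta_gauss_summable (A B : ℝ) (hA : 0 < A) :
    Summable fun k : ℤ => Real.exp (-A * (k : ℝ) ^ 2 + B * (k : ℝ)) := by
  have h := ((summable_jacobiTheta₂_term_iff (((-(B / (2 * Real.pi)) : ℝ) : ℂ) * I)
    (((A / Real.pi : ℝ) : ℂ) * I)).2 (by
      simp only [mul_im, ofReal_re, I_im, mul_one, ofReal_im, I_re, mul_zero, add_zero]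
      exact div_pos hA Real.pi_pos)).norm
  refine h.congr fun k => ?_
  rw [norm_jacobiTheta₂_term]
  congr 1
  simp only [mul_im, ofReal_re, I_im, mul_one, ofReal_im, I_re, mul_zero, add_zero]
  field_simp
  ring

theorem thetaW_summable (γ : ℝ) (hγ : 0 < γ) (t : ℝ) : Summable fun k : ℤ => Real.exp (-γ * (t + 2 * Real.pi * (k : ℝ)) ^ 2 / 2) := by
  have h := (theta_gauss_summable (2 * Real.pi ^ 2 * γ) (-(2 * Real.pi * γ * t))
    (by positivity)).mul_left (Real.exp (-γ * t ^ 2 / 2))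
  refine h.congr fun k => ?_
  rw [← Real.exp_add]
  congr 1
  ring

open Complex in
/-- Poisson summation: `w_γ(t) = ‖R‖ ‖L(t)‖`, `‖L(t) - 1‖ ≤ e^{-π(a-1)} S`, `γ = 1/(2π a)`. -/
theorem theta_poisson (a : ℝ) (ha : 1 ≤ a) : ∃ R : ℝ, ∀ t : ℝ, ∃ L : ℂ,
    thetaW (1 / (2 * Real.pi * a)) t = R * ‖L‖ ∧
      ‖L - 1‖ ≤ Real.exp (-(Real.pi * (a - 1))) * ∑' n : ℤ, Real.exp (-Real.pi * (n : ℝ) ^ 2 + 0 * (n : ℝ)) := by
  have ha0 : 0 < a := by linarith
  have hpi := Real.pi_pos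
  refine ⟨‖((a : ℂ)) ^ (1 / 2 : ℂ)‖, fun t => ?_⟩
  set b : ℂ := -I * t / (2 * Real.pi) with hb
  set u : ℤ → ℂ := fun n => cexp (-Real.pi * a * n ^ 2 + 2 * Real.pi * b * n) with hu
  have hP := Complex.tsum_exp_neg_quadratic (a := (a : ℂ)) (by simpa using ha0) b
  have hR0 : ((a : ℂ)) ^ (1 / 2 : ℂ) ≠ 0 := by
    rw [Ne, Complex.cpow_eq_zero_iff]
    simp [ha0.ne']
  -- the right-hand side is `thetaW`
  have hterm : ∀ n : ℤ, cexp (-Real.pi / a * (n + I * b) ^ 2)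
      = ((Real.exp (-(1 / (2 * Real.pi * a)) * (t + 2 * Real.pi * (n : ℝ)) ^ 2 / 2) : ℝ) : ℂ) := by
    intro n
    have hIb : I * b = t / (2 * Real.pi) := by
      rw [hb]
      have : I * (-I * t / (2 * Real.pi)) = -(I * I) * t / (2 * Real.pi) := by ring
      rw [this, I_mul_I]
      ring
    rw [hIb, ofReal_exp]
    congr 1
    push_cast
    have h1 : (Real.pi : ℂ) ≠ 0 := by exact_mod_cast hpi.ne'
    have h2 : (a : ℂ) ≠ 0 := by exact_mod_cast ha0.ne'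
    field_simp
    ring
  have hΘ : ∑' n : ℤ, cexp (-Real.pi / a * (n + I * b) ^ 2) = ((thetaW (1 / (2 * Real.pi * a)) t : ℝ) : ℂ) := by
    simp only [hterm]
    rw [thetaW, ofReal_tsum]
  rw [hΘ] at hP
  have hθ0 : 0 ≤ thetaW (1 / (2 * Real.pi * a)) t := tsum_nonneg fun _ => (Real.exp_pos _).le
  refine ⟨∑' n : ℤ, u n, ?_, ?_⟩
  · rw [hP, norm_mul, norm_div, norm_one, Complex.norm_real, Real.norm_of_nonneg hθ0]
    have : ‖((a : ℂ)) ^ (1 / 2 : ℂ)‖ ≠ 0 := norm_ne_zero_iff.2 hR0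
    field_simp
  · -- the terms
    have hnorm : ∀ n : ℤ, ‖u n‖ = Real.exp (-(Real.pi * a) * (n : ℝ) ^ 2 + 0 * (n : ℝ)) := by
      intro n
      have e : (-Real.pi * a * n ^ 2 + 2 * Real.pi * b * n : ℂ)
          = ((-(Real.pi * a) * (n : ℝ) ^ 2 + 0 * (n : ℝ) : ℝ) : ℂ) + ((-(t * n) : ℝ) : ℂ) * I := by
        rw [hb]
        push_cast
        have h1 : (Real.pi : ℂ) ≠ 0 := by exact_mod_cast hpi.ne'
        field_simp
        ring
      rw [hu]
      simp only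
      rw [e, Complex.exp_add, norm_mul, Complex.norm_exp_ofReal_mul_I, mul_one, ← ofReal_exp,
        Complex.norm_real, Real.norm_of_nonneg (Real.exp_pos _).le]
    have hsn : Summable fun n : ℤ => ‖u n‖ := by
      simp only [hnorm]
      exact theta_gauss_summable _ 0 (by positivity)
    have hs : Summable u := hsn.of_norm
    have hu0 : u 0 = 1 := by simp [hu]
    rw [hs.tsum_eq_add_tsum_ite 0, hu0, add_sub_cancel_left]
    have hS1 := theta_gauss_summable Real.pi 0 hpi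
    have hle : ∀ n : ℤ, ‖(if n = 0 then (0 : ℂ) else u n)‖
        ≤ Real.exp (-(Real.pi * (a - 1))) * Real.exp (-Real.pi * (n : ℝ) ^ 2 + 0 * (n : ℝ)) := by
      intro n
      by_cases hn : n = 0
      · simp only [hn, if_true, norm_zero]
        positivity
      · simp only [hn, if_false]
        rw [hnorm, ← Real.exp_add]
        apply Real.exp_le_exp.2
        have h1 : (1 : ℝ) ≤ (n : ℝ) ^ 2 := by
          have : (1 : ℤ) ≤ n ^ 2 := by
            have := sq_nonneg n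
            have h0 : n ^ 2 ≠ 0 := pow_ne_zero 2 hn
            omega
          exact_mod_cast this
        nlinarith [mul_nonneg hpi.le (sub_nonneg.2 ha)]
    have hsum2 : Summable fun n : ℤ => ‖(if n = 0 then (0 : ℂ) else u n)‖ :=
      Summable.of_nonneg_of_le (fun _ => norm_nonneg _) hle (hS1.mul_left _)
    calc ‖∑' n : ℤ, (if n = 0 then (0 : ℂ) else u n)‖
        ≤ ∑' n : ℤ, ‖(if n = 0 then (0 : ℂ) else u n)‖ := norm_tsum_le_tsum_norm hsum2
      _ ≤ ∑' n : ℤ, Real.exp (-(Real.pi * (a - 1))) * Real.exp (-Real.pi * (n : ℝ) ^ 2 + 0 * (n : ℝ)) :=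
          hsum2.tsum_le_tsum hle (hS1.mul_left _)
      _ = _ := tsum_mul_left

/-- for small `γ` the periodised Gaussian is constant up to the factor `e^η` -/
theorem theta_flat (η : ℝ) (hη : 0 < η) : ∃ γ : ℝ, 0 < γ ∧ ∃ c₁ c₂ : ℝ, 0 < c₁ ∧ (∀ t, c₁ ≤ thetaW γ t ∧ thetaW γ t ≤ c₂) ∧ Real.log (c₂ / c₁) ≤ η := by
  have hpi := Real.pi_pos
  set S : ℝ := ∑' n : ℤ, Real.exp (-Real.pi * (n : ℝ) ^ 2 + 0 * (n : ℝ)) with hS
  have hS1 := theta_gauss_summable Real.pi 0 hpi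
  have hSpos : 0 < S := hS1.tsum_pos (fun _ => (Real.exp_pos _).le) 0 (Real.exp_pos _)
  set δ₀ : ℝ := min (1 / 2) (η / 4) with hδ₀
  have hδ₀pos : 0 < δ₀ := lt_min (by norm_num) (by linarith)
  set x : ℝ := S / δ₀ with hx
  have hxpos : 0 < x := div_pos hSpos hδ₀pos
  set a : ℝ := 1 + x / Real.pi with ha
  have ha1 : 1 ≤ a := by
    have : 0 ≤ x / Real.pi := by positivity
    linarith
  have hax : Real.pi * (a - 1) = x := by
    rw [ha]; field_simp; ring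
  set δ : ℝ := Real.exp (-(Real.pi * (a - 1))) * S with hδ
  have hδpos : 0 < δ := mul_pos (Real.exp_pos _) hSpos
  have hδle : δ ≤ δ₀ := by
    rw [hδ, hax, Real.exp_neg]
    have h1 : x ≤ Real.exp x := by linarith [Real.add_one_le_exp x]
    have h2 : (Real.exp x)⁻¹ ≤ x⁻¹ := inv_anti₀ hxpos h1
    calc (Real.exp x)⁻¹ * S ≤ x⁻¹ * S := by gcongr
      _ = δ₀ := by rw [hx]; field_simp
  have hδhalf : δ ≤ 1 / 2 := hδle.trans (min_le_left _ _)
  have hδη : δ ≤ η / 4 := hδle.trans (min_le_right _ _)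
  obtain ⟨R, hR⟩ := theta_poisson a ha1
  have ha0 : 0 < a := by linarith
  -- `R > 0`
  have hRpos : 0 < R := by
    obtain ⟨L, h1, h2⟩ := hR 0
    have hθ : 0 < thetaW (1 / (2 * Real.pi * a)) 0 :=
      (thetaW_summable _ (by positivity) 0).tsum_pos (fun _ => (Real.exp_pos _).le) 0 (Real.exp_pos _)
    rw [h1] at hθ
    by_contra hneg
    push Not at hneg
    have := mul_nonpos_of_nonpos_of_nonneg hneg (norm_nonneg L)
    linarith
  refine ⟨1 / (2 * Real.pi * a), by positivity, R * (1 - δ), R * (1 + δ), by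
    apply mul_pos hRpos; linarith, fun t => ?_, ?_⟩
  · obtain ⟨L, h1, h2⟩ := hR t
    have h3 : ‖L - 1‖ ≤ δ := h2
    have h4 : 1 - δ ≤ ‖L‖ := by
      have := norm_sub_norm_le (1 : ℂ) L
      rw [norm_one, norm_sub_rev] at this
      linarith
    have h5 : ‖L‖ ≤ 1 + δ := by
      have := norm_sub_norm_le L (1 : ℂ)
      rw [norm_one] at this
      linarith
    rw [h1]
    exact ⟨mul_le_mul_of_nonneg_left h4 hRpos.le, mul_le_mul_of_nonneg_left h5 hRpos.le⟩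
  · have h1 : R * (1 + δ) / (R * (1 - δ)) = (1 + δ) / (1 - δ) := by
      have : (1 - δ) ≠ 0 := by linarith
      field_simp
    rw [h1]
    have h2 : 0 < (1 + δ) / (1 - δ) := div_pos (by linarith) (by linarith)
    refine (Real.log_le_sub_one_of_pos h2).trans ?_
    rw [div_sub_one (by linarith), div_le_iff₀ (by linarith)]
    nlinarith

/-!
# ROW 285, S46 leaf L-S46-FLATABS: from flat pins in the free law to absolute pins in a confined law ([S]s4.3, last three paragraphs).   From `lsys_event_mono` + a fibre sum.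
`G = Γ.graph g` connected, `Hc = Γ.law g` (no pin, ONE box average with weight `γ`), `Zc Λ' := ∑_{h ∈ Λ'} W(∇h) exp(-γ (avg 2πh)²/2)` for `Λ' ≤ ℤ^V`.
1. FIBRES.  If `Λ'` contains the constants (`Λ' = flatL G ∅ 𝓕`): `Zc Λ' = ∑_{z ∈ ∇Λ'} W(z) w_γ(t(z))` (`h ↦ (∇h, h(v₀))` is a bijection `Λ' ≃ ∇Λ' × ℤ`; `avg (h + k) = avg h + k` because the row sums to one),
   so `c₁ ZD(𝓕) ≤ Zc (flatL 𝓕) ≤ c₂ ZD(𝓕)` for the four families `∅, {H}, {p}, {H,p}`.  Hence `Dbar ≤ Dbar_γ + 2 log (c₂/c₁)`.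
2. NESTED CONSTRAINTS in the proper system `S = Hc.sys b`: `P(M₂ | M₁) ≤ P(M₂ | M₁')` for `M₁' ≤ M₁` (`lsys_event_mono` for `Ref (S.sub M₁) (S.sub M₁')`).  Twice: `D([H],[p]) ≤ D({h_H = 0},[p]) ≤ D({h_H = 0},{h_p = 0}) = dPin`.
   (`HLaw.Z_eq_w` + `Proper` translate sums over heights into `LSys.w`.)
-/

-- PROVED (helper173): `flat_le_abs_gen` (any law on `domG D ∅` confined by one box average; replaces the former `flat_le_abs`, which nobody cited), `flat_le_abs_tr` (transportable form).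

noncomputable section

/-- the law `H` with another constraint lattice -/
def lawOn {G : HGraph} (H : HLaw G) (Λ' : AddSubgroup (G.V → ℤ)) : HLaw G := @HLaw.mk G Λ' H.O H.fO H.B

/-- the centred lattice sum of `H` on the lattice `Λ'` -/
def wOn {G : HGraph} (H : HLaw G) (b : ℝ) (Λ' : AddSubgroup (G.V → ℤ)) : ℝ := ((lawOn H Λ').sys b).w 0

/-- the image lattice of `Λ'` -/
def imL {G : HGraph} (H : HLaw G) (b : ℝ) (Λ' : AddSubgroup (G.V → ℤ)) : AddSubgroup (H.sys b).Amb := Λ'.map (H.coordA b)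

/-- the centred sum over a lattice in the ambient group of `H.sys b` -/
def wL {G : HGraph} (H : HLaw G) (b : ℝ) (L : AddSubgroup (H.sys b).Amb) : ℝ := (Sec.secWithL (H.sys b) L).w 0

theorem wOn_eq {G : HGraph} (H : HLaw G) (b : ℝ) (Λ' : AddSubgroup (G.V → ℤ)) : wOn H b Λ' = wL H b (imL H b Λ') := rfl

theorem coordA_injective {G : HGraph} (H : HLaw G) (b : ℝ) (hΛ : ∀ h, h ∈ H.Λ) (hP : H.Proper) : Function.Injective (H.coordA b) := by
  intro h h' e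
  have : h - h' = 0 := hP _ (hΛ _) (by
    have e2 : H.coordA b (h - h') = 0 := by rw [map_sub]; exact sub_eq_zero.2 e
    exact e2)
  exact sub_eq_zero.1 this

theorem imL_inf {G : HGraph} (H : HLaw G) (b : ℝ) (hΛ : ∀ h, h ∈ H.Λ) (hP : H.Proper) (Λ₁ Λ₂ : AddSubgroup (G.V → ℤ)) :
    imL H b (Λ₁ ⊓ Λ₂) = imL H b Λ₁ ⊓ imL H b Λ₂ := AddSubgroup.map_inf _ _ _ (coordA_injective H b hΛ hP)

theorem imL_le {G : HGraph} (H : HLaw G) (b : ℝ) (hΛ : ∀ h, h ∈ H.Λ) (Λ' : AddSubgroup (G.V → ℤ)) : imL H b Λ' ≤ (H.sys b).L :=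
  AddSubgroup.map_mono fun h _ => hΛ h

theorem lawOn_ok {G : HGraph} (H : HLaw G) (b : ℝ) (hΛ : ∀ h, h ∈ H.Λ) (hok : (H.sys b).Ok) (Λ' : AddSubgroup (G.V → ℤ)) : ((lawOn H Λ').sys b).Ok := by
  have e : (lawOn H Λ').sys b = (H.sys b).sub (imL H b Λ') := by
    rw [Sec.sec_sub_eq, inf_eq_right.2 (imL_le H b hΛ Λ')]
    rfl
  rw [e]
  exact lsys_ok_sub _ hok _

theorem wOn_pos {G : HGraph} (H : HLaw G) (b : ℝ) (hΛ : ∀ h, h ∈ H.Λ) (hok : (H.sys b).Ok) (Λ' : AddSubgroup (G.V → ℤ)) : 0 < wOn H b Λ' :=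
  Sec.sec_w_pos _ (lawOn_ok H b hΛ hok Λ') _

/-- nested constraints: `P(Λ₂ | Λ₁) ≤ P(Λ₂ | Λ₁')` for `Λ₁' ≤ Λ₁` -/
theorem wOn_nested {G : HGraph} (H : HLaw G) (b : ℝ) (hΛ : ∀ h, h ∈ H.Λ) (hP : H.Proper) (hok : (H.sys b).Ok)
    (Λ₁ Λ₁' Λ₂ : AddSubgroup (G.V → ℤ)) (hle : Λ₁' ≤ Λ₁) :
    wOn H b (Λ₁ ⊓ Λ₂) * wOn H b Λ₁' ≤ wOn H b (Λ₁' ⊓ Λ₂) * wOn H b Λ₁ := by
  set S₁ := (lawOn H Λ₁).sys b with hS₁
  have ok1 : S₁.Ok := lawOn_ok H b hΛ hok Λ₁
  let M' : AddSubgroup S₁.Amb := imL H b Λ₁'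
  let M₂ : AddSubgroup S₁.Amb := imL H b Λ₂
  have ev := lsys_event_mono (Rsd.subRef S₁ M') ok1 (lsys_ok_sub S₁ ok1 M') M₂
  have w1 : (S₁.sub M₂).w 0 = wOn H b (Λ₁ ⊓ Λ₂) := by
    rw [wOn_eq, imL_inf H b hΛ hP]
    rfl
  have w2 : (S₁.sub M').w 0 = wOn H b Λ₁' := by
    have : wOn H b Λ₁' = wOn H b (Λ₁ ⊓ Λ₁') := by rw [inf_eq_right.2 hle]
    rw [this, wOn_eq, imL_inf H b hΛ hP]
    rfl
  have w3 : ((S₁.sub M').sub (M₂.comap (Rsd.subRef S₁ M').res)).w 0 = wOn H b (Λ₁' ⊓ Λ₂) := by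
    have : wOn H b (Λ₁' ⊓ Λ₂) = wOn H b ((Λ₁ ⊓ Λ₁') ⊓ Λ₂) := by rw [inf_eq_right.2 hle]
    rw [this, wOn_eq, imL_inf H b hΛ hP, imL_inf H b hΛ hP]
    rfl
  have w0 : S₁.w 0 = wOn H b Λ₁ := rfl
  rw [w0, w1, w2, w3, div_le_div_iff₀ (wOn_pos H b hΛ hok _) (wOn_pos H b hΛ hok _)] at ev
  exact ev


/-- on a connected domain a height without gradient is constant -/
theorem const_of_grad_zero {D : Finset (ℤ × ℤ)} (hc : OneComp D ∅ ↑D) (h : (domG D ∅).V → ℤ)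
    (h0 : ∀ e : (domG D ∅).E, h ((domG D ∅).tgt e) - h ((domG D ∅).src e) = 0) (x y : (domG D ∅).V) : h x = h y := by
  have h3 := hc (fun v => if hv : v ∈ D then h (show (domG D ∅).V from ⟨v, hv⟩) else 0) (fun e he => by
    have h4 := h0 (show (domG D ∅).E from ⟨e, he⟩)
    simp only [dif_pos (domBonds_snd he), dif_pos (domBonds_fst he)]
    exact sub_eq_zero.1 h4) x.1 x.2 y.1 y.2
  simp only [dif_pos x.2, dif_pos y.2] at h3
  exact h3

/-- the weight of a height in the confined law -/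
theorem W_coordA {D : Finset (ℤ × ℤ)} (H : HLaw (domG D ∅)) (b γ : ℝ) (box : Finset (ℤ × ℤ))
    (hobs : ∀ F : ℤ × ℤ → ℝ, ∑ o, H.obs (domFn F) o ^ 2 = γ * gpAvg box F ^ 2) (h : (domG D ∅).V → ℤ) :
    (H.sys b).W (H.coordA b h) = (∏ e : (domG D ∅).E, bes b (h ((domG D ∅).tgt e) - h ((domG D ∅).src e))) *
      Real.exp (-γ * (gpAvg box (gpExt fun v => 2 * Real.pi * (h v : ℝ))) ^ 2 / 2) := by
  have h1 := hobs (gpExt fun v => 2 * Real.pi * (h v : ℝ))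
  rw [gp_domFn_ext] at h1
  unfold LSys.W
  congr 1
  congr 1
  have h2 : (∑ o : (H.sys b).O, ((H.coordA b h).2 o) ^ 2) = ∑ o, H.obs (fun v => 2 * Real.pi * (h v : ℝ)) o ^ 2 := rfl
  rw [h2, h1]
  ring

theorem gpAvg_add_const {D : Finset (ℤ × ℤ)} (box : Finset (ℤ × ℤ)) (hbD : box ⊆ D) (hne : box.Nonempty) (h h' : (domG D ∅).V → ℤ) (k : ℤ)
    (hh : ∀ v, h' v = h v + k) :
    gpAvg box (gpExt fun v => 2 * Real.pi * (h' v : ℝ)) = gpAvg box (gpExt fun v => 2 * Real.pi * (h v : ℝ)) + 2 * Real.pi * (k : ℝ) := by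
  have hc0 : (box.card : ℝ) ≠ 0 := by
    have := Finset.card_pos.2 hne
    positivity
  unfold gpAvg
  rw [div_add' _ _ _ hc0]
  congr 1
  have : ∑ x ∈ box, (gpExt (D := D) (cut := ∅) (fun v => 2 * Real.pi * (h v : ℝ)) x + 2 * Real.pi * (k : ℝ))
      = ∑ x ∈ box, gpExt (D := D) (cut := ∅) (fun v => 2 * Real.pi * (h v : ℝ)) x + 2 * Real.pi * (k : ℝ) * (box.card : ℝ) := by
    rw [Finset.sum_add_distrib, Finset.sum_const, nsmul_eq_mul]; ring
  rw [← this]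
  refine Finset.sum_congr rfl fun x hx => ?_
  unfold gpExt
  rw [dif_pos (hbD hx), dif_pos (hbD hx)]
  show 2 * Real.pi * ((h' (show (domG D ∅).V from ⟨x, hbD hx⟩) : ℤ) : ℝ) = 2 * Real.pi * ((h (show (domG D ∅).V from ⟨x, hbD hx⟩) : ℤ) : ℝ) + 2 * Real.pi * (k : ℝ)
  rw [hh]
  push_cast
  ring


/-- the Bessel weight of a height -/
def besP {D : Finset (ℤ × ℤ)} (b : ℝ) (h : (domG D ∅).V → ℤ) : ℝ := ∏ e : (domG D ∅).E, bes b (h ((domG D ∅).tgt e) - h ((domG D ∅).src e))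

theorem besP_pos {D : Finset (ℤ × ℤ)} (b : ℝ) (hb : 0 < b) (h : (domG D ∅).V → ℤ) : 0 < besP b h :=
  Finset.prod_pos fun _ _ => bes_pos b hb _

/-- FIBRES: the confined sum over a lattice containing the constants is the image sum, up to the periodised Gaussian -/
theorem wOn_fibre (b : ℝ) (hb : 0 < b) (D : Finset (ℤ × ℤ)) (H : HLaw (domG D ∅)) (hΛ : ∀ h, h ∈ H.Λ) (hP : H.Proper) (γ : ℝ) (hγ : 0 < γ)
    (box : Finset (ℤ × ℤ)) (hbD : box ⊆ D) (hne : box.Nonempty) (hc : OneComp D ∅ ↑D)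
    (hobs : ∀ F : ℤ × ℤ → ℝ, ∑ o, H.obs (domFn F) o ^ 2 = γ * gpAvg box F ^ 2) (𝓕 : Set (Set (ℤ × ℤ)))
    (c₁ c₂ : ℝ) (hc₁ : 0 < c₁) (hθ : ∀ t, c₁ ≤ thetaW γ t ∧ thetaW γ t ≤ c₂) :
    c₁ * ZD b D ∅ ∅ 𝓕 0 0 ≤ wOn H b (dlaw D ∅ ∅ 𝓕).Λ ∧ wOn H b (dlaw D ∅ ∅ 𝓕).Λ ≤ c₂ * ZD b D ∅ ∅ 𝓕 0 0 := by
  set Λ := (dlaw D ∅ ∅ 𝓕).Λ with hΛdef
  set S₀ := (dlaw D ∅ ∅ 𝓕).sys b with hS₀
  -- (1) the confined sum in height variables
  have hP' : (lawOn H Λ).Proper := fun h _ h0 => hP h (hΛ h) h0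
  have e1 : wOn H b Λ = ∑' h : Λ, (H.sys b).W (H.coordA b (h : (domG D ∅).V → ℤ)) := by
    have h1 := Sec.sec_Z_zero (lawOn H Λ) hP' b
    unfold wOn
    rw [← h1]
    unfold HLaw.Z
    refine tsum_congr fun h => ?_
    rw [Sec.sec_amb_zero, add_zero, one_mul]
    rfl
  -- (2) a section of the gradient
  have hex : ∀ z : S₀.L, ∃ h : (domG D ∅).V → ℤ, h ∈ Λ ∧ (dlaw D ∅ ∅ 𝓕).coord h = (z : S₀.Amb) := fun z => AddSubgroup.mem_map.1 z.2
  choose sec hsecm hsec using hex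
  have e2 : ZD b D ∅ ∅ 𝓕 0 0 = ∑' z : S₀.L, besP b (sec z) := by
    rw [ZD_zero]
    unfold LSys.w LSys.Zf
    refine tsum_congr fun z => ?_
    rw [one_mul, add_zero, ← hsec z]
    unfold LSys.W
    have e0 : (∑ o : S₀.O, (((dlaw D ∅ ∅ 𝓕).coord (sec z)).2 o) ^ 2) = 0 := Finset.sum_eq_zero fun o _ => o.elim
    rw [e0]
    simp only [neg_zero, zero_div, Real.exp_zero, mul_one]
    rfl
  have hsum0 : Summable fun z : S₀.L => besP b (sec z) := by
    have h1 := lsys_summable S₀ (dlaw_ok b hb D ∅ ∅ 𝓕) 0 0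
    refine h1.congr fun z => ?_
    rw [AddMonoidHom.zero_apply, Real.exp_zero, one_mul, add_zero, ← hsec z]
    unfold LSys.W
    have e0 : (∑ o : S₀.O, (((dlaw D ∅ ∅ 𝓕).coord (sec z)).2 o) ^ 2) = 0 := Finset.sum_eq_zero fun o _ => o.elim
    rw [e0]
    simp only [neg_zero, zero_div, Real.exp_zero, mul_one]
    rfl
  -- (3) the bijection `(z, k) ↦ sec z + k`
  obtain ⟨x0, hx0⟩ := id hne
  let v0 : (domG D ∅).V := ⟨x0, hbD hx0⟩
  have hconst : ∀ k : ℤ, (fun _ : (domG D ∅).V => k) ∈ Λ := fun k =>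
    ⟨fun v hv => absurd hv (by simp [domSet]), fun _ _ _ _ _ _ => rfl⟩
  have hcc : ∀ (h : (domG D ∅).V → ℤ) (k : ℤ), (dlaw D ∅ ∅ 𝓕).coord (h + fun _ => k) = (dlaw D ∅ ∅ 𝓕).coord h := by
    intro h k
    apply Prod.ext
    · funext e
      show (h _ + k) - (h _ + k) = h _ - h _
      ring
    · funext o
      exact o.elim
  let Φ : S₀.L × ℤ → Λ := fun p => ⟨sec p.1 + fun _ => p.2, Λ.add_mem (hsecm p.1) (hconst p.2)⟩
  have hΦ : Function.Bijective Φ := by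
    constructor
    · rintro ⟨z, k⟩ ⟨z', k'⟩ e
      have e1 : sec z + (fun _ => k) = sec z' + fun _ => k' := congrArg Subtype.val e
      have e2 : z = z' := by
        apply Subtype.ext
        rw [← hsec z, ← hsec z', ← hcc (sec z) k, ← hcc (sec z') k', e1]
      subst e2
      have e3 := congrFun e1 v0
      simp only [Pi.add_apply, add_right_inj] at e3
      rw [e3]
    · rintro ⟨h, hh⟩
      let z : S₀.L := ⟨(dlaw D ∅ ∅ 𝓕).coord h, AddSubgroup.mem_map.2 ⟨h, hh, rfl⟩⟩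
      refine ⟨(z, h v0 - sec z v0), Subtype.ext ?_⟩
      funext v
      have h0 : ∀ e : (domG D ∅).E, (h - sec z) ((domG D ∅).tgt e) - (h - sec z) ((domG D ∅).src e) = 0 := by
        intro e
        have e4 : (dlaw D ∅ ∅ 𝓕).coord (sec z) = (dlaw D ∅ ∅ 𝓕).coord h := hsec z
        have e5 := congrFun (congrArg Prod.fst e4) e
        have e6 : sec z ((domG D ∅).tgt e) - sec z ((domG D ∅).src e) = h ((domG D ∅).tgt e) - h ((domG D ∅).src e) := e5
        simp only [Pi.sub_apply]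
        linarith
      have e7 := const_of_grad_zero hc (h - sec z) h0 v v0
      simp only [Pi.sub_apply] at e7
      show sec z v + (h v0 - sec z v0) = h v
      linarith
  -- (4) the double sum
  let t : S₀.L → ℝ := fun z => gpAvg box (gpExt fun v => 2 * Real.pi * (sec z v : ℝ))
  have hF : ∀ p : S₀.L × ℤ, (H.sys b).W (H.coordA b ((Φ p : Λ) : (domG D ∅).V → ℤ))
      = besP b (sec p.1) * Real.exp (-γ * (t p.1 + 2 * Real.pi * (p.2 : ℝ)) ^ 2 / 2) := by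
    rintro ⟨z, k⟩
    rw [W_coordA H b γ box hobs, gpAvg_add_const box hbD hne (sec z) ((Φ (z, k) : Λ) : (domG D ∅).V → ℤ) k (fun v => rfl)]
    congr 1
    refine Finset.prod_congr rfl fun e _ => ?_
    congr 1
    show (sec z _ + k) - (sec z _ + k) = sec z _ - sec z _
    ring
  have e3 : wOn H b Λ = ∑' p : S₀.L × ℤ, besP b (sec p.1) * Real.exp (-γ * (t p.1 + 2 * Real.pi * (p.2 : ℝ)) ^ 2 / 2) := by
    rw [e1, ← (Equiv.ofBijective Φ hΦ).tsum_eq]
    exact tsum_congr fun p => hF p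
  have hsumθ : ∀ z : S₀.L, Summable fun k : ℤ => besP b (sec z) * Real.exp (-γ * (t z + 2 * Real.pi * (k : ℝ)) ^ 2 / 2) :=
    fun z => (thetaW_summable γ hγ (t z)).mul_left _
  have hθe : ∀ z : S₀.L, ∑' k : ℤ, besP b (sec z) * Real.exp (-γ * (t z + 2 * Real.pi * (k : ℝ)) ^ 2 / 2) = besP b (sec z) * thetaW γ (t z) :=
    fun z => tsum_mul_left
  have hsum1 : Summable fun z : S₀.L => besP b (sec z) * thetaW γ (t z) :=
    Summable.of_nonneg_of_le (fun z => mul_nonneg (besP_pos b hb _).le (hc₁.le.trans (hθ _).1))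
      (fun z => mul_le_mul_of_nonneg_left (hθ (t z)).2 (besP_pos b hb _).le) (hsum0.mul_right c₂)
  have hsum2 : Summable fun p : S₀.L × ℤ => besP b (sec p.1) * Real.exp (-γ * (t p.1 + 2 * Real.pi * (p.2 : ℝ)) ^ 2 / 2) := by
    rw [summable_prod_of_nonneg (fun p => mul_nonneg (besP_pos b hb _).le (Real.exp_pos _).le)]
    refine ⟨fun z => hsumθ z, ?_⟩
    simp only [hθe]
    exact hsum1
  have e4 : wOn H b Λ = ∑' z : S₀.L, besP b (sec z) * thetaW γ (t z) := by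
    rw [e3, hsum2.tsum_prod' (fun z => hsumθ z)]
    exact tsum_congr fun z => hθe z
  rw [e4, e2, ← tsum_mul_left, ← tsum_mul_left]
  constructor
  · refine (hsum0.mul_left c₁).tsum_le_tsum (fun z => ?_) hsum1
    rw [mul_comm]
    exact mul_le_mul_of_nonneg_left (hθ (t z)).1 (besP_pos b hb _).le
  · refine hsum1.tsum_le_tsum (fun z => ?_) (hsum0.mul_left c₂)
    rw [mul_comm c₂]
    exact mul_le_mul_of_nonneg_left (hθ (t z)).2 (besP_pos b hb _).le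

theorem flatΛ_pair (D : Finset (ℤ × ℤ)) (A A' : Set (ℤ × ℤ)) :
    (dlaw D ∅ ∅ {A, A'}).Λ = (dlaw D ∅ ∅ {A}).Λ ⊓ (dlaw D ∅ ∅ {A'}).Λ := by
  ext h
  constructor
  · rintro ⟨h1, h2⟩
    exact ⟨⟨h1, fun F hF => h2 F (by
      obtain ⟨X, hX, rfl⟩ := hF
      exact ⟨X, Or.inl hX, rfl⟩)⟩, ⟨h1, fun F hF => h2 F (by
      obtain ⟨X, hX, rfl⟩ := hF
      exact ⟨X, Or.inr hX, rfl⟩)⟩⟩
  · rintro ⟨⟨h1, h2⟩, ⟨_, h3⟩⟩
    refine ⟨h1, ?_⟩
    rintro F ⟨X, (hX | hX), rfl⟩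
    · exact h2 _ ⟨X, hX, rfl⟩
    · exact h3 _ ⟨X, hX, rfl⟩

theorem flatΛ_empty (D : Finset (ℤ × ℤ)) (h : (domG D ∅).V → ℤ) : h ∈ (dlaw D ∅ ∅ ∅).Λ :=
  ⟨fun v hv => absurd hv (by simp [domSet]), fun F hF => absurd hF (by simp)⟩

theorem pinned_le_flatΛ (D : Finset (ℤ × ℤ)) (A : Set (ℤ × ℤ)) :
    (HLaw.pinned (domSet A) : AddSubgroup ((domG D ∅).V → ℤ)) ≤ (dlaw D ∅ ∅ {A}).Λ := by
  intro h hh
  refine ⟨fun v hv => absurd hv (by simp [domSet]), ?_⟩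
  rintro F ⟨X, hX, rfl⟩ x hx y hy
  have hX' : X = A := hX
  subst hX'
  rw [hh x hx, hh y hy]

/-- **L-S46-FLATABS**, general form: flat pins in the free law against absolute pins in a law confined by one box average. -/
theorem flat_le_abs_gen (b : ℝ) (hb : 0 < b) (D : Finset (ℤ × ℤ)) (H : HLaw (domG D ∅)) (hΛ : ∀ h, h ∈ H.Λ) (hP : H.Proper)
    (hok : (H.sys b).Ok) (γ : ℝ) (hγ : 0 < γ)
    (box : Finset (ℤ × ℤ)) (hbD : box ⊆ D) (hne : box.Nonempty) (hc : OneComp D ∅ ↑D)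
    (hobs : ∀ F : ℤ × ℤ → ℝ, ∑ o, H.obs (domFn F) o ^ 2 = γ * gpAvg box F ^ 2) (A A' : Set (ℤ × ℤ))
    (c₁ c₂ : ℝ) (hc₁ : 0 < c₁) (hθ : ∀ t, c₁ ≤ thetaW γ t ∧ thetaW γ t ≤ c₂) :
    Dbar b D ∅ A A' ≤ H.dPin b (domSet A) (domSet A') + 2 * Real.log (c₂ / c₁) := by
  have hc₂ : 0 < c₂ := hc₁.trans_le ((hθ 0).1.trans (hθ 0).2)
  have hΛtop : H.Λ = ⊤ := eq_top_iff.2 fun h _ => hΛ h
  set FA := (dlaw D ∅ ∅ {A}).Λ with hFA
  set FA' := (dlaw D ∅ ∅ {A'}).Λ with hFA'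
  set PA : AddSubgroup ((domG D ∅).V → ℤ) := HLaw.pinned (domSet A) with hPA
  set PA' : AddSubgroup ((domG D ∅).V → ℤ) := HLaw.pinned (domSet A') with hPA'
  have f0 := wOn_fibre b hb D H hΛ hP γ hγ box hbD hne hc hobs ∅ c₁ c₂ hc₁ hθ
  have f1 := wOn_fibre b hb D H hΛ hP γ hγ box hbD hne hc hobs {A} c₁ c₂ hc₁ hθ
  have f2 := wOn_fibre b hb D H hΛ hP γ hγ box hbD hne hc hobs {A'} c₁ c₂ hc₁ hθ
  have f3 := wOn_fibre b hb D H hΛ hP γ hγ box hbD hne hc hobs {A, A'} c₁ c₂ hc₁ hθ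
  have e0 : (dlaw D ∅ ∅ ∅).Λ = ⊤ := eq_top_iff.2 fun h _ => flatΛ_empty D h
  rw [e0] at f0
  rw [flatΛ_pair] at f3
  have n1 := wOn_nested H b hΛ hP hok FA PA FA' (pinned_le_flatΛ D A)
  have n2 := wOn_nested H b hΛ hP hok FA' PA' PA (pinned_le_flatΛ D A')
  -- the pin probabilities
  have p1 : H.pPin b (domSet A) = wOn H b PA / wOn H b ⊤ := by
    rw [Sec.sec_pPin_eq H hP]
    have : H.addPin (domSet A) = lawOn H PA := by
      unfold HLaw.addPin lawOn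
      rw [hΛtop, top_inf_eq]
    rw [this]
    have h2 : (H.sys b).w 0 = wOn H b H.Λ := rfl
    rw [h2, hΛtop]
    rfl
  have p2 : H.pPin b (domSet A') = wOn H b PA' / wOn H b ⊤ := by
    rw [Sec.sec_pPin_eq H hP]
    have : H.addPin (domSet A') = lawOn H PA' := by
      unfold HLaw.addPin lawOn
      rw [hΛtop, top_inf_eq]
    rw [this]
    have h2 : (H.sys b).w 0 = wOn H b H.Λ := rfl
    rw [h2, hΛtop]
    rfl
  have p3 : H.pPin b (domSet A ∪ domSet A') = wOn H b (PA' ⊓ PA) / wOn H b ⊤ := by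
    rw [Sec.sec_pPin_eq H hP]
    have : H.addPin (domSet A ∪ domSet A') = lawOn H (PA' ⊓ PA) := by
      unfold HLaw.addPin lawOn
      rw [hΛtop, top_inf_eq, ← Sec.sec_pinned_union, inf_comm]
    rw [this]
    have h2 : (H.sys b).w 0 = wOn H b H.Λ := rfl
    rw [h2, hΛtop]
    rfl
  have pos : ∀ Λ', 0 < wOn H b Λ' := fun Λ' => wOn_pos H b hΛ hok Λ'
  have zpos : ∀ 𝓕, 0 < ZD b D ∅ ∅ 𝓕 0 0 := fun 𝓕 => by
    rw [ZD_zero]
    exact Sec.sec_w_pos _ (dlaw_ok b hb D ∅ ∅ 𝓕) _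
  unfold Dbar HLaw.dPin pFlat
  rw [p1, p2, p3]
  set z0 := ZD b D ∅ ∅ ∅ 0 0
  set z1 := ZD b D ∅ ∅ {A} 0 0
  set z2 := ZD b D ∅ ∅ {A'} 0 0
  set z3 := ZD b D ∅ ∅ {A, A'} 0 0
  have hz0 : 0 < z0 := zpos _
  have hz1 : 0 < z1 := zpos _
  have hz2 : 0 < z2 := zpos _
  have hz3 : 0 < z3 := zpos _
  set w0 := wOn H b ⊤
  set w1 := wOn H b FA
  set w2 := wOn H b FA'
  set w3 := wOn H b (FA ⊓ FA')
  set q1 := wOn H b PA
  set q2 := wOn H b PA'
  set q3 := wOn H b (PA' ⊓ PA)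
  set r := wOn H b (PA ⊓ FA')
  have hr : wOn H b (FA' ⊓ PA) = r := by rw [inf_comm]
  rw [hr] at n2
  have hw0 : 0 < w0 := pos _
  have hw1 : 0 < w1 := pos _
  have hw2 : 0 < w2 := pos _
  have hw3 : 0 < w3 := pos _
  have hq1 : 0 < q1 := pos _
  have hq2 : 0 < q2 := pos _
  have hq3 : 0 < q3 := pos _
  have hr0 : 0 < r := pos _
  -- logarithms
  have L : ∀ x y : ℝ, 0 < x → 0 < y → Real.log (x / y) = Real.log x - Real.log y := fun x y hx hy => Real.log_div hx.ne' hy.ne'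
  have M : ∀ x y : ℝ, 0 < x → 0 < y → Real.log (x * y) = Real.log x + Real.log y := fun x y hx hy => Real.log_mul hx.ne' hy.ne'
  rw [L _ _ hz3 hz0, L _ _ hz1 hz0, L _ _ hz2 hz0, L _ _ hq3 hw0, L _ _ hq1 hw0, L _ _ hq2 hw0, L _ _ hc₂ hc₁]
  have l0 := Real.log_le_log (mul_pos hc₁ hz0) f0.1
  have l3 := Real.log_le_log (mul_pos hc₁ hz3) f3.1
  have l1 := Real.log_le_log hw1 f1.2
  have l2 := Real.log_le_log hw2 f2.2
  have l4 := Real.log_le_log (mul_pos hw3 hq1) n1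
  have l5 := Real.log_le_log (mul_pos hr0 hq2) n2
  rw [M _ _ hc₁ hz0] at l0
  rw [M _ _ hc₁ hz3] at l3
  rw [M _ _ hc₂ hz1] at l1
  rw [M _ _ hc₂ hz2] at l2
  rw [M _ _ hw3 hq1, M _ _ hr0 hw1] at l4
  rw [M _ _ hr0 hq2, M _ _ hq3 hw2] at l5
  linarith

/-- real properness gives properness of the lattice system -/
theorem fl_ok {G : HGraph} (H : HLaw G) (b : ℝ) (hb : 0 < b) (hPD : Pot.plPD H ∅) : (H.sys b).Ok :=
  HLaw.ok_of_real_injective H b hb fun g _ hgr hob =>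
    hPD g (fun x hx => absurd hx (Set.notMem_empty x)) (fun e => sub_eq_zero.2 (hgr e)) hob

theorem fl_proper {G : HGraph} (H : HLaw G) (hPD : Pot.plPD H ∅) : H.Proper := by
  intro h _ hc
  have h1 : ∀ e : G.E, h (G.tgt e) - h (G.src e) = 0 := fun e => congrFun (congrArg Prod.fst hc) e
  have h2 : ∀ o, ∑ v, H.B o v * (2 * Real.pi * (h v : ℝ)) = 0 := fun o => congrFun (congrArg Prod.snd hc) o
  have h3 := hPD (fun v => 2 * Real.pi * (h v : ℝ)) (fun x hx => absurd hx (Set.notMem_empty x)) (fun e => by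
    show 2 * Real.pi * (h (G.tgt e) : ℝ) - 2 * Real.pi * (h (G.src e) : ℝ) = 0
    have : ((h (G.tgt e) : ℤ) : ℝ) - (h (G.src e) : ℝ) = 0 := by exact_mod_cast h1 e
    rw [← mul_sub, this, mul_zero]) h2
  funext v
  have h4 := congrFun h3 v
  have h5 : (2 * Real.pi * (h v : ℝ)) = 0 := h4
  have h6 : (h v : ℝ) = 0 := (mul_eq_zero.1 h5).resolve_left (by positivity)
  exact_mod_cast h6

/-- `flat_le_abs_gen` in transportable form -/
theorem flat_le_abs_tr (b : ℝ) (hb : 0 < b) (D D' : Finset (ℤ × ℤ)) (cut : Set Bond) (hD : D = D') (hcut : cut = ∅)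
    (H : HLaw (domG D cut)) (hΛ : ∀ h, h ∈ H.Λ) (γ : ℝ) (hγ : 0 < γ)
    (box : Finset (ℤ × ℤ)) (hbD : box ⊆ D') (hne : box.Nonempty) (hc : OneComp D' ∅ ↑D')
    (hobs : ∀ F : ℤ × ℤ → ℝ, ∑ o, H.obs (domFn F) o ^ 2 = γ * gpAvg box F ^ 2) (A A' : Set (ℤ × ℤ))
    (c₁ c₂ : ℝ) (hc₁ : 0 < c₁) (hθ : ∀ t, c₁ ≤ thetaW γ t ∧ thetaW γ t ≤ c₂) :
    H.Proper ∧ (H.sys b).Ok ∧ Dbar b D' ∅ A A' ≤ H.dPin b (domSet A) (domSet A') + 2 * Real.log (c₂ / c₁) := by
  subst hD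
  subst hcut
  have hPD := gp_PD H hγ box hbD hne hc hobs
  exact ⟨fl_proper H hPD, fl_ok H b hb hPD,
    flat_le_abs_gen b hb D H hΛ (fl_proper H hPD) (fl_ok H b hb hPD) γ hγ box hbD hne hc hobs A A' c₁ c₂ hc₁ hθ⟩

/-- the row of the box average in cell averages -/
def annRow (M l : ℕ) (γ : ℝ) : Fin 1 → S23.Cell (2 * (M * 4 ^ l)) (2 * (M * 4 ^ l)) → ℝ :=
  fun _ κ => if κ ∈ cellsOf (M * 4 ^ l) (obox M l 1) then Real.sqrt γ / ((cellsOf (M * 4 ^ l) (obox M l 1)).card : ℝ) else 0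

theorem fl_cell_card (m s : ℕ) (κ : Fin (2 * m) × Fin (2 * m)) : ((cgrid m s).cell κ).card = max s 1 * max s 1 := by
  unfold DGrid.cell cgrid
  rw [Finset.card_product, Int.card_Ico, Int.card_Ico]
  simp only [Fin.val_castSucc, Fin.val_succ]
  have e1 : ((max s 1 : ℕ) : ℤ) * ((((κ.1.1 + 1 : ℕ)) : ℤ) - m) - ((max s 1 : ℕ) : ℤ) * ((κ.1.1 : ℤ) - m) = ((max s 1 : ℕ) : ℤ) := by
    push_cast; ring
  have e2 : ((max s 1 : ℕ) : ℤ) * ((((κ.2.1 + 1 : ℕ)) : ℤ) - m) - ((max s 1 : ℕ) : ℤ) * ((κ.2.1 : ℤ) - m) = ((max s 1 : ℕ) : ℤ) := by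
    push_cast; ring
  rw [e1, e2, Int.toNat_natCast]

theorem fl_cell_inj (m s : ℕ) (hs : 1 ≤ s) (κ κ' : Fin (2 * m) × Fin (2 * m)) (v : ℤ × ℤ)
    (h : v ∈ (cgrid m s).cell κ) (h' : v ∈ (cgrid m s).cell κ') : κ = κ' := by
  rw [ag_mem_cell m s hs] at h h'
  apply Prod.ext
  · apply Fin.ext
    have := h.1.symm.trans h'.1
    omega
  · apply Fin.ext
    have := h.2.symm.trans h'.2
    omega

theorem fl_region_card (m s : ℕ) (hs : 1 ≤ s) (A : Finset (Fin (2 * m) × Fin (2 * m))) :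
    ((cgrid m s).region A).card = A.card * (max s 1 * max s 1) := by
  unfold DGrid.region
  rw [Finset.card_biUnion]
  · rw [Finset.sum_congr rfl fun κ _ => fl_cell_card m s κ, Finset.sum_const, smul_eq_mul]
  · intro κ _ κ' _ hne
    exact Finset.disjoint_left.2 fun v hv hv' => hne (fl_cell_inj m s hs κ κ' v hv hv')

/-- the law with the row `annRow` is the law of `annGeom` -/
theorem annRow_law (M l s : ℕ) (γ : ℝ) (hM : 4 ≤ M) (hl : 4 ≤ l) (hs : 1 ≤ s) :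
    S23.rlaw (annGeom M l γ) (cgrid (M * 4 ^ l) s) (annRow M l γ) = (annGeom M l γ).law (cgrid (M * 4 ^ l) s) := by
  set m := M * 4 ^ l with hm
  set bx := cellsOf m (obox M l 1) with hbx
  have hint : bx ∩ (annGeom M l γ).T = bx := by
    refine Finset.inter_eq_left.2 fun κ hκ => ?_
    have h1 := (Finset.mem_filter.1 hκ).2
    exact Finset.mem_filter.2 ⟨Finset.mem_univ _, guard_subset_ann M l 1 hM hl le_rfl (obox_subset_guard M l 1 h1)⟩
  have hB : ∀ (o : Fin 1) (v : ((annGeom M l γ).graph (cgrid m s)).V),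
      ∑ κ, annRow M l γ o κ * (annGeom M l γ).avgRow (cgrid m s) {κ} v
        = Real.sqrt γ * (annGeom M l γ).avgRow (cgrid m s) bx v := by
    intro o v
    have hS : (0 : ℝ) < ((max s 1 * max s 1 : ℕ) : ℝ) := by
      have : 0 < max s 1 * max s 1 := by positivity
      exact_mod_cast this
    have hsite : ∀ A : Finset (Fin (2 * m) × Fin (2 * m)), v ∈ (annGeom M l γ).sites (cgrid m s) A ↔
        ∃ κ ∈ A, (Subtype.val (p := fun v => v ∈ (cgrid m s).region (annGeom M l γ).T) v) ∈ (cgrid m s).cell κ := by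
      intro A
      have : v ∈ (annGeom M l γ).sites (cgrid m s) A ↔
          (Subtype.val (p := fun v => v ∈ (cgrid m s).region (annGeom M l γ).T) v) ∈ (cgrid m s).region A := Iff.rfl
      rw [this]
      unfold DGrid.region
      rw [Finset.mem_biUnion]
    by_cases hv : v ∈ (annGeom M l γ).sites (cgrid m s) bx
    · obtain ⟨κ0, hκ0, hx⟩ := (hsite bx).1 hv
      rw [Finset.sum_eq_single κ0]
      · unfold CGeom.avgRow annRow
        rw [if_pos hv, if_pos ((hsite {κ0}).2 ⟨κ0, Finset.mem_singleton_self _, hx⟩), if_pos hκ0, hint]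
        have hκT : ({κ0} : Finset (Fin (2 * m) × Fin (2 * m))) ∩ (annGeom M l γ).T = {κ0} :=
          Finset.inter_eq_left.2 (Finset.singleton_subset_iff.2 (Finset.inter_eq_left.1 hint hκ0))
        rw [hκT, fl_region_card m s hs, fl_region_card m s hs, Finset.card_singleton, one_mul]
        have hc : (0 : ℝ) < (bx.card : ℝ) := by exact_mod_cast Finset.card_pos.2 ⟨κ0, hκ0⟩
        have hcard : ((cellsOf (M * 4 ^ l) (obox M l 1)).card : ℝ) = (bx.card : ℝ) := rfl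
        rw [hcard]
        push_cast
        push_cast at hS
        field_simp
      · intro κ _ hne
        have : v ∉ (annGeom M l γ).sites (cgrid m s) {κ} := by
          rw [hsite]
          rintro ⟨κ', hκ', hx'⟩
          rw [Finset.mem_singleton] at hκ'
          subst hκ'
          exact hne (fl_cell_inj m s hs _ _ _ hx' hx)
        unfold CGeom.avgRow
        rw [if_neg this, mul_zero]
      · intro h
        exact absurd (Finset.mem_univ _) h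
    · have h0 : (annGeom M l γ).avgRow (cgrid m s) bx v = 0 := by
        unfold CGeom.avgRow
        rw [if_neg hv]
      rw [h0, mul_zero]
      refine Finset.sum_eq_zero fun κ _ => ?_
      by_cases hκ : κ ∈ bx
      · have : v ∉ (annGeom M l γ).sites (cgrid m s) {κ} := by
          rw [hsite]
          rintro ⟨κ', hκ', hx'⟩
          rw [Finset.mem_singleton] at hκ'
          subst hκ'
          exact hv ((hsite bx).2 ⟨κ', hκ, hx'⟩)
        unfold CGeom.avgRow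
        rw [if_neg this, mul_zero]
      · unfold annRow
        rw [if_neg hκ, zero_mul]
  unfold S23.rlaw CGeom.law
  congr 1
  funext o v
  exact hB o v

/-- everything about the confined law on the annulus at mesh `s ≥ 1` -/
theorem annRow_facts (b : ℝ) (hb : 0 < b) (M l s : ℕ) (γ : ℝ) (hγ : 0 < γ) (hM : 4 ≤ M) (hl : 4 ≤ l) (hs : 1 ≤ s)
    (c₁ c₂ : ℝ) (hc₁ : 0 < c₁) (hθ : ∀ t, c₁ ≤ thetaW γ t ∧ thetaW γ t ≤ c₂) (A A' : Set (ℤ × ℤ)) :
    (S23.rlaw (annGeom M l γ) (cgrid (M * 4 ^ l) s) (annRow M l γ)).Proper ∧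
    ((S23.rlaw (annGeom M l γ) (cgrid (M * 4 ^ l) s) (annRow M l γ)).sys b).Ok ∧
    Dbar b (ann M l s) ∅ A A' ≤ (S23.rlaw (annGeom M l γ) (cgrid (M * 4 ^ l) s) (annRow M l γ)).dPin b
      (domSet (D := (cgrid (M * 4 ^ l) s).region (annGeom M l γ).T) (cut := (annGeom M l γ).cutB (cgrid (M * 4 ^ l) s)) A)
      (domSet (D := (cgrid (M * 4 ^ l) s).region (annGeom M l γ).T) (cut := (annGeom M l γ).cutB (cgrid (M * 4 ^ l) s)) A')
        + 2 * Real.log (c₂ / c₁) := by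
  rw [annRow_law M l s γ hM hl hs]
  have hne : (obox M l s).Nonempty := by
    rw [← Finset.card_pos, gp_obox_card]
    positivity
  refine flat_le_abs_tr b hb _ (ann M l s) _ (annGeom_region M l s γ hs) (annGeom_cutB M l s γ) _ ?_ γ hγ (obox M l s)
    (fun v hv => guard_subset_ann M l s hM hl hs (obox_subset_guard M l s hv)) hne (ann_oneComp M l s hM hl hs)
    (gp_law_obs M l s γ hγ hM hl hs) A A' c₁ c₂ hc₁ hθ
  intro h v hv
  exfalso
  have : (Subtype.val (p := fun v => v ∈ (cgrid (M * 4 ^ l) s).region (annGeom M l γ).T) v) ∈ (cgrid (M * 4 ^ l) s).region (annGeom M l γ).pin := hv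
  simp [annGeom, DGrid.region] at this

end

/-!
# ROW 285, S46 post POT-S46-GPIN: the GAUSSIAN pin interaction across a long annulus, uniformly in the mesh ([S]s4.2, discrete form).   Deterministic, paper-free.  NEEDS ITS OWN CUT (3-5k lines).
`𝒯(u) = a⁻¹ ∑_e (∇_e u)² + γ (avg_{box} u)²` on the lattice annulus.  `gPin = -½ log det (1 - C* C)`, `C = Π_H |_{V_p}` (`V_Q` = `𝒯`-orthocomplement of `{u = 0 on Q}`), singular values `1 > s_1 ≥ s_2 ≥ ...`.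
 (a) determinant identity: `detOff(P∪A) detOff(P∪A') / (detOff P detOff(P∪A∪A')) = 1/det(1 - C*C)` (Schur complements), and `-log det (1 - C*C) ≤ ∑ s_j²/(1 - s_1²)`.
 (b) `‖Π_H f‖² = min {𝒯(w) : w = f on H}`.  For `f ∈ V_p` (discrete harmonic off `p`, no observation off `p`): `w = χ (f - c) + c ψ`, `χ` a cutoff at one macroscopic scale, `ψ` the LOGARITHMIC cutoff across the `T ≈ ½ log λ` dyadic shells between `p` and `H` (energy `O(1/T)`).
 (c) Caccioppoli on dyadic shells: energy of a harmonic `f` beyond a shell `U` `≤ C diam(U)⁻² ‖f - c‖²_{ℓ²(U)}`;  Poincaré on `J` cells of `U`: on the subspace (codimension `J`) where the cell means vanish `‖f‖²_{ℓ²(U)} ≤ C diam² J⁻¹ ∑_U (∇f)²`.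
     Two disjoint shells: `s²_{2J+1} ≤ C/J²`;  one shell + constant mode: `s_1² ≤ C/T`.   min-max (Courant-Fischer for finite matrices).
 (d) `∑_j min (C/T, C/j²) ≤ C'/√T → 0`.
 All constants independent of the mesh `s` and of `λ`; they may depend on `a`, `γ`, `M`.   (In the paper: Fourier modes on the conformal cylinder; not available on the lattice.)
-/

-- `gpin_annulus` is PROVED (from the leaves GP-*) in `S46/GPin.lean` (helper145); statement unchanged.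

/-!
# ROW 285, S46 leaf L-S46-FLAT: [S]P4.1 (7), assembly.
Given `δ`: `theta_flat (δ/6)` gives `γ, c₁, c₂`; `gpin_annulus (aLim b) M γ (δ/3)` gives `l0`, and for `l ≥ max l0 4` a threshold `s0`;
`Sec.imp_pin` ([C]T3.2 = `C3.pin_interaction`; the law is `S23.rlaw Γ g (annRow M l γ) = Γ.law g`, `annRow_law`) for `Γ = annGeom M l γ`, `g k = cgrid _ k`, `ν k = max k 1`, `K = 1` gives `dPin - gPin ≤ δ/3` eventually;
`flat_le_abs` + the set identities of `AnnGeom.lean` (`annGeom_region`, `annGeom_cutB`, `annGeom_region_of`) + `ann_oneComp`.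
-/

/-- **[S]P4.1 (7).**  Order of the constants: `M` (polygon), `δ`, then `l` (`λ = 4^l`), then the mesh `s`. -/
theorem flat_interaction (b : ℝ) (hb : 0 < b) (ha : 0 < aLim b) (M : ℕ) (hM : 4 ≤ M) (δ : ℝ) (hδ : 0 < δ) :
    ∃ l0, ∀ l ≥ l0, ∃ s0, ∀ s ≥ s0,
      Dbar b (ann M l s) ∅ ↑(endIn M l s) ↑(guard M l s) ≤ δ ∧ Dbar b (ann M l s) ∅ ↑(endOut M l s) ↑(guard M l s) ≤ δ := by
  obtain ⟨γ, hγ, c₁, c₂, hc₁, hθ, hlog⟩ := theta_flat (δ / 6) (by positivity)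
  obtain ⟨l0, hl0⟩ := gp_ann (aLim b) ha M hM γ hγ (δ / 3) (by positivity)
  refine ⟨max l0 4, fun l hl => ?_⟩
  have hl4 : 4 ≤ l := le_trans (le_max_right _ _) hl
  have hll0 : l0 ≤ l := le_trans (le_max_left _ _) hl
  have hP : ∀ k, (S23.rlaw (annGeom M l γ) (cgrid (M * 4 ^ l) k) (annRow M l γ)).Proper := by
    intro k
    rw [ag_cgrid_max]
    exact (annRow_facts b hb M l (max k 1) γ hγ hM hl4 (le_max_right _ _) c₁ c₂ hc₁ hθ ∅ ∅).1
  have hOk : ∀ k, ((S23.rlaw (annGeom M l γ) (cgrid (M * 4 ^ l) k) (annRow M l γ)).sys b).Ok := by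
    intro k
    rw [ag_cgrid_max]
    exact (annRow_facts b hb M l (max k 1) γ hγ hM hl4 (le_max_right _ _) c₁ c₂ hc₁ hθ ∅ ∅).2.1
  have hsep := annGeom_sep M l hM hl4
  have t1 := Sec.imp_pin b hb ha (annGeom M l γ) (annGeom_noDiag M l γ hM (by omega)) rfl (annRow M l γ) 1
    (fun k => cgrid (M * 4 ^ l) k) (fun k => max k 1) (cgrid_admissible _) hP hOk
    (cellsOf (M * 4 ^ l) (endIn M l 1)) (cellsOf (M * 4 ^ l) (guard M l 1)) hsep.1
  have t2 := Sec.imp_pin b hb ha (annGeom M l γ) (annGeom_noDiag M l γ hM (by omega)) rfl (annRow M l γ) 1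
    (fun k => cgrid (M * 4 ^ l) k) (fun k => max k 1) (cgrid_admissible _) hP hOk
    (cellsOf (M * 4 ^ l) (endOut M l 1)) (cellsOf (M * 4 ^ l) (guard M l 1)) hsep.2
  have ev1 := t1.eventually (gt_mem_nhds (show (0 : ℝ) < δ / 3 by positivity))
  have ev2 := t2.eventually (gt_mem_nhds (show (0 : ℝ) < δ / 3 by positivity))
  obtain ⟨s0, hs0⟩ := Filter.eventually_atTop.1 (ev1.and ev2)
  refine ⟨max s0 1, fun s hs => ?_⟩
  have hs1 : 1 ≤ s := le_trans (le_max_right _ _) hs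
  obtain ⟨d1, d2⟩ := hs0 s (le_trans (le_max_left _ _) hs)
  obtain ⟨r1, r2, r3⟩ := annGeom_region_of M l s (by omega) hs1
  have hpin : (annGeom M l γ).sites (cgrid (M * 4 ^ l) s) (annGeom M l γ).pin = ∅ := by
    ext x
    simp [CGeom.sites, domSet, annGeom, DGrid.region]
    exact Iff.rfl
  rw [hpin] at d1 d2
  simp only [CGeom.sites, r1, r2, r3] at d1 d2
  have hobs : ∀ F : ℤ × ℤ → ℝ, ∑ o, (S23.rlaw (annGeom M l γ) (cgrid (M * 4 ^ l) s) (annRow M l γ)).obs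
      (domFn (D := (cgrid (M * 4 ^ l) s).region (annGeom M l γ).T) (cut := (annGeom M l γ).cutB (cgrid (M * 4 ^ l) s)) F) o ^ 2
      = γ * gpAvg (obox M l s) F ^ 2 := by
    rw [annRow_law M l s γ hM hl4 hs1]
    exact gp_law_obs M l s γ hγ hM hl4 hs1
  obtain ⟨g1, g2⟩ := hl0 l hll0 s hs1 _ _ (annGeom_region M l s γ hs1) (annGeom_cutB M l s γ)
    (S23.rlaw (annGeom M l γ) (cgrid (M * 4 ^ l) s) (annRow M l γ)) hobs
  have f1 := (annRow_facts b hb M l s γ hγ hM hl4 hs1 c₁ c₂ hc₁ hθ ↑(endIn M l s) ↑(guard M l s)).2.2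
  have f2 := (annRow_facts b hb M l s γ hγ hM hl4 hs1 c₁ c₂ hc₁ hθ ↑(endOut M l s) ↑(guard M l s)).2.2
  have k1 : ∀ D x y L : ℝ, D ≤ x + 2 * L → x - y < δ / 3 → y ≤ δ / 3 → L ≤ δ / 6 → D ≤ δ :=
    fun D x y L h1 h2 h3 h4 => by linarith
  exact ⟨k1 _ _ _ _ f1 d1 g1 hlog, k1 _ _ _ _ f2 d2 g2 hlog⟩

end Claimed.Agent.R285.S46
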