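import Claimed.Agent.R285.S46.Geom
import Claimed.Agent.R285.Pot.DecGeo

/-!
# ROW 285, S46 post POT-S46-GPIN, file 1/2 (`GPinA.lean`), section KIT: DEFINITIONS and the LATTICE KIT (architect helper145).   Paper-free, deterministic, functions on all of `ℤ²`, `Finset` sums only (no subtypes).

Plan of the whole post: header of `S46/GPin.lean`.   Prefix `gp`.
* `gpE S F` Dirichlet energy on the n.n. bonds with both ends in `S`; `gpB` its polarisation; `gpAvg S F` the mean; `gpHarm D p F`: `F` is discrete harmonic in `D` off `p` with free walls (weak form).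
* `gpShell n = sq (2n) \ sq n`, `gpRect x0 y0 p q = [x0,x0+p) × [y0,y0+q)`, `gpCut n` the Lipschitz cutoff of the shell (`1` on `sq n`, `0` off `sq (2n)`, increments only on bonds INSIDE the shell).
* kit: energy identity `E(ηF) = ∑_e F F (∇η)²` for harmonic `F` (gives Caccioppoli and all competitors), Poincare on rectangles (constant `m (m-1)`), on shells, comparison of means of consecutive dyadic shells,
  resolution (`4·4^k` cell sums whose vanishing improves the Poincare constant by `4^{-k}`, down to ZERO when the cells are single sites).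
-/

set_option autoImplicit false

namespace Claimed.Agent.R285.S46

open scoped Classical

noncomputable section


/-! ## Definitions -/

/-- Dirichlet energy on the bonds inside `S` -/
def gpE (S : Finset (ℤ × ℤ)) (F : ℤ × ℤ → ℝ) : ℝ := ∑ e ∈ domBonds S ∅, (F e.snd - F e.1) ^ 2

/-- its polarisation -/
def gpB (S : Finset (ℤ × ℤ)) (F W : ℤ × ℤ → ℝ) : ℝ := ∑ e ∈ domBonds S ∅, (F e.snd - F e.1) * (W e.snd - W e.1)

/-- the mean over `S` -/
def gpAvg (S : Finset (ℤ × ℤ)) (F : ℤ × ℤ → ℝ) : ℝ := (∑ x ∈ S, F x) / (S.card : ℝ)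

/-- harmonic in `D` off `p`, free walls: orthogonal to all tests vanishing on `p` -/
def gpHarm (D p : Finset (ℤ × ℤ)) (F : ℤ × ℤ → ℝ) : Prop := ∀ W : ℤ × ℤ → ℝ, (∀ x ∈ p, W x = 0) → gpB D F W = 0

/-- the form `𝒯` in global notation -/
def gpT (a γ : ℝ) (D box : Finset (ℤ × ℤ)) (F : ℤ × ℤ → ℝ) : ℝ := a⁻¹ * gpE D F + γ * gpAvg box F ^ 2

/-- the square shell -/
def gpShell (n : ℕ) : Finset (ℤ × ℤ) := sq (2 * n) \ sq n

/-- the rectangle `[x0, x0+p) × [y0, y0+q)` -/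
def gpRect (x0 y0 : ℤ) (p q : ℕ) : Finset (ℤ × ℤ) := Finset.Ico x0 (x0 + p) ×ˢ Finset.Ico y0 (y0 + q)

/-- the radius adapted to `sq`: `x ∈ sq n ↔ gpNu x ≤ n` -/
def gpNu (x : ℤ × ℤ) : ℤ := max (max (-x.1) (x.1 + 1)) (max (-x.2) (x.2 + 1))

/-- the cutoff of the shell `gpShell n` (`n ≥ 2`): `1` for `ν ≤ n + 1`, `0` for `ν ≥ 2n`, slope `1/(n-1)` -/
def gpCut (n : ℕ) (x : ℤ × ℤ) : ℝ := max 0 (min 1 ((2 * (n : ℝ) - (gpNu x : ℝ)) / ((n : ℝ) - 1)))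

/-- Poincare constant of the shells -/
def GpPoinc (CP : ℝ) : Prop :=
  ∀ n : ℕ, 1 ≤ n → ∀ F : ℤ × ℤ → ℝ, ∑ x ∈ gpShell n, (F x - gpAvg (gpShell n) F) ^ 2 ≤ CP * (n : ℝ) ^ 2 * gpE (gpShell n) F

/-- comparison of the means of consecutive dyadic shells -/
def GpMean (CM : ℝ) : Prop :=
  ∀ n : ℕ, 1 ≤ n → ∀ F : ℤ × ℤ → ℝ, (gpAvg (gpShell n) F - gpAvg (gpShell (2 * n)) F) ^ 2 ≤ CM * gpE (gpShell n ∪ gpShell (2 * n)) F

/-- resolution of the shells: at most `4 · 4^k` cells -/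
def GpRes (CR : ℝ) : Prop :=
  ∀ n : ℕ, 1 ≤ n → ∀ k : ℕ, ∃ 𝒞 : Finset (Finset (ℤ × ℤ)), 𝒞.card ≤ 4 * 4 ^ k ∧ (∀ C ∈ 𝒞, C ⊆ gpShell n) ∧
    ∀ F : ℤ × ℤ → ℝ, (∀ C ∈ 𝒞, ∑ x ∈ C, F x = 0) → ∑ x ∈ gpShell n, F x ^ 2 ≤ CR * (n : ℝ) ^ 2 / 4 ^ k * gpE (gpShell n) F

theorem gp_defs_eqns_cite : True := by
  have := @gpE.eq_1; have := @gpB.eq_1; have := @gpAvg.eq_1; have := @gpHarm.eq_1; have := @gpT.eq_1; have := @gpShell.eq_1
  have := @gpRect.eq_1; have := @gpNu.eq_1; have := @gpCut.eq_1; have := @GpPoinc.eq_1; have := @GpMean.eq_1; have := @GpRes.eq_1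
  trivial

/-! ## Leaf GP-K0: elementary facts -/

theorem gp_mem_bonds {S : Finset (ℤ × ℤ)} {e : Bond} : e ∈ domBonds S ∅ ↔ e.1 ∈ S ∧ e.snd ∈ S := by
  simp [domBonds]

theorem gp_bonds_mono {S S' : Finset (ℤ × ℤ)} (h : S ⊆ S') : domBonds S ∅ ⊆ domBonds S' ∅ := fun e he => by
  rw [gp_mem_bonds] at he ⊢; exact ⟨h he.1, h he.2⟩

theorem gpE_nonneg (S : Finset (ℤ × ℤ)) (F : ℤ × ℤ → ℝ) : 0 ≤ gpE S F := Finset.sum_nonneg fun _ _ => sq_nonneg _

theorem gpE_mono {S S' : Finset (ℤ × ℤ)} (h : S ⊆ S') (F : ℤ × ℤ → ℝ) : gpE S F ≤ gpE S' F :=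
  Finset.sum_le_sum_of_subset_of_nonneg (gp_bonds_mono h) fun _ _ _ => sq_nonneg _

/-- disjoint regions have disjoint bonds -/
theorem gpE_add_le {S U S' : Finset (ℤ × ℤ)} (hS : S ⊆ S') (hU : U ⊆ S') (hd : Disjoint S U) (F : ℤ × ℤ → ℝ) :
    gpE S F + gpE U F ≤ gpE S' F := by
  have hdb : Disjoint (domBonds S ∅) (domBonds U ∅) := by
    rw [Finset.disjoint_left]
    intro e he he'
    exact (Finset.disjoint_left.1 hd) (gp_mem_bonds.1 he).1 (gp_mem_bonds.1 he').1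
  rw [gpE, gpE, ← Finset.sum_union hdb]
  exact Finset.sum_le_sum_of_subset_of_nonneg (Finset.union_subset (gp_bonds_mono hS) (gp_bonds_mono hU)) fun _ _ _ => sq_nonneg _

theorem gpE_congr {S : Finset (ℤ × ℤ)} {F F' : ℤ × ℤ → ℝ} (h : ∀ x ∈ S, F x = F' x) : gpE S F = gpE S F' :=
  Finset.sum_congr rfl fun e he => by rw [h _ (gp_mem_bonds.1 he).1, h _ (gp_mem_bonds.1 he).2]

theorem gpE_sub_const (S : Finset (ℤ × ℤ)) (F : ℤ × ℤ → ℝ) (c : ℝ) : gpE S (fun x => F x - c) = gpE S F :=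
  Finset.sum_congr rfl fun e _ => by ring

theorem gpHarm_sub_const {D p : Finset (ℤ × ℤ)} {F : ℤ × ℤ → ℝ} (h : gpHarm D p F) (c : ℝ) : gpHarm D p fun x => F x - c := fun W hW => by
  rw [← h W hW]; exact Finset.sum_congr rfl fun e _ => by ring

/-- `E(u + v) ≤ 2 E(u) + 2 E(v)` -/
theorem gpE_add_le_two (S : Finset (ℤ × ℤ)) (u v : ℤ × ℤ → ℝ) : gpE S (fun x => u x + v x) ≤ 2 * gpE S u + 2 * gpE S v := by
  rw [gpE, gpE, gpE, Finset.mul_sum, Finset.mul_sum, ← Finset.sum_add_distrib]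
  refine Finset.sum_le_sum fun e _ => ?_
  nlinarith [sq_nonneg ((u e.snd - u e.1) - (v e.snd - v e.1))]

theorem gpE_const_mul (S : Finset (ℤ × ℤ)) (c : ℝ) (u : ℤ × ℤ → ℝ) : gpE S (fun x => c * u x) = c ^ 2 * gpE S u := by
  rw [gpE, gpE, Finset.mul_sum]
  exact Finset.sum_congr rfl fun e _ => by ring

theorem gp_bonds_subset (U : Finset (ℤ × ℤ)) : domBonds U ∅ ⊆ U ×ˢ (Finset.univ : Finset Bool) := fun _ he =>
  Finset.mem_product.2 ⟨(gp_mem_bonds.1 he).1, Finset.mem_univ _⟩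

theorem gp_sum_prod_bool (U : Finset (ℤ × ℤ)) (g : ℤ × ℤ → ℝ) :
    ∑ e ∈ U ×ˢ (Finset.univ : Finset Bool), g e.1 = 2 * ∑ x ∈ U, g x := by
  rw [Finset.sum_product]
  simp only [Finset.sum_const, Finset.card_univ, Fintype.card_bool, nsmul_eq_mul, Nat.cast_ofNat]
  rw [Finset.mul_sum]

theorem gp_snd_injOn (U : Finset (ℤ × ℤ)) :
    Set.InjOn (fun e : Bond => ((e.snd, e.2) : Bond)) (domBonds U ∅ : Set Bond) := by
  rintro ⟨⟨a, b⟩, d⟩ - ⟨⟨a', b'⟩, d'⟩ - h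
  simp only [Prod.mk.injEq] at h
  obtain ⟨h1, rfl⟩ := h
  cases d
  · simp only [Bond.snd, Bool.false_eq_true, if_false, Prod.mk.injEq] at h1
    obtain ⟨rfl, h2⟩ := h1
    have : b = b' := by omega
    rw [this]
  · simp only [Bond.snd, if_true, Prod.mk.injEq] at h1
    obtain ⟨h2, rfl⟩ := h1
    have : a = a' := by omega
    rw [this]

/-- every site lies on at most four bonds -/
theorem gp_bond_sum_le (U : Finset (ℤ × ℤ)) (g : ℤ × ℤ → ℝ) (hg : ∀ x, 0 ≤ g x) :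
    ∑ e ∈ domBonds U ∅, (g e.1 + g e.snd) ≤ 4 * ∑ x ∈ U, g x := by
  have h1 : ∑ e ∈ domBonds U ∅, g e.1 ≤ 2 * ∑ x ∈ U, g x := by
    rw [← gp_sum_prod_bool]
    exact Finset.sum_le_sum_of_subset_of_nonneg (gp_bonds_subset U) fun e _ _ => hg _
  have h2 : ∑ e ∈ domBonds U ∅, g e.snd ≤ 2 * ∑ x ∈ U, g x := by
    rw [← gp_sum_prod_bool]
    have e1 : ∑ e ∈ domBonds U ∅, g e.snd =
        ∑ e ∈ (domBonds U ∅).image (fun e : Bond => ((e.snd, e.2) : Bond)), g e.1 := by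
      rw [Finset.sum_image (gp_snd_injOn U)]
    rw [e1]
    refine Finset.sum_le_sum_of_subset_of_nonneg ?_ fun e _ _ => hg _
    intro e he
    obtain ⟨e', he', rfl⟩ := Finset.mem_image.1 he
    exact Finset.mem_product.2 ⟨(gp_mem_bonds.1 he').2, Finset.mem_univ _⟩
  rw [Finset.sum_add_distrib]
  linarith

theorem gp_card_bonds_le (U : Finset (ℤ × ℤ)) : (domBonds U ∅).card ≤ 2 * U.card := by
  refine (Finset.card_le_card (gp_bonds_subset U)).trans (le_of_eq ?_)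
  rw [Finset.card_product, Finset.card_univ, Fintype.card_bool, mul_comm]

theorem gp_sum_eq_card_mul_avg (S : Finset (ℤ × ℤ)) (F : ℤ × ℤ → ℝ) :
    ∑ x ∈ S, F x = (S.card : ℝ) * gpAvg S F := by
  rcases S.eq_empty_or_nonempty with rfl | hne
  · simp
  · have : (S.card : ℝ) ≠ 0 := by exact_mod_cast (Finset.card_pos.2 hne).ne'
    unfold gpAvg
    field_simp

/-- `∑ (F - c)² = ∑ (F - avg)² + |S| (avg - c)²` -/
theorem gp_var_shift (S : Finset (ℤ × ℤ)) (F : ℤ × ℤ → ℝ) (c : ℝ) :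
    ∑ x ∈ S, (F x - c) ^ 2 = ∑ x ∈ S, (F x - gpAvg S F) ^ 2 + (S.card : ℝ) * (gpAvg S F - c) ^ 2 := by
  have h := gp_sum_eq_card_mul_avg S F
  have e : ∀ x, (F x - c) ^ 2 = (F x - gpAvg S F) ^ 2 +
      (2 * (gpAvg S F - c) * F x + (c ^ 2 - gpAvg S F ^ 2)) := fun x => by ring
  rw [Finset.sum_congr rfl fun x _ => e x, Finset.sum_add_distrib, Finset.sum_add_distrib,
    ← Finset.mul_sum, h, Finset.sum_const, nsmul_eq_mul]
  ring

/-- the mean minimises -/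
theorem gp_var_avg_le (S : Finset (ℤ × ℤ)) (F : ℤ × ℤ → ℝ) (c : ℝ) : ∑ x ∈ S, (F x - gpAvg S F) ^ 2 ≤ ∑ x ∈ S, (F x - c) ^ 2 := by
  rw [gp_var_shift S F c]
  have : 0 ≤ (S.card : ℝ) * (gpAvg S F - c) ^ 2 := by positivity
  linarith

/-- the mean over a subset -/
theorem gp_avg_sub_sq_le {Q S : Finset (ℤ × ℤ)} (hQ : Q ⊆ S) (hne : Q.Nonempty) (F : ℤ × ℤ → ℝ) (c : ℝ) :
    (gpAvg Q F - c) ^ 2 ≤ (∑ x ∈ S, (F x - c) ^ 2) / (Q.card : ℝ) := by
  have hc : (0 : ℝ) < (Q.card : ℝ) := by exact_mod_cast Finset.card_pos.2 hne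
  have h1 := gp_var_shift Q F c
  have h2 : 0 ≤ ∑ x ∈ Q, (F x - gpAvg Q F) ^ 2 := Finset.sum_nonneg fun _ _ => sq_nonneg _
  have h3 : ∑ x ∈ Q, (F x - c) ^ 2 ≤ ∑ x ∈ S, (F x - c) ^ 2 :=
    Finset.sum_le_sum_of_subset_of_nonneg hQ fun _ _ _ => sq_nonneg _
  rw [le_div_iff₀ hc]
  linarith

/-- gluing two regions through a common part `Q` -/
theorem gp_glue {Q S₁ S₂ : Finset (ℤ × ℤ)} (h₁ : Q ⊆ S₁) (h₂ : Q ⊆ S₂) (hne : Q.Nonempty) (F : ℤ × ℤ → ℝ) (c : ℝ) :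
    ∑ x ∈ S₂, (F x - c) ^ 2 ≤ ∑ x ∈ S₂, (F x - gpAvg S₂ F) ^ 2
      + 2 * ((S₂.card : ℝ) / (Q.card : ℝ)) * (∑ x ∈ S₂, (F x - gpAvg S₂ F) ^ 2 + ∑ x ∈ S₁, (F x - c) ^ 2) := by
  have hc : (0 : ℝ) < (Q.card : ℝ) := by exact_mod_cast Finset.card_pos.2 hne
  have a1 := gp_avg_sub_sq_le h₂ hne F (gpAvg S₂ F)
  have a2 := gp_avg_sub_sq_le h₁ hne F c
  have a3 : (gpAvg S₂ F - c) ^ 2 ≤ 2 * (gpAvg Q F - gpAvg S₂ F) ^ 2 + 2 * (gpAvg Q F - c) ^ 2 := by
    nlinarith [sq_nonneg ((gpAvg Q F - gpAvg S₂ F) + (gpAvg Q F - c))]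
  have a4 : (gpAvg S₂ F - c) ^ 2 ≤
      2 * ((∑ x ∈ S₂, (F x - gpAvg S₂ F) ^ 2 + ∑ x ∈ S₁, (F x - c) ^ 2) / (Q.card : ℝ)) := by
    rw [add_div]
    linarith
  rw [gp_var_shift S₂ F c]
  have a5 := mul_le_mul_of_nonneg_left a4 (Nat.cast_nonneg S₂.card : (0 : ℝ) ≤ (S₂.card : ℝ))
  have e : (S₂.card : ℝ) * (2 * ((∑ x ∈ S₂, (F x - gpAvg S₂ F) ^ 2 + ∑ x ∈ S₁, (F x - c) ^ 2) / (Q.card : ℝ))) =
      2 * ((S₂.card : ℝ) / (Q.card : ℝ)) * (∑ x ∈ S₂, (F x - gpAvg S₂ F) ^ 2 + ∑ x ∈ S₁, (F x - c) ^ 2) := by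
    ring
  rw [e] at a5
  linarith

theorem gp_mem_sq_iff {n : ℕ} {x : ℤ × ℤ} : x ∈ sq n ↔ gpNu x ≤ n := by
  simp only [sq, gpNu, Finset.mem_product, Finset.mem_Ico, max_le_iff]
  constructor
  · rintro ⟨⟨h1, h2⟩, h3, h4⟩
    exact ⟨⟨by omega, by omega⟩, by omega, by omega⟩
  · rintro ⟨⟨h1, h2⟩, h3, h4⟩
    exact ⟨⟨by omega, by omega⟩, by omega, by omega⟩

theorem gp_mem_rect {x0 y0 : ℤ} {p q : ℕ} {x : ℤ × ℤ} : x ∈ gpRect x0 y0 p q ↔ (x0 ≤ x.1 ∧ x.1 < x0 + p) ∧ (y0 ≤ x.2 ∧ x.2 < y0 + q) := by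
  simp [gpRect]

theorem gp_card_rect (x0 y0 : ℤ) (p q : ℕ) : (gpRect x0 y0 p q).card = p * q := by
  simp [gpRect]

theorem gp_mem_shell {n : ℕ} {x : ℤ × ℤ} : x ∈ gpShell n ↔ (n : ℤ) < gpNu x ∧ gpNu x ≤ 2 * n := by
  rw [gpShell, Finset.mem_sdiff, gp_mem_sq_iff, gp_mem_sq_iff, not_le]
  push_cast
  exact and_comm

theorem gp_card_sq (n : ℕ) : (sq n).card = (2 * n) ^ 2 := by
  have : ((n : ℤ) - -(n : ℤ)).toNat = 2 * n := by omega
  rw [sq, Finset.card_product, Int.card_Ico, this, pow_two]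

theorem gp_card_shell (n : ℕ) : (gpShell n).card = 12 * n ^ 2 := by
  have hsub : sq n ⊆ sq (2 * n) := by
    intro x hx
    rw [gp_mem_sq_iff] at hx ⊢
    push_cast
    omega
  rw [gpShell, Finset.card_sdiff_of_subset hsub, gp_card_sq, gp_card_sq]
  have : (2 * (2 * n)) ^ 2 = 12 * n ^ 2 + (2 * n) ^ 2 := by ring
  omega

/-! ## Leaf GP-K1: the energy identity and Caccioppoli -/

/-- **energy identity**: `(η_y F_y - η_x F_x)² = (F_y - F_x) (η_y² F_y - η_x² F_x) + F_x F_y (η_y - η_x)²` summed over the bonds; the first sum vanishes (test `η² F`). -/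
theorem gp_energy_id {D p : Finset (ℤ × ℤ)} {F : ℤ × ℤ → ℝ} (hF : gpHarm D p F) (η : ℤ × ℤ → ℝ) (hη : ∀ x ∈ p, η x = 0) :
    gpE D (fun x => η x * F x) = ∑ e ∈ domBonds D ∅, F e.1 * F e.snd * (η e.snd - η e.1) ^ 2 := by
  have h0 := hF (fun x => η x ^ 2 * F x) fun x hx => by simp [hη x hx]
  rw [gpE, ← add_zero (∑ e ∈ domBonds D ∅, F e.1 * F e.snd * (η e.snd - η e.1) ^ 2), ← h0, gpB, ← Finset.sum_add_distrib]
  exact Finset.sum_congr rfl fun e _ => by ring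

/-- **Caccioppoli**: if the increments of `η` are carried by the bonds inside `U` and bounded by `κ`, then `E(η (F - c)) ≤ 2 κ ∑_U (F - c)²`.
(`gp_energy_id` for `F - c`, `F_x F_y ≤ (F_x² + F_y²)/2`, `gp_bond_sum_le`.) -/
theorem gp_cacc {D p U : Finset (ℤ × ℤ)} {F : ℤ × ℤ → ℝ} (hF : gpHarm D p F) (η : ℤ × ℤ → ℝ) (hη : ∀ x ∈ p, η x = 0) (κ : ℝ) (hκ0 : 0 ≤ κ)
    (hκ : ∀ e ∈ domBonds D ∅, (η e.snd - η e.1) ^ 2 ≤ κ) (hs : ∀ e ∈ domBonds D ∅, η e.snd ≠ η e.1 → e.1 ∈ U ∧ e.snd ∈ U) (c : ℝ) :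
    gpE D (fun x => η x * (F x - c)) ≤ 2 * κ * ∑ x ∈ U, (F x - c) ^ 2 := by
  rw [gp_energy_id (gpHarm_sub_const hF c) η hη]
  have h1 : ∑ e ∈ domBonds D ∅, (F e.1 - c) * (F e.snd - c) * (η e.snd - η e.1) ^ 2
      = ∑ e ∈ (domBonds D ∅).filter (fun e => η e.snd ≠ η e.1), (F e.1 - c) * (F e.snd - c) * (η e.snd - η e.1) ^ 2 := by
    rw [Finset.sum_filter]
    refine Finset.sum_congr rfl fun e _ => ?_
    by_cases h : η e.snd = η e.1
    · rw [if_neg (not_not.2 h), h]; simp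
    · rw [if_pos h]
  rw [h1]
  have h2 : ∀ e ∈ (domBonds D ∅).filter (fun e => η e.snd ≠ η e.1),
      (F e.1 - c) * (F e.snd - c) * (η e.snd - η e.1) ^ 2 ≤ κ / 2 * ((F e.1 - c) ^ 2 + (F e.snd - c) ^ 2) := by
    intro e he
    have h3 := hκ e (Finset.mem_filter.1 he).1
    have h4 : (F e.1 - c) * (F e.snd - c) ≤ ((F e.1 - c) ^ 2 + (F e.snd - c) ^ 2) / 2 := by
      nlinarith [sq_nonneg ((F e.1 - c) - (F e.snd - c))]
    have h5 : 0 ≤ ((F e.1 - c) ^ 2 + (F e.snd - c) ^ 2) / 2 := by positivity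
    calc (F e.1 - c) * (F e.snd - c) * (η e.snd - η e.1) ^ 2
        ≤ ((F e.1 - c) ^ 2 + (F e.snd - c) ^ 2) / 2 * (η e.snd - η e.1) ^ 2 :=
          mul_le_mul_of_nonneg_right h4 (sq_nonneg _)
      _ ≤ ((F e.1 - c) ^ 2 + (F e.snd - c) ^ 2) / 2 * κ := mul_le_mul_of_nonneg_left h3 h5
      _ = _ := by ring
  refine (Finset.sum_le_sum h2).trans ?_
  have h6 : (domBonds D ∅).filter (fun e => η e.snd ≠ η e.1) ⊆ domBonds U ∅ := by
    intro e he
    rw [Finset.mem_filter] at he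
    exact gp_mem_bonds.2 (hs e he.1 he.2)
  refine (Finset.sum_le_sum_of_subset_of_nonneg h6 fun e _ _ => by positivity).trans ?_
  rw [← Finset.mul_sum]
  have h7 := gp_bond_sum_le U (fun x => (F x - c) ^ 2) fun x => sq_nonneg _
  calc κ / 2 * ∑ e ∈ domBonds U ∅, ((F e.1 - c) ^ 2 + (F e.snd - c) ^ 2)
      ≤ κ / 2 * (4 * ∑ x ∈ U, (F x - c) ^ 2) := mul_le_mul_of_nonneg_left h7 (by positivity)
    _ = _ := by ring

/-! ## Leaf GP-K2: the cutoff.   `gpNu` is `1`-Lipschitz along bonds; `t ↦ max 0 (min 1 t)` is `1`-Lipschitz; `1/(n-1) ≤ 2/n`. -/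

theorem gp_nu_bond (e : Bond) : |gpNu e.snd - gpNu e.1| ≤ 1 := by
  obtain ⟨⟨x, y⟩, d⟩ := e
  rw [abs_le]
  cases d with
  | true =>
    simp only [gpNu, Bond.snd, if_true]
    constructor <;> omega
  | false =>
    simp only [gpNu, Bond.snd, Bool.false_eq_true, if_false]
    constructor <;> omega

/-- the cutoff is `1` up to `ν = n + 1` -/
theorem gp_cut_one' {n : ℕ} (hn : 2 ≤ n) {x : ℤ × ℤ} (hx : gpNu x ≤ n + 1) : gpCut n x = 1 := by
  have hn' : (0 : ℝ) < (n : ℝ) - 1 := by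
    have : (2 : ℝ) ≤ n := by exact_mod_cast hn
    linarith
  have hx' : (gpNu x : ℝ) ≤ n + 1 := by exact_mod_cast hx
  have h1 : 1 ≤ (2 * (n : ℝ) - (gpNu x : ℝ)) / ((n : ℝ) - 1) := by
    rw [le_div_iff₀ hn']
    linarith
  rw [gpCut, min_eq_left h1, max_eq_right zero_le_one]

/-- the cutoff is `0` from `ν = 2 n` on -/
theorem gp_cut_zero' {n : ℕ} (hn : 2 ≤ n) {x : ℤ × ℤ} (hx : 2 * (n : ℤ) ≤ gpNu x) : gpCut n x = 0 := by
  have hn' : (0 : ℝ) < (n : ℝ) - 1 := by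
    have : (2 : ℝ) ≤ n := by exact_mod_cast hn
    linarith
  have hx' : 2 * (n : ℝ) ≤ (gpNu x : ℝ) := by exact_mod_cast hx
  have h1 : (2 * (n : ℝ) - (gpNu x : ℝ)) / ((n : ℝ) - 1) ≤ 0 :=
    div_nonpos_of_nonpos_of_nonneg (by linarith) hn'.le
  rw [gpCut, max_eq_left ((min_le_right _ _).trans h1)]

theorem gp_cut_one {n : ℕ} (hn : 2 ≤ n) {x : ℤ × ℤ} (hx : x ∈ sq n) : gpCut n x = 1 :=
  gp_cut_one' hn (by have := gp_mem_sq_iff.1 hx; omega)

theorem gp_cut_zero {n : ℕ} (hn : 2 ≤ n) {x : ℤ × ℤ} (hx : x ∉ sq (2 * n)) : gpCut n x = 0 := by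
  apply gp_cut_zero' hn
  rw [gp_mem_sq_iff] at hx
  push_cast at hx
  omega

theorem gp_cut_grad {n : ℕ} (hn : 2 ≤ n) (e : Bond) : (gpCut n e.snd - gpCut n e.1) ^ 2 ≤ 4 / (n : ℝ) ^ 2 := by
  have hn2 : (2 : ℝ) ≤ n := by exact_mod_cast hn
  have hn' : (0 : ℝ) < (n : ℝ) - 1 := by linarith
  have h1 : |gpCut n e.snd - gpCut n e.1|
      ≤ |(2 * (n : ℝ) - (gpNu e.snd : ℝ)) / ((n : ℝ) - 1) - (2 * (n : ℝ) - (gpNu e.1 : ℝ)) / ((n : ℝ) - 1)| := by
    unfold gpCut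
    refine (abs_max_sub_max_le_max _ _ _ _).trans ?_
    rw [sub_self, abs_zero]
    refine max_le (abs_nonneg _) ((abs_min_sub_min_le_max _ _ _ _).trans ?_)
    rw [sub_self, abs_zero]
    exact max_le (abs_nonneg _) le_rfl
  have h2 : (2 * (n : ℝ) - (gpNu e.snd : ℝ)) / ((n : ℝ) - 1) - (2 * (n : ℝ) - (gpNu e.1 : ℝ)) / ((n : ℝ) - 1)
      = -(((gpNu e.snd - gpNu e.1 : ℤ) : ℝ)) / ((n : ℝ) - 1) := by
    push_cast
    ring
  have h3 : |((gpNu e.snd - gpNu e.1 : ℤ) : ℝ)| ≤ 1 := by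
    have := gp_nu_bond e
    rw [← Int.cast_abs]
    exact_mod_cast this
  have h4 : |gpCut n e.snd - gpCut n e.1| ≤ 2 / (n : ℝ) := by
    refine h1.trans ?_
    rw [h2, abs_div, abs_neg, abs_of_pos hn']
    calc |((gpNu e.snd - gpNu e.1 : ℤ) : ℝ)| / ((n : ℝ) - 1) ≤ 1 / ((n : ℝ) - 1) :=
          div_le_div_of_nonneg_right h3 hn'.le
      _ ≤ 2 / (n : ℝ) := by
          rw [div_le_div_iff₀ hn' (by linarith)]
          linarith
  calc (gpCut n e.snd - gpCut n e.1) ^ 2 = |gpCut n e.snd - gpCut n e.1| ^ 2 := (sq_abs _).symm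
    _ ≤ (2 / (n : ℝ)) ^ 2 := pow_le_pow_left₀ (abs_nonneg _) h4 2
    _ = 4 / (n : ℝ) ^ 2 := by ring

/-- if one end has `ν ≤ n` both have `ν ≤ n+1` (cut `= 1`); if one end has `ν ≥ 2n+1` both have `ν ≥ 2n` (cut `= 0`) -/
theorem gp_cut_supp {n : ℕ} (hn : 2 ≤ n) (e : Bond) (he : gpCut n e.snd ≠ gpCut n e.1) : e.1 ∈ gpShell n ∧ e.snd ∈ gpShell n := by
  have h1 := abs_le.1 (gp_nu_bond e)
  rw [gp_mem_shell, gp_mem_shell]
  by_contra hcon
  apply he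
  by_cases ha : gpNu e.1 ≤ n ∨ gpNu e.snd ≤ n
  · rw [gp_cut_one' hn (by omega), gp_cut_one' hn (by omega)]
  · rw [gp_cut_zero' hn (by omega), gp_cut_zero' hn (by omega)]

/-! ## Leaf GP-K3: Poincare on a rectangle, constant `m (m - 1)` (zero for a single site).
`∑_R (F - avg)² = (2 |R|)⁻¹ ∑_{x,y ∈ R} (F x - F y)²`;  `(F x - F y)² ≤ 2 (F (x₁,x₂) - F (y₁,x₂))² + 2 (F (y₁,x₂) - F (y₁,y₂))²`;  `(g i - g j)² ≤ (p - 1) ∑_t (g (t+1) - g t)²` (Cauchy-Schwarz);  count.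
Or: tensorise the one-dimensional inequality (rows, then row means). -/
theorem gp_rect_poincare (x0 y0 : ℤ) (p q m : ℕ) (hp : p ≤ m) (hq : q ≤ m) (F : ℤ × ℤ → ℝ) :
    ∑ x ∈ gpRect x0 y0 p q, (F x - gpAvg (gpRect x0 y0 p q) F) ^ 2 ≤ (m : ℝ) * ((m : ℝ) - 1) * gpE (gpRect x0 y0 p q) F := by
  have h0 : ∑ x ∈ gpRect x0 y0 p q, (F x - gpAvg (gpRect x0 y0 p q) F) = 0 := by
    rcases Nat.eq_zero_or_pos (gpRect x0 y0 p q).card with hc | hc
    · rw [Finset.card_eq_zero.1 hc]; simp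
    · have hc' : ((gpRect x0 y0 p q).card : ℝ) ≠ 0 := by exact_mod_cast hc.ne'
      rw [Finset.sum_sub_distrib, Finset.sum_const, nsmul_eq_mul, gpAvg, mul_div_cancel₀ _ hc', sub_self]
  have h1 := Pot.geo_poincare_rect (p₁ := x0) (q₁ := x0 + p) (p₂ := y0) (q₂ := y0 + q) (L := m)
    (by have : (p : ℤ) ≤ m := by exact_mod_cast hp
        omega)
    (by have : (q : ℤ) ≤ m := by exact_mod_cast hq
        omega)
    (fun x => F x - gpAvg (gpRect x0 y0 p q) F) h0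
  rw [Pot.geo_en_sub_const] at h1
  exact h1

/-! ## Leaf GP-K4: Poincare on the shell.
`gpShell n = T ∪ R ∪ L ∪ B`, `T = gpRect (-2n) n (4n) n`, `B = gpRect (-2n) (-2n) (4n) n`, `L = gpRect (-2n) (-2n) n (4n)`, `R = gpRect n (-2n) n (4n)`; the corner squares `n × n` are common parts.
`c = avg_T`; `gp_glue` for `(T,R)`, `(T,L)`, `(R,B)` with `|S₂|/|Q| = 4`; `gp_rect_poincare` with `m = 4n`; `gp_var_avg_le`.   `CP = 2880` is enough. -/
theorem gp_sum_union_le (A B : Finset (ℤ × ℤ)) (g : ℤ × ℤ → ℝ) (hg : ∀ x, 0 ≤ g x) :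
    ∑ x ∈ A ∪ B, g x ≤ ∑ x ∈ A, g x + ∑ x ∈ B, g x := by
  have h1 := Finset.sum_union_inter (s₁ := A) (s₂ := B) (f := g)
  have h2 : 0 ≤ ∑ x ∈ A ∩ B, g x := Finset.sum_nonneg fun x _ => hg x
  linarith

theorem gp_rect_var_le (m : ℕ) (S : Finset (ℤ × ℤ)) (x0 y0 : ℤ) (p q : ℕ) (hp : p ≤ m) (hq : q ≤ m)
    (hsub : gpRect x0 y0 p q ⊆ S) (F : ℤ × ℤ → ℝ) :
    ∑ x ∈ gpRect x0 y0 p q, (F x - gpAvg (gpRect x0 y0 p q) F) ^ 2 ≤ (m : ℝ) ^ 2 * gpE S F := by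
  have h1 := gp_rect_poincare x0 y0 p q m hp hq F
  have h2 := gpE_mono hsub F
  have h3 := gpE_nonneg (gpRect x0 y0 p q) F
  have hm : (0 : ℝ) ≤ m := Nat.cast_nonneg m
  calc _ ≤ _ := h1
    _ ≤ (m : ℝ) ^ 2 * gpE (gpRect x0 y0 p q) F := by
        apply mul_le_mul_of_nonneg_right _ h3
        nlinarith
    _ ≤ _ := mul_le_mul_of_nonneg_left h2 (by positivity)

theorem gp_mem_shell_aux {n : ℕ} {x : ℤ × ℤ} : x ∈ gpShell n ↔
    ((-(2 * (n : ℤ)) ≤ x.1 ∧ x.1 < 2 * n) ∧ (-(2 * (n : ℤ)) ≤ x.2 ∧ x.2 < 2 * n)) ∧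
      ¬ ((-(n : ℤ) ≤ x.1 ∧ x.1 < n) ∧ (-(n : ℤ) ≤ x.2 ∧ x.2 < n)) := by
  rw [gpShell, Finset.mem_sdiff, mem_sq, mem_sq]
  push_cast
  rfl

theorem gp_shell_poincare : ∃ CP : ℝ, 0 < CP ∧ GpPoinc CP := by
  refine ⟨2880, by norm_num, fun n hn F => ?_⟩
  have hn0 : (0 : ℝ) < n := by exact_mod_cast hn
  obtain ⟨T, hT⟩ : ∃ T, T = gpRect (-(2 * (n : ℤ))) n (4 * n) n := ⟨_, rfl⟩
  obtain ⟨B, hB⟩ : ∃ B, B = gpRect (-(2 * (n : ℤ))) (-(2 * (n : ℤ))) (4 * n) n := ⟨_, rfl⟩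
  obtain ⟨L, hL⟩ : ∃ L, L = gpRect (-(2 * (n : ℤ))) (-(2 * (n : ℤ))) n (4 * n) := ⟨_, rfl⟩
  obtain ⟨R, hR⟩ : ∃ R, R = gpRect (n : ℤ) (-(2 * (n : ℤ))) n (4 * n) := ⟨_, rfl⟩
  have sT : T ⊆ gpShell n := fun x hx => by
    rw [hT, gp_mem_rect] at hx; rw [gp_mem_shell_aux]; push_cast at hx; omega
  have sB : B ⊆ gpShell n := fun x hx => by
    rw [hB, gp_mem_rect] at hx; rw [gp_mem_shell_aux]; push_cast at hx; omega
  have sL : L ⊆ gpShell n := fun x hx => by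
    rw [hL, gp_mem_rect] at hx; rw [gp_mem_shell_aux]; push_cast at hx; omega
  have sR : R ⊆ gpShell n := fun x hx => by
    rw [hR, gp_mem_rect] at hx; rw [gp_mem_shell_aux]; push_cast at hx; omega
  have hcov : gpShell n ⊆ T ∪ R ∪ L ∪ B := fun x hx => by
    rw [gp_mem_shell_aux] at hx
    simp only [Finset.mem_union, hT, hR, hL, hB, gp_mem_rect]
    push_cast
    omega
  obtain ⟨P, hP⟩ : ∃ P : ℝ, P = 16 * (n : ℝ) ^ 2 * gpE (gpShell n) F := ⟨_, rfl⟩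
  have e16 : (((4 * n : ℕ) : ℝ)) ^ 2 = 16 * (n : ℝ) ^ 2 := by push_cast; ring
  have vT : ∑ x ∈ T, (F x - gpAvg T F) ^ 2 ≤ P := by
    have := gp_rect_var_le (4 * n) (gpShell n) (-(2 * (n : ℤ))) n (4 * n) n le_rfl (by omega) (hT ▸ sT) F
    rw [e16, ← hT, ← hP] at this; exact this
  have vB : ∑ x ∈ B, (F x - gpAvg B F) ^ 2 ≤ P := by
    have := gp_rect_var_le (4 * n) (gpShell n) (-(2 * (n : ℤ))) (-(2 * (n : ℤ))) (4 * n) n le_rfl (by omega) (hB ▸ sB) F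
    rw [e16, ← hB, ← hP] at this; exact this
  have vL : ∑ x ∈ L, (F x - gpAvg L F) ^ 2 ≤ P := by
    have := gp_rect_var_le (4 * n) (gpShell n) (-(2 * (n : ℤ))) (-(2 * (n : ℤ))) n (4 * n) (by omega) le_rfl (hL ▸ sL) F
    rw [e16, ← hL, ← hP] at this; exact this
  have vR : ∑ x ∈ R, (F x - gpAvg R F) ^ 2 ≤ P := by
    have := gp_rect_var_le (4 * n) (gpShell n) (n : ℤ) (-(2 * (n : ℤ))) n (4 * n) (by omega) le_rfl (hR ▸ sR) F
    rw [e16, ← hR, ← hP] at this; exact this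
  obtain ⟨c, hc⟩ : ∃ c, c = gpAvg T F := ⟨_, rfl⟩
  rw [← hc] at vT
  have hne : ∀ x0 y0 : ℤ, (gpRect x0 y0 n n).Nonempty := fun x0 y0 =>
    ⟨(x0, y0), by rw [gp_mem_rect]; simp only []; omega⟩
  have hratio : ∀ (S₂ : Finset (ℤ × ℤ)) (x0 y0 : ℤ), S₂.card = 4 * n * n →
      (S₂.card : ℝ) / ((gpRect x0 y0 n n).card : ℝ) = 4 := fun S₂ x0 y0 h => by
    rw [h, gp_card_rect]; push_cast; field_simp
  have cR : R.card = 4 * n * n := by rw [hR, gp_card_rect]; ring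
  have cL : L.card = 4 * n * n := by rw [hL, gp_card_rect]; ring
  have cB : B.card = 4 * n * n := by rw [hB, gp_card_rect]
  have gR : ∑ x ∈ R, (F x - c) ^ 2 ≤ 17 * P := by
    have := gp_glue (Q := gpRect (n : ℤ) n n n) (S₁ := T) (S₂ := R)
      (fun x hx => by rw [gp_mem_rect] at hx; rw [hT, gp_mem_rect]; push_cast; omega)
      (fun x hx => by rw [gp_mem_rect] at hx; rw [hR, gp_mem_rect]; push_cast; omega) (hne _ _) F c
    rw [hratio R _ _ cR] at this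
    linarith
  have gL : ∑ x ∈ L, (F x - c) ^ 2 ≤ 17 * P := by
    have := gp_glue (Q := gpRect (-(2 * (n : ℤ))) n n n) (S₁ := T) (S₂ := L)
      (fun x hx => by rw [gp_mem_rect] at hx; rw [hT, gp_mem_rect]; push_cast; omega)
      (fun x hx => by rw [gp_mem_rect] at hx; rw [hL, gp_mem_rect]; push_cast; omega) (hne _ _) F c
    rw [hratio L _ _ cL] at this
    linarith
  have gB : ∑ x ∈ B, (F x - c) ^ 2 ≤ 145 * P := by
    have := gp_glue (Q := gpRect (n : ℤ) (-(2 * (n : ℤ))) n n) (S₁ := R) (S₂ := B)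
      (fun x hx => by rw [gp_mem_rect] at hx; rw [hR, gp_mem_rect]; push_cast; omega)
      (fun x hx => by rw [gp_mem_rect] at hx; rw [hB, gp_mem_rect]; push_cast; omega) (hne _ _) F c
    rw [hratio B _ _ cB] at this
    linarith
  have hnn : ∀ x, 0 ≤ (F x - c) ^ 2 := fun x => sq_nonneg _
  have h1 := gp_var_avg_le (gpShell n) F c
  have h2 : ∑ x ∈ gpShell n, (F x - c) ^ 2 ≤ ∑ x ∈ T ∪ R ∪ L ∪ B, (F x - c) ^ 2 :=
    Finset.sum_le_sum_of_subset_of_nonneg hcov fun x _ _ => hnn x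
  have h3 := gp_sum_union_le (T ∪ R ∪ L) B _ hnn
  have h4 := gp_sum_union_le (T ∪ R) L _ hnn
  have h5 := gp_sum_union_le T R _ hnn
  have e : 2880 * (n : ℝ) ^ 2 * gpE (gpShell n) F = 180 * P := by rw [hP]; ring
  rw [e]
  linarith

/-! ## Leaf GP-K5: means of consecutive shells.
`R = gpRect n 0 (3n) n ⊆ gpShell n ∪ gpShell (2n)`, `Q₁ = gpRect n 0 n n ⊆ gpShell n ∩ R`, `Q₂ = gpRect (2n) 0 (2n) n ⊆ gpShell (2n) ∩ R`;
four applications of `gp_avg_sub_sq_le` (`avg_{shell n} ~ avg_{Q₁} ~ avg_R ~ avg_{Q₂} ~ avg_{shell 2n}`), `GpPoinc`, `gp_rect_poincare`, `gpE_mono`. -/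
theorem gp_four_sq (a b c d : ℝ) : (a + b + c + d) ^ 2 ≤ 4 * (a ^ 2 + b ^ 2 + c ^ 2 + d ^ 2) := by
  nlinarith [sq_nonneg (a - b), sq_nonneg (a - c), sq_nonneg (a - d), sq_nonneg (b - c), sq_nonneg (b - d),
    sq_nonneg (c - d)]

theorem gp_shell_mean {CP : ℝ} (hCP : 0 < CP) (hP : GpPoinc CP) : ∃ CM : ℝ, 0 < CM ∧ GpMean CM := by
  refine ⟨12 * CP + 72, by positivity, fun n hn F => ?_⟩
  have hn0 : (0 : ℝ) < n := by exact_mod_cast hn
  obtain ⟨U, hU⟩ : ∃ U, U = gpShell n ∪ gpShell (2 * n) := ⟨_, rfl⟩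
  rw [← hU]
  obtain ⟨E, hE⟩ : ∃ E, E = gpE U F := ⟨_, rfl⟩
  have hE0 : 0 ≤ E := hE ▸ gpE_nonneg U F
  obtain ⟨R, hR⟩ : ∃ R, R = gpRect (n : ℤ) 0 (3 * n) n := ⟨_, rfl⟩
  obtain ⟨Q₁, hQ₁⟩ : ∃ Q, Q = gpRect (n : ℤ) 0 n n := ⟨_, rfl⟩
  obtain ⟨Q₂, hQ₂⟩ : ∃ Q, Q = gpRect (2 * (n : ℤ)) 0 (2 * n) n := ⟨_, rfl⟩
  have sR : R ⊆ U := fun x hx => by
    rw [hR, gp_mem_rect] at hx
    rw [hU, Finset.mem_union, gp_mem_shell_aux, gp_mem_shell_aux]
    push_cast at hx ⊢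
    omega
  have s1 : Q₁ ⊆ gpShell n := fun x hx => by
    rw [hQ₁, gp_mem_rect] at hx; rw [gp_mem_shell_aux]; omega
  have s1R : Q₁ ⊆ R := fun x hx => by
    rw [hQ₁, gp_mem_rect] at hx; rw [hR, gp_mem_rect]; push_cast; omega
  have s2 : Q₂ ⊆ gpShell (2 * n) := fun x hx => by
    rw [hQ₂, gp_mem_rect] at hx; rw [gp_mem_shell_aux]; push_cast at hx ⊢; omega
  have s2R : Q₂ ⊆ R := fun x hx => by
    rw [hQ₂, gp_mem_rect] at hx; rw [hR, gp_mem_rect]; push_cast at hx ⊢; omega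
  have ne1 : Q₁.Nonempty := ⟨((n : ℤ), 0), by rw [hQ₁, gp_mem_rect]; simp only []; omega⟩
  have ne2 : Q₂.Nonempty := ⟨(2 * (n : ℤ), 0), by
    rw [hQ₂, gp_mem_rect]; simp only []; push_cast; exact ⟨⟨le_rfl, by omega⟩, trivial, by omega⟩⟩
  have c1 : (Q₁.card : ℝ) = (n : ℝ) ^ 2 := by rw [hQ₁, gp_card_rect]; push_cast; ring
  have c2 : (Q₂.card : ℝ) = 2 * (n : ℝ) ^ 2 := by rw [hQ₂, gp_card_rect]; push_cast; ring
  have vR : ∑ x ∈ R, (F x - gpAvg R F) ^ 2 ≤ 9 * (n : ℝ) ^ 2 * E := by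
    have := gp_rect_var_le (3 * n) U (n : ℤ) 0 (3 * n) n le_rfl (by omega) (hR ▸ sR) F
    rw [← hR, ← hE] at this
    have e : (((3 * n : ℕ) : ℝ)) ^ 2 = 9 * (n : ℝ) ^ 2 := by push_cast; ring
    rwa [e] at this
  have v1 : ∑ x ∈ gpShell n, (F x - gpAvg (gpShell n) F) ^ 2 ≤ CP * (n : ℝ) ^ 2 * E := by
    refine (hP n hn F).trans ?_
    rw [hE]
    exact mul_le_mul_of_nonneg_left (gpE_mono (hU ▸ Finset.subset_union_left) F) (by positivity)
  have v2 : ∑ x ∈ gpShell (2 * n), (F x - gpAvg (gpShell (2 * n)) F) ^ 2 ≤ CP * (4 * (n : ℝ) ^ 2) * E := by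
    refine (hP (2 * n) (by omega) F).trans ?_
    rw [hE]
    have e : (((2 * n : ℕ) : ℝ)) ^ 2 = 4 * (n : ℝ) ^ 2 := by push_cast; ring
    rw [e]
    exact mul_le_mul_of_nonneg_left (gpE_mono (hU ▸ Finset.subset_union_right) F) (by positivity)
  have b1 : (gpAvg Q₁ F - gpAvg (gpShell n) F) ^ 2 ≤ CP * E := by
    refine (gp_avg_sub_sq_le s1 ne1 F _).trans ?_
    rw [c1, div_le_iff₀ (by positivity)]
    linarith
  have b2 : (gpAvg Q₁ F - gpAvg R F) ^ 2 ≤ 9 * E := by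
    refine (gp_avg_sub_sq_le s1R ne1 F _).trans ?_
    rw [c1, div_le_iff₀ (by positivity)]
    linarith
  have b3 : (gpAvg Q₂ F - gpAvg R F) ^ 2 ≤ 9 * E := by
    refine (gp_avg_sub_sq_le s2R ne2 F _).trans ?_
    rw [c2, div_le_iff₀ (by positivity)]
    have : 0 ≤ (n : ℝ) ^ 2 * E := by positivity
    linarith
  have b4 : (gpAvg Q₂ F - gpAvg (gpShell (2 * n)) F) ^ 2 ≤ 2 * CP * E := by
    refine (gp_avg_sub_sq_le s2 ne2 F _).trans ?_
    rw [c2, div_le_iff₀ (by positivity)]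
    linarith
  have h := gp_four_sq (-(gpAvg Q₁ F - gpAvg (gpShell n) F)) (gpAvg Q₁ F - gpAvg R F) (-(gpAvg Q₂ F - gpAvg R F))
    (gpAvg Q₂ F - gpAvg (gpShell (2 * n)) F)
  have e : -(gpAvg Q₁ F - gpAvg (gpShell n) F) + (gpAvg Q₁ F - gpAvg R F) + -(gpAvg Q₂ F - gpAvg R F)
      + (gpAvg Q₂ F - gpAvg (gpShell (2 * n)) F) = gpAvg (gpShell n) F - gpAvg (gpShell (2 * n)) F := by ring
  rw [e, neg_sq, neg_sq] at h
  rw [← hE]
  linarith

/-! ## Leaf GP-K6: resolution of a rectangle (induction on `k`: split into four rectangles with sides `p/2, (p+1)/2`, `q/2, (q+1)/2`; base case `𝒞 = {R}`, `gp_rect_poincare`; `gpE_add_le`).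
`gpHalf^[k] m = ⌈m / 2^k⌉`. -/

/-- `⌈m/2⌉` -/
def gpHalf (m : ℕ) : ℕ := (m + 1) / 2

theorem gpHalf_eqns_cite : True := by
  have := @gpHalf.eq_1
  trivial

theorem gp_half_iter_ge (k m : ℕ) : m ≤ gpHalf^[k] m * 2 ^ k := by
  induction k with
  | zero => simp
  | succ k ih =>
    rw [Function.iterate_succ_apply', pow_succ]
    have h1 : gpHalf^[k] m ≤ gpHalf (gpHalf^[k] m) * 2 := by unfold gpHalf; omega
    calc m ≤ gpHalf^[k] m * 2 ^ k := ih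
      _ ≤ gpHalf (gpHalf^[k] m) * 2 * 2 ^ k := Nat.mul_le_mul_right _ h1
      _ = _ := by ring

theorem gp_half_iter_sub (k m : ℕ) : (gpHalf^[k] m - 1) * 2 ^ k ≤ m - 1 := by
  induction k with
  | zero => simp
  | succ k ih =>
    rw [Function.iterate_succ_apply', pow_succ]
    have h1 : (gpHalf (gpHalf^[k] m) - 1) * 2 ≤ gpHalf^[k] m - 1 := by unfold gpHalf; omega
    calc (gpHalf (gpHalf^[k] m) - 1) * (2 ^ k * 2) = (gpHalf (gpHalf^[k] m) - 1) * 2 * 2 ^ k := by ring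
      _ ≤ (gpHalf^[k] m - 1) * 2 ^ k := Nat.mul_le_mul_right _ h1
      _ ≤ m - 1 := ih

theorem gp_rect_res (k : ℕ) : ∀ (x0 y0 : ℤ) (p q m : ℕ), p ≤ m → q ≤ m →
    ∃ 𝒞 : Finset (Finset (ℤ × ℤ)), 𝒞.card ≤ 4 ^ k ∧ (∀ C ∈ 𝒞, C ⊆ gpRect x0 y0 p q) ∧
      ∀ F : ℤ × ℤ → ℝ, (∀ C ∈ 𝒞, ∑ x ∈ C, F x = 0) →
        ∑ x ∈ gpRect x0 y0 p q, F x ^ 2 ≤ ((gpHalf^[k] m : ℕ) : ℝ) * (((gpHalf^[k] m : ℕ) : ℝ) - 1) * gpE (gpRect x0 y0 p q) F := by
  intro x0 y0 p q m hp hq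
  have hge := gp_half_iter_ge k m
  set L := gpHalf^[k] m with hL
  rcases Nat.eq_zero_or_pos L with h0 | hpos
  · -- `m = 0`: the rectangle is empty
    have hm : m = 0 := by rw [h0] at hge; omega
    have hp0 : p = 0 := by omega
    refine ⟨∅, by simp, by simp, fun F _ => ?_⟩
    have : gpRect x0 y0 p q = ∅ := by rw [gpRect, hp0]; simp
    rw [this, h0]
    simp
  set B : Fin (2 ^ k) × Fin (2 ^ k) → Finset (ℤ × ℤ) := fun j =>
    Pot.geoRect (x0 + (j.1.1 : ℤ) * L) (min (x0 + p) (x0 + ((j.1.1 : ℤ) + 1) * L))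
      (y0 + (j.2.1 : ℤ) * L) (min (y0 + q) (y0 + ((j.2.1 : ℤ) + 1) * L)) with hB
  refine ⟨Finset.univ.image B, ?_, ?_, ?_⟩
  · refine Finset.card_image_le.trans (le_of_eq ?_)
    rw [Finset.card_univ, Fintype.card_prod, Fintype.card_fin, ← mul_pow]
    norm_num
  · intro C hC x hx
    obtain ⟨j, -, rfl⟩ := Finset.mem_image.1 hC
    rw [hB, Pot.geo_mem_rect] at hx
    rw [gp_mem_rect]
    have a1 : (0 : ℤ) ≤ (j.1.1 : ℤ) * L := by positivity
    have a2 : (0 : ℤ) ≤ (j.2.1 : ℤ) * L := by positivity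
    have b1 := lt_min_iff.1 hx.1.2
    have b2 := lt_min_iff.1 hx.2.2
    exact ⟨⟨by linarith [hx.1.1], b1.1⟩, ⟨by linarith [hx.2.1], b2.1⟩⟩
  · intro F hF
    have hz : (m : ℤ) ≤ (L : ℤ) * ((2 ^ k : ℕ) : ℤ) := by exact_mod_cast hge
    have hpz : (p : ℤ) ≤ m := by exact_mod_cast hp
    have hqz : (q : ℤ) ≤ m := by exact_mod_cast hq
    exact Pot.geo_res_aux (p₁ := x0) (q₁ := x0 + p) (p₂ := y0) (q₂ := y0 + q) hpos (by omega) (by omega) F
      fun j => hF (B j) (Finset.mem_image_of_mem B (Finset.mem_univ j))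

/-- `s (s - 1) ≤ 2 m² / 4^k` for `s = ⌈m/2^k⌉`:  `s - 1 ≤ (m - 1)/2^k` by induction; if `s ≥ 2` then `s ≤ 2 (s - 1)`. -/
theorem gp_half_iter_le (k m : ℕ) : ((gpHalf^[k] m : ℕ) : ℝ) * (((gpHalf^[k] m : ℕ) : ℝ) - 1) ≤ 2 * (m : ℝ) ^ 2 / 4 ^ k := by
  have hsub := gp_half_iter_sub k m
  set s := gpHalf^[k] m with hs
  have hR : (0 : ℝ) ≤ 2 * (m : ℝ) ^ 2 / 4 ^ k := by positivity
  rcases Nat.lt_or_ge s 2 with h | h
  · have h0 : (0 : ℝ) ≤ (s : ℝ) := Nat.cast_nonneg _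
    have h1 : (s : ℝ) ≤ 1 := by exact_mod_cast (by omega : s ≤ 1)
    have : (s : ℝ) * ((s : ℝ) - 1) ≤ 0 := mul_nonpos_of_nonneg_of_nonpos h0 (by linarith)
    linarith
  · have h2 : (2 : ℝ) ≤ (s : ℝ) := by exact_mod_cast h
    have h3 : ((s : ℝ) - 1) * 2 ^ k ≤ (m : ℝ) := by
      have : (s - 1) * 2 ^ k ≤ m := hsub.trans (Nat.sub_le _ _)
      have h4 : (((s - 1) * 2 ^ k : ℕ) : ℝ) ≤ (m : ℝ) := by exact_mod_cast this
      rw [Nat.cast_mul, Nat.cast_sub (by omega), Nat.cast_pow] at h4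
      simpa using h4
    have e4 : (4 : ℝ) ^ k = 2 ^ k * 2 ^ k := by rw [← mul_pow]; norm_num
    rw [le_div_iff₀ (by positivity), e4]
    have h5 : (0 : ℝ) ≤ ((s : ℝ) - 1) * 2 ^ k := by
      have : (0 : ℝ) < 2 ^ k := by positivity
      exact mul_nonneg (by linarith) this.le
    have h6 : (((s : ℝ) - 1) * 2 ^ k) ^ 2 ≤ (m : ℝ) ^ 2 := pow_le_pow_left₀ h5 h3 2
    have h7 : (s : ℝ) * ((s : ℝ) - 1) ≤ 2 * ((s : ℝ) - 1) ^ 2 := by nlinarith
    have h8 : (0 : ℝ) ≤ 2 ^ k * 2 ^ k := by positivity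
    calc (s : ℝ) * ((s : ℝ) - 1) * (2 ^ k * 2 ^ k) ≤ 2 * ((s : ℝ) - 1) ^ 2 * (2 ^ k * 2 ^ k) :=
          mul_le_mul_of_nonneg_right h7 h8
      _ = 2 * (((s : ℝ) - 1) * 2 ^ k) ^ 2 := by ring
      _ ≤ 2 * (m : ℝ) ^ 2 := by linarith

/-! ## Leaf GP-K7: resolution of the shell.   `gpShell n` is the DISJOINT union of `gpRect (-2n) n (4n) n`, `gpRect (-2n) (-2n) (4n) n`, `gpRect (-2n) (-n) n (2n)`, `gpRect n (-n) n (2n)`; `gp_rect_res` with `m = 4n`; `CR = 32`. -/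
/-- gluing resolution bounds over disjoint regions -/
theorem gp_res_union {S U : Finset (ℤ × ℤ)} (hd : Disjoint S U) (F : ℤ × ℤ → ℝ) {c : ℝ} (hc : 0 ≤ c)
    (hS : ∑ x ∈ S, F x ^ 2 ≤ c * gpE S F) (hU : ∑ x ∈ U, F x ^ 2 ≤ c * gpE U F) :
    ∑ x ∈ S ∪ U, F x ^ 2 ≤ c * gpE (S ∪ U) F := by
  rw [Finset.sum_union hd]
  have h := gpE_add_le Finset.subset_union_left Finset.subset_union_right hd F
  nlinarith

/-- the shell is the union of four rectangles -/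
theorem gp_shell_eq (n : ℕ) : gpShell n = ((gpRect (-2 * n) n (4 * n) n ∪ gpRect (-2 * n) (-2 * n) (4 * n) n)
    ∪ gpRect (-2 * n) (-n) n (2 * n)) ∪ gpRect n (-n) n (2 * n) := by
  ext x
  simp only [gpShell, Finset.mem_sdiff, mem_sq, Finset.mem_union, gp_mem_rect]
  push_cast
  omega

theorem gp_shell_res : ∃ CR : ℝ, 0 < CR ∧ GpRes CR := by
  refine ⟨32, by norm_num, fun n hn k => ?_⟩
  obtain ⟨C1, a1, b1, c1⟩ := gp_rect_res k (-2 * n) n (4 * n) n (4 * n) le_rfl (by omega)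
  obtain ⟨C2, a2, b2, c2⟩ := gp_rect_res k (-2 * n) (-2 * n) (4 * n) n (4 * n) le_rfl (by omega)
  obtain ⟨C3, a3, b3, c3⟩ := gp_rect_res k (-2 * n) (-n) n (2 * n) (4 * n) (by omega) (by omega)
  obtain ⟨C4, a4, b4, c4⟩ := gp_rect_res k n (-n) n (2 * n) (4 * n) (by omega) (by omega)
  have hsub1 : gpRect (-2 * n) n (4 * n) n ⊆ gpShell n := by
    rw [gp_shell_eq]
    exact (Finset.subset_union_left.trans Finset.subset_union_left).trans Finset.subset_union_left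
  have hsub2 : gpRect (-2 * n) (-2 * n) (4 * n) n ⊆ gpShell n := by
    rw [gp_shell_eq]
    exact (Finset.subset_union_right.trans Finset.subset_union_left).trans Finset.subset_union_left
  have hsub3 : gpRect (-2 * n) (-n) n (2 * n) ⊆ gpShell n := by
    rw [gp_shell_eq]
    exact Finset.subset_union_right.trans Finset.subset_union_left
  have hsub4 : gpRect n (-n) n (2 * n) ⊆ gpShell n := by
    rw [gp_shell_eq]
    exact Finset.subset_union_right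
  refine ⟨((C1 ∪ C2) ∪ C3) ∪ C4, ?_, ?_, ?_⟩
  · have h1 := Finset.card_union_le ((C1 ∪ C2) ∪ C3) C4
    have h2 := Finset.card_union_le (C1 ∪ C2) C3
    have h3 := Finset.card_union_le C1 C2
    omega
  · intro C hC
    simp only [Finset.mem_union] at hC
    rcases hC with ((hC | hC) | hC) | hC
    · exact (b1 C hC).trans hsub1
    · exact (b2 C hC).trans hsub2
    · exact (b3 C hC).trans hsub3
    · exact (b4 C hC).trans hsub4
  · intro F hF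
    have hc : ((gpHalf^[k] (4 * n) : ℕ) : ℝ) * (((gpHalf^[k] (4 * n) : ℕ) : ℝ) - 1) ≤ 32 * (n : ℝ) ^ 2 / 4 ^ k := by
      refine (gp_half_iter_le k (4 * n)).trans (le_of_eq ?_)
      push_cast
      ring
    have hc0 : (0 : ℝ) ≤ 32 * (n : ℝ) ^ 2 / 4 ^ k := by positivity
    have d1 := (c1 F fun C hC => hF C (by simp [hC])).trans (mul_le_mul_of_nonneg_right hc (gpE_nonneg _ F))
    have d2 := (c2 F fun C hC => hF C (by simp [hC])).trans (mul_le_mul_of_nonneg_right hc (gpE_nonneg _ F))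
    have d3 := (c3 F fun C hC => hF C (by simp [hC])).trans (mul_le_mul_of_nonneg_right hc (gpE_nonneg _ F))
    have d4 := (c4 F fun C hC => hF C (by simp [hC])).trans (mul_le_mul_of_nonneg_right hc (gpE_nonneg _ F))
    have e1 : Disjoint (gpRect (-2 * n) n (4 * n) n) (gpRect (-2 * n) (-2 * n) (4 * n) n) := by
      rw [Finset.disjoint_left]
      intro x h1 h2
      rw [gp_mem_rect] at h1 h2
      omega
    have e2 : Disjoint (gpRect (-2 * n) n (4 * n) n ∪ gpRect (-2 * n) (-2 * n) (4 * n) n) (gpRect (-2 * n) (-n) n (2 * n)) := by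
      rw [Finset.disjoint_left]
      intro x h1 h2
      rw [Finset.mem_union, gp_mem_rect, gp_mem_rect] at h1
      rw [gp_mem_rect] at h2
      push_cast at h1 h2
      omega
    have e3 : Disjoint ((gpRect (-2 * n) n (4 * n) n ∪ gpRect (-2 * n) (-2 * n) (4 * n) n) ∪ gpRect (-2 * n) (-n) n (2 * n))
        (gpRect n (-n) n (2 * n)) := by
      rw [Finset.disjoint_left]
      intro x h1 h2
      rw [Finset.mem_union, Finset.mem_union, gp_mem_rect, gp_mem_rect, gp_mem_rect] at h1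
      rw [gp_mem_rect] at h2
      push_cast at h1 h2
      omega
    rw [gp_shell_eq]
    exact gp_res_union e3 F hc0 (gp_res_union e2 F hc0 (gp_res_union e1 F hc0 d1 d2) d3) d4


/-!
# ROW 285, S46 post POT-S46-GPIN, file 1/2, section CORE: the CORE on a chain of dyadic shells (architect helper145).   Paper-free.

`GpChain D p A box J n S η`: nested regions `A ⊆ S 0 ⊆ S 1 ⊆ ... ⊆ S (J+1) ⊆ D`, separated by the square shells `U j = gpShell (n j) ⊆ S (j+1) \ S j`, consecutive scales differ by the factor two (in either direction: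
the same statement serves the inner and the outer end), the last shell `U J` is the pinned set `p` (the guard), `box ⊆ p` the observation box, `η j` cutoffs (`1` on `S j`, `0` off `S (j+1)`, increments on the bonds of `U j`).
`F` harmonic off `p` (free walls, hence NO FLUX through the shells).
* hole filling: `Y j = E_{S j}(F) ≤ 8 CP E_{U j}(F) ≤ 8 CP (Y (j+1) - Y j)`, so `Y j ≤ θ^{J-j} E_D(F)`.
* means `c j = avg_{U j} F`: `(c j - c (j+1))² ≤ CM Y (j+2)`: geometric series, `c 0² ≤ C 𝒯(F)` UNIFORMLY in `J`.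
* competitor for all `F`: `g = η 0 (F - c 0) + c 0 ψ`, `ψ = J⁻¹ ∑_{j<J} η j` (energy `≤ 96/J`):   `a⁻¹ E(g) ≤ (C₁/J) 𝒯(F)`.
* competitor on the kernel of the cell sums of `U 0`, `U 1` (`8 · 4^k` functionals): `g = η 0 F`:   `E(g) ≤ 64 CR² 16^{-k} E_D(F)`.
-/


structure GpChain (D p A box : Finset (ℤ × ℤ)) (J : ℕ) (n : ℕ → ℕ) (S : ℕ → Finset (ℤ × ℤ)) (η : ℕ → ℤ × ℤ → ℝ) : Prop where
  n_ge : ∀ j ≤ J, 2 ≤ n j
  S_mono : ∀ j ≤ J, S j ⊆ S (j + 1)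
  S_sub : S (J + 1) ⊆ D
  U_sub : ∀ j ≤ J, gpShell (n j) ⊆ S (j + 1)
  U_disj : ∀ j ≤ J, Disjoint (S j) (gpShell (n j))
  p_eq : p = gpShell (n J)
  A_sub : A ⊆ S 0
  box_sub : box ⊆ p
  box_card : (n J : ℝ) ^ 2 ≤ (box.card : ℝ)
  adj : ∀ j < J, n (j + 1) = 2 * n j ∨ n j = 2 * n (j + 1)
  η_one : ∀ j < J, ∀ x ∈ S j, η j x = 1
  η_zero : ∀ j < J, ∀ x ∈ D, x ∉ S (j + 1) → η j x = 0
  η_grad : ∀ j < J, ∀ e ∈ domBonds D ∅, (η j e.snd - η j e.1) ^ 2 ≤ 4 / (n j : ℝ) ^ 2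
  η_supp : ∀ j < J, ∀ e ∈ domBonds D ∅, η j e.snd ≠ η j e.1 → e.1 ∈ gpShell (n j) ∧ e.snd ∈ gpShell (n j)

variable {D p A box : Finset (ℤ × ℤ)} {J : ℕ} {n : ℕ → ℕ} {S : ℕ → Finset (ℤ × ℤ)} {η : ℕ → ℤ × ℤ → ℝ}

theorem GpChain.S_le (h : GpChain D p A box J n S η) {i j : ℕ} (hij : i ≤ j) (hj : j ≤ J + 1) : S i ⊆ S j := by
  induction j, hij using Nat.le_induction with
  | base => exact Finset.Subset.refl _
  | succ k hk ih => exact (ih (by omega)).trans (h.S_mono k (by omega))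

theorem GpChain.S_D (h : GpChain D p A box J n S η) {j : ℕ} (hj : j ≤ J + 1) : S j ⊆ D := (h.S_le hj le_rfl).trans h.S_sub

theorem GpChain.U_D (h : GpChain D p A box J n S η) {j : ℕ} (hj : j ≤ J) : gpShell (n j) ⊆ D := (h.U_sub j hj).trans (h.S_D (by omega))

theorem GpChain.p_D (h : GpChain D p A box J n S η) : p ⊆ D := by rw [h.p_eq]; exact h.U_D le_rfl

/-- the regions `S j`, `j ≤ J`, do not meet `p` -/
theorem GpChain.not_mem_S (h : GpChain D p A box J n S η) {j : ℕ} (hj : j ≤ J) {x : ℤ × ℤ} (hx : x ∈ p) : x ∉ S j := fun hxS => by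
  rw [h.p_eq] at hx
  exact Finset.disjoint_left.1 (h.U_disj J le_rfl) (h.S_le hj (by omega) hxS) hx

theorem GpChain.η_p (h : GpChain D p A box J n S η) {j : ℕ} (hj : j < J) : ∀ x ∈ p, η j x = 0 := fun x hx =>
  h.η_zero j hj x (h.p_D hx) (h.not_mem_S (by omega) hx)

/-- the shells are pairwise disjoint -/
theorem GpChain.U_disj' (h : GpChain D p A box J n S η) {i j : ℕ} (hij : i < j) (hj : j ≤ J) : Disjoint (gpShell (n i)) (gpShell (n j)) :=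
  Finset.disjoint_of_subset_left ((h.U_sub i (by omega)).trans (h.S_le (by omega) (by omega))) (h.U_disj j hj)

/-- Caccioppoli for the cutoff `η j` -/
theorem GpChain.cacc (h : GpChain D p A box J n S η) {F : ℤ × ℤ → ℝ} (hF : gpHarm D p F) {j : ℕ} (hj : j < J) (c : ℝ) :
    gpE D (fun x => η j x * (F x - c)) ≤ 8 / (n j : ℝ) ^ 2 * ∑ x ∈ gpShell (n j), (F x - c) ^ 2 := by
  have := gp_cacc hF (η j) (h.η_p hj) (4 / (n j : ℝ) ^ 2) (by positivity) (h.η_grad j hj) (h.η_supp j hj) c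
  calc _ ≤ _ := this
    _ = _ := by ring

/-- the energy inside `S j` is bounded by the energy of the cut field -/
theorem GpChain.inner_le (h : GpChain D p A box J n S η) (F : ℤ × ℤ → ℝ) {j : ℕ} (hj : j < J) (c : ℝ) :
    gpE (S j) F ≤ gpE D fun x => η j x * (F x - c) := by
  rw [← gpE_sub_const (S j) F c, gpE_congr (F' := fun x => η j x * (F x - c)) fun x hx => by rw [h.η_one j hj x hx, one_mul]]
  exact gpE_mono (h.S_D (by omega)) _

theorem GpChain.n_pos (h : GpChain D p A box J n S η) {j : ℕ} (hj : j ≤ J) : (0 : ℝ) < (n j : ℝ) := by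
  have := h.n_ge j hj
  exact_mod_cast (by omega : 0 < n j)

/-- **hole filling, one step** -/
theorem GpChain.hole (h : GpChain D p A box J n S η) {CP : ℝ} (hP : GpPoinc CP) {F : ℤ × ℤ → ℝ} (hF : gpHarm D p F) {j : ℕ} (hj : j < J) :
    gpE (S j) F ≤ 8 * CP * gpE (gpShell (n j)) F := by
  have hn := h.n_pos (j := j) (by omega)
  have h1 := h.inner_le F hj (gpAvg (gpShell (n j)) F)
  have h2 := h.cacc hF hj (gpAvg (gpShell (n j)) F)
  have h3 := hP (n j) (by have := h.n_ge j (by omega); omega) F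
  have h4 : 8 / (n j : ℝ) ^ 2 * ∑ x ∈ gpShell (n j), (F x - gpAvg (gpShell (n j)) F) ^ 2
      ≤ 8 / (n j : ℝ) ^ 2 * (CP * (n j : ℝ) ^ 2 * gpE (gpShell (n j)) F) := mul_le_mul_of_nonneg_left h3 (by positivity)
  have h5 : 8 / (n j : ℝ) ^ 2 * (CP * (n j : ℝ) ^ 2 * gpE (gpShell (n j)) F) = 8 * CP * gpE (gpShell (n j)) F := by
    field_simp
  linarith

theorem GpChain.Y_add (h : GpChain D p A box J n S η) (F : ℤ × ℤ → ℝ) {j : ℕ} (hj : j ≤ J) :
    gpE (S j) F + gpE (gpShell (n j)) F ≤ gpE (S (j + 1)) F :=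
  gpE_add_le (h.S_mono j hj) (h.U_sub j hj) (h.U_disj j hj) F

/-- **hole filling**: geometric decay of the energy towards `A` -/
theorem GpChain.decay (h : GpChain D p A box J n S η) {CP : ℝ} (hCP : 0 < CP) (hP : GpPoinc CP) {F : ℤ × ℤ → ℝ} (hF : gpHarm D p F) :
    ∀ i ≤ J, gpE (S (J - i)) F ≤ (8 * CP / (8 * CP + 1)) ^ i * gpE D F := by
  intro i
  induction i with
  | zero => intro _; simpa using gpE_mono (h.S_D (by omega)) F
  | succ i ih =>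
    intro hi
    have h1 := ih (by omega)
    have h2 := h.hole hP hF (j := J - (i + 1)) (by omega)
    have h3 := h.Y_add F (j := J - (i + 1)) (by omega)
    have e : J - (i + 1) + 1 = J - i := by omega
    rw [e] at h3
    have h4 : gpE (S (J - (i + 1))) F ≤ 8 * CP / (8 * CP + 1) * gpE (S (J - i)) F := by
      rw [div_mul_eq_mul_div, le_div_iff₀ (by positivity)]
      nlinarith
    calc _ ≤ _ := h4
      _ ≤ 8 * CP / (8 * CP + 1) * ((8 * CP / (8 * CP + 1)) ^ i * gpE D F) := mul_le_mul_of_nonneg_left h1 (by positivity)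
      _ = _ := by ring

/-! ## Leaf GP-C1: the mean of the innermost shell.
`c j = gpAvg (gpShell (n j)) F`, `m = gpAvg box F`, `T = gpT a γ D box F`; `E_D(F) ≤ a T`, `m² ≤ T/γ`.
`(m - c J)² ≤ CP E_D(F)` (`gp_avg_sub_sq_le`, `GpPoinc`, `box_card`).
`(c j - c (j+1))² ≤ CM E(U j ∪ U (j+1)) ≤ CM E_{S (j+2)}(F) ≤ CM θ^{J - (j+2)} E_D(F)` (`GpMean` in the order given by `adj`; truncated subtraction; `decay`), `θ = 8CP/(8CP+1) ≤ r²`, `r = (16CP+1)/(16CP+2)`.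
`|c 0 - c J| ≤ ∑_{j<J} |c j - c (j+1)| ≤ √(CM E_D) (1 + 1/(1-r))`. -/
theorem gp_geom_trunc_le {r : ℝ} (h0 : 0 < r) (h1 : r < 1) (J : ℕ) :
    ∑ j ∈ Finset.range J, r ^ (J - (j + 2)) ≤ 1 / (r * (1 - r)) := by
  have h1r : 0 < 1 - r := by linarith
  have a1 : ∀ j ∈ Finset.range J, r ^ (J - (j + 2)) ≤ r⁻¹ * r ^ (J - 1 - j) := by
    intro j hj
    rw [Finset.mem_range] at hj
    rcases Nat.eq_or_lt_of_le (Nat.succ_le_of_lt hj) with h | h
    · have e1 : J - (j + 2) = 0 := by omega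
      have e2 : J - 1 - j = 0 := by omega
      rw [e1, e2, pow_zero, mul_one]
      exact (one_le_inv₀ h0).2 h1.le
    · have e1 : J - 1 - j = (J - (j + 2)) + 1 := by omega
      rw [e1, pow_succ]
      field_simp
      exact le_rfl
  refine (Finset.sum_le_sum a1).trans ?_
  rw [← Finset.mul_sum, Finset.sum_range_reflect (fun j => r ^ j) J]
  have a2 : ∑ j ∈ Finset.range J, r ^ j ≤ 1 / (1 - r) := by
    rw [le_div_iff₀ h1r, mul_comm, mul_neg_geom_sum]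
    have : 0 ≤ r ^ J := by positivity
    linarith
  calc r⁻¹ * ∑ j ∈ Finset.range J, r ^ j ≤ r⁻¹ * (1 / (1 - r)) := mul_le_mul_of_nonneg_left a2 (by positivity)
    _ = 1 / (r * (1 - r)) := by field_simp

theorem gp_chain_step_mean (h : GpChain D p A box J n S η) {CP CM : ℝ} (hCP : 0 < CP) (hP : GpPoinc CP) (hCM : 0 < CM)
    (hM : GpMean CM) {F : ℤ × ℤ → ℝ} (hF : gpHarm D p F) {j : ℕ} (hj : j < J) :
    (gpAvg (gpShell (n j)) F - gpAvg (gpShell (n (j + 1))) F) ^ 2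
      ≤ CM * ((8 * CP / (8 * CP + 1)) ^ (J - (j + 2)) * gpE D F) := by
  have hU : gpShell (n j) ∪ gpShell (n (j + 1)) ⊆ S (j + 2) :=
    Finset.union_subset ((h.U_sub j (by omega)).trans (h.S_mono (j + 1) (by omega))) (h.U_sub (j + 1) (by omega))
  have h1 : (gpAvg (gpShell (n j)) F - gpAvg (gpShell (n (j + 1))) F) ^ 2 ≤ CM * gpE (gpShell (n j) ∪ gpShell (n (j + 1))) F := by
    rcases h.adj j hj with e | e
    · have := hM (n j) (by have := h.n_ge j (by omega); omega) F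
      rwa [← e] at this
    · have := hM (n (j + 1)) (by have := h.n_ge (j + 1) (by omega); omega) F
      rw [← e, Finset.union_comm] at this
      calc (gpAvg (gpShell (n j)) F - gpAvg (gpShell (n (j + 1))) F) ^ 2
          = (gpAvg (gpShell (n (j + 1))) F - gpAvg (gpShell (n j)) F) ^ 2 := by ring
        _ ≤ _ := this
  have h2 : gpE (S (j + 2)) F ≤ (8 * CP / (8 * CP + 1)) ^ (J - (j + 2)) * gpE D F := by
    rcases Nat.eq_or_lt_of_le (Nat.succ_le_of_lt hj) with e | e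
    · have e1 : J - (j + 2) = 0 := by omega
      rw [e1, pow_zero, one_mul]
      exact gpE_mono (h.S_D (by omega)) F
    · have := h.decay hCP hP hF (J - (j + 2)) (by omega)
      have e1 : J - (J - (j + 2)) = j + 2 := by omega
      rwa [e1] at this
  exact h1.trans (mul_le_mul_of_nonneg_left ((gpE_mono hU F).trans h2) hCM.le)

theorem gp_mean0 {a γ CP CM : ℝ} (ha : 0 < a) (hγ : 0 < γ) (hCP : 0 < CP) (hP : GpPoinc CP) (hCM : 0 < CM) (hM : GpMean CM) :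
    ∃ C : ℝ, 0 ≤ C ∧ ∀ (D p A box : Finset (ℤ × ℤ)) (J : ℕ) (n : ℕ → ℕ) (S : ℕ → Finset (ℤ × ℤ)) (η : ℕ → ℤ × ℤ → ℝ),
      GpChain D p A box J n S η → ∀ F : ℤ × ℤ → ℝ, gpHarm D p F → gpAvg (gpShell (n 0)) F ^ 2 ≤ C * gpT a γ D box F := by
  obtain ⟨r, hr⟩ : ∃ r : ℝ, r = (16 * CP + 1) / (16 * CP + 2) := ⟨_, rfl⟩
  have hr0 : 0 < r := by rw [hr]; positivity
  have hr1 : r < 1 := by rw [hr, div_lt_one (by positivity)]; linarith
  have hθr : 8 * CP / (8 * CP + 1) ≤ r ^ 2 := by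
    rw [hr, div_pow, div_le_div_iff₀ (by positivity) (by positivity)]
    nlinarith
  obtain ⟨Sg, hSg⟩ : ∃ Sg : ℝ, Sg = 1 / (r * (1 - r)) := ⟨_, rfl⟩
  have hSg0 : 0 ≤ Sg := by
    rw [hSg]
    have : 0 < 1 - r := by linarith
    positivity
  refine ⟨3 * (1 / γ + CP * a + CM * a * Sg ^ 2), by positivity, ?_⟩
  intro D p A box J n S η h F hF
  obtain ⟨T, hT⟩ : ∃ T, T = gpT a γ D box F := ⟨_, rfl⟩
  obtain ⟨E, hE⟩ : ∃ E, E = gpE D F := ⟨_, rfl⟩
  obtain ⟨c, hc⟩ : ∃ c : ℕ → ℝ, c = fun j => gpAvg (gpShell (n j)) F := ⟨_, rfl⟩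
  obtain ⟨m, hm⟩ : ∃ m, m = gpAvg box F := ⟨_, rfl⟩
  have hE0 : 0 ≤ E := by rw [hE]; exact gpE_nonneg D F
  have hTeq : T = a⁻¹ * E + γ * m ^ 2 := by rw [hT, gpT, ← hm, ← hE]
  have hT0 : 0 ≤ T := by rw [hTeq]; positivity
  have hET : E ≤ a * T := by
    have h2 : a * T = E + a * (γ * m ^ 2) := by
      rw [hTeq]; field_simp
    have : 0 ≤ a * (γ * m ^ 2) := by positivity
    linarith
  have hmT : m ^ 2 ≤ 1 / γ * T := by
    have : γ * m ^ 2 ≤ T := by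
      rw [hTeq]
      have : 0 ≤ a⁻¹ * E := by positivity
      linarith
    rw [div_mul_eq_mul_div, one_mul, le_div_iff₀ hγ]
    linarith
  -- the box
  have hnJ := h.n_pos (j := J) le_rfl
  have hbox0 : (0 : ℝ) < (box.card : ℝ) := lt_of_lt_of_le (by positivity) h.box_card
  have hboxne : box.Nonempty := by
    rw [← Finset.card_pos]
    exact_mod_cast hbox0
  have hmc : (m - c J) ^ 2 ≤ CP * a * T := by
    have h1 := gp_avg_sub_sq_le (Q := box) (S := gpShell (n J)) (by rw [← h.p_eq]; exact h.box_sub) hboxne F (c J)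
    have h2 := hP (n J) (by have := h.n_ge J le_rfl; omega) F
    have h3 : gpE (gpShell (n J)) F ≤ E := by rw [hE]; exact gpE_mono (h.U_D le_rfl) F
    have h4 : (∑ x ∈ gpShell (n J), (F x - c J) ^ 2) / (box.card : ℝ) ≤ CP * E := by
      rw [div_le_iff₀ hbox0]
      have e : c J = gpAvg (gpShell (n J)) F := by rw [hc]
      rw [e]
      calc _ ≤ CP * (n J : ℝ) ^ 2 * gpE (gpShell (n J)) F := h2
        _ ≤ CP * (n J : ℝ) ^ 2 * E := mul_le_mul_of_nonneg_left h3 (by positivity)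
        _ = CP * E * (n J : ℝ) ^ 2 := by ring
        _ ≤ CP * E * (box.card : ℝ) := mul_le_mul_of_nonneg_left h.box_card (by positivity)
    rw [hm]
    calc _ ≤ _ := h1
      _ ≤ CP * E := h4
      _ ≤ CP * (a * T) := mul_le_mul_of_nonneg_left hET hCP.le
      _ = _ := by ring
  -- the steps
  obtain ⟨B, hB⟩ : ∃ B, B = Real.sqrt (CM * E) := ⟨_, rfl⟩
  have hB0 : 0 ≤ B := by rw [hB]; exact Real.sqrt_nonneg _
  have hB2 : B ^ 2 = CM * E := by rw [hB]; exact Real.sq_sqrt (by positivity)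
  have hstep : ∀ j ∈ Finset.range J, |c j - c (j + 1)| ≤ B * r ^ (J - (j + 2)) := by
    intro j hj
    rw [Finset.mem_range] at hj
    have h1 := gp_chain_step_mean h hCP hP hCM hM hF hj
    refine abs_le_of_sq_le_sq ?_ (by positivity)
    have e : c j - c (j + 1) = gpAvg (gpShell (n j)) F - gpAvg (gpShell (n (j + 1))) F := by rw [hc]
    rw [e]
    refine h1.trans ?_
    rw [mul_pow, hB2, ← hE]
    have h2 : (8 * CP / (8 * CP + 1)) ^ (J - (j + 2)) ≤ (r ^ (J - (j + 2))) ^ 2 := by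
      have e2 : (r ^ (J - (j + 2))) ^ 2 = (r ^ 2) ^ (J - (j + 2)) := by
        rw [← pow_mul, ← pow_mul, Nat.mul_comm]
      rw [e2]
      exact pow_le_pow_left₀ (by positivity) hθr _
    calc CM * ((8 * CP / (8 * CP + 1)) ^ (J - (j + 2)) * E) ≤ CM * ((r ^ (J - (j + 2))) ^ 2 * E) :=
          mul_le_mul_of_nonneg_left (mul_le_mul_of_nonneg_right h2 hE0) hCM.le
      _ = _ := by ring
  have htel : |c 0 - c J| ≤ B * Sg := by
    rw [← Finset.sum_range_sub' c J]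
    refine (Finset.abs_sum_le_sum_abs _ _).trans ?_
    refine (Finset.sum_le_sum hstep).trans ?_
    rw [← Finset.mul_sum, hSg]
    exact mul_le_mul_of_nonneg_left (gp_geom_trunc_le hr0 hr1 J) hB0
  have hcc : (c 0 - c J) ^ 2 ≤ CM * a * Sg ^ 2 * T := by
    have h1 : (c 0 - c J) ^ 2 ≤ (B * Sg) ^ 2 := by
      rw [← sq_abs]
      exact pow_le_pow_left₀ (abs_nonneg _) htel 2
    rw [mul_pow, hB2] at h1
    calc _ ≤ _ := h1
      _ ≤ CM * (a * T) * Sg ^ 2 := by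
          refine mul_le_mul_of_nonneg_right ?_ (by positivity)
          exact mul_le_mul_of_nonneg_left hET hCM.le
      _ = _ := by ring
  have e0 : gpAvg (gpShell (n 0)) F = c 0 := by rw [hc]
  rw [e0, ← hT]
  have h3 : c 0 ^ 2 ≤ 3 * (m ^ 2 + (m - c J) ^ 2 + (c 0 - c J) ^ 2) := by
    nlinarith [sq_nonneg (m - (c 0 - c J)), sq_nonneg (m + (m - c J)), sq_nonneg ((m - c J) + (c 0 - c J)),
      sq_nonneg (m - (c 0 - c J) + (m - c J))]
  calc c 0 ^ 2 ≤ 3 * (m ^ 2 + (m - c J) ^ 2 + (c 0 - c J) ^ 2) := h3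
    _ ≤ 3 * (1 / γ * T + CP * a * T + CM * a * Sg ^ 2 * T) := by linarith
    _ = _ := by ring

/-! ## Leaf GP-C2: the multi-scale cutoff.
For every bond at most one `η j` has a nonzero increment (`U_disj'`), so `E(∑_j η j) = ∑_j E(η j)`, and `E(η j) ≤ (4/n²) · #bonds(U j) ≤ (4/n²) · 2 · 12 n² = 96` (`η_supp`, `η_grad`, `gp_card_bonds_le`, `gp_card_shell`). -/
theorem gp_sq_sum_of_orth {ι : Type} (s : Finset ι) (d : ι → ℝ) (h : ∀ i ∈ s, ∀ j ∈ s, i ≠ j → d i * d j = 0) :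
    (∑ j ∈ s, d j) ^ 2 = ∑ j ∈ s, d j ^ 2 := by
  rw [pow_two, Finset.sum_mul_sum]
  refine Finset.sum_congr rfl fun i hi => ?_
  rw [Finset.sum_eq_single i]
  · ring
  · intro j hj hji
    exact h i hi j hj (Ne.symm hji)
  · intro hi'; exact absurd hi hi'

theorem gp_chain_eta_E (h : GpChain D p A box J n S η) {j : ℕ} (hj : j < J) : gpE D (η j) ≤ 96 := by
  have hn := h.n_pos (j := j) (by omega)
  have h1 : gpE D (η j) ≤ ∑ e ∈ domBonds (gpShell (n j)) ∅, 4 / (n j : ℝ) ^ 2 := by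
    rw [gpE]
    have hsub : domBonds (gpShell (n j)) ∅ ⊆ domBonds D ∅ := gp_bonds_mono (h.U_D (by omega))
    rw [← Finset.sum_subset hsub (f := fun e => (η j e.snd - η j e.1) ^ 2)]
    · exact Finset.sum_le_sum fun e he => h.η_grad j hj e (hsub he)
    · intro e he hne
      by_contra hc
      have hne' : η j e.snd ≠ η j e.1 := by
        intro heq
        apply hc
        rw [heq]; simp
      exact hne (gp_mem_bonds.2 (h.η_supp j hj e he hne'))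
  refine h1.trans ?_
  rw [Finset.sum_const, nsmul_eq_mul]
  have h2 : ((domBonds (gpShell (n j)) ∅).card : ℝ) ≤ 2 * (12 * (n j : ℝ) ^ 2) := by
    have := gp_card_bonds_le (gpShell (n j))
    rw [gp_card_shell] at this
    exact_mod_cast this
  calc ((domBonds (gpShell (n j)) ∅).card : ℝ) * (4 / (n j : ℝ) ^ 2)
      ≤ 2 * (12 * (n j : ℝ) ^ 2) * (4 / (n j : ℝ) ^ 2) := mul_le_mul_of_nonneg_right h2 (by positivity)
    _ = 96 := by field_simp; norm_num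

theorem GpChain.psi (h : GpChain D p A box J n S η) (hJ : 1 ≤ J) :
    gpE D (fun x => (∑ j ∈ Finset.range J, η j x) / (J : ℝ)) ≤ 96 / (J : ℝ) := by
  have hJ' : (0 : ℝ) < J := by exact_mod_cast (by omega : 0 < J)
  have e1 : gpE D (fun x => (∑ j ∈ Finset.range J, η j x) / (J : ℝ))
      = ((J : ℝ)⁻¹) ^ 2 * gpE D (fun x => ∑ j ∈ Finset.range J, η j x) := by
    rw [← gpE_const_mul]
    refine gpE_congr fun x _ => ?_
    rw [div_eq_inv_mul]
  have e2 : gpE D (fun x => ∑ j ∈ Finset.range J, η j x) = ∑ j ∈ Finset.range J, gpE D (η j) := by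
    simp only [gpE]
    rw [Finset.sum_comm]
    refine Finset.sum_congr rfl fun e he => ?_
    rw [← Finset.sum_sub_distrib]
    refine gp_sq_sum_of_orth _ _ ?_
    have key : ∀ i j, i < j → j < J → (η i e.snd - η i e.1) * (η j e.snd - η j e.1) = 0 := by
      intro i j hij hj
      by_contra hc
      have h1 : η i e.snd ≠ η i e.1 := by
        intro heq; apply hc; rw [heq]; simp
      have h2 : η j e.snd ≠ η j e.1 := by
        intro heq; apply hc; rw [heq]; simp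
      exact Finset.disjoint_left.1 (h.U_disj' hij hj.le) (h.η_supp i (by omega) e he h1).1 (h.η_supp j hj e he h2).1
    intro i hi j hj hij
    rw [Finset.mem_range] at hi hj
    rcases lt_or_gt_of_ne hij with hlt | hlt
    · exact key i j hlt hj
    · rw [mul_comm]; exact key j i hlt hi
  have e3 : ∑ j ∈ Finset.range J, gpE D (η j) ≤ 96 * (J : ℝ) := by
    calc ∑ j ∈ Finset.range J, gpE D (η j) ≤ ∑ j ∈ Finset.range J, (96 : ℝ) :=
          Finset.sum_le_sum fun j hj => gp_chain_eta_E h (Finset.mem_range.1 hj)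
      _ = 96 * (J : ℝ) := by rw [Finset.sum_const, Finset.card_range, nsmul_eq_mul]; ring
  rw [e1, e2]
  calc ((J : ℝ)⁻¹) ^ 2 * ∑ j ∈ Finset.range J, gpE D (η j) ≤ ((J : ℝ)⁻¹) ^ 2 * (96 * (J : ℝ)) :=
        mul_le_mul_of_nonneg_left e3 (by positivity)
    _ = 96 / (J : ℝ) := by field_simp

/-- Bernoulli: `θ^i ≤ K / i` for `θ = K/(K+1)` -/
theorem gp_theta_pow_le {K : ℝ} (hK : 0 < K) {i : ℕ} (hi : 1 ≤ i) : (K / (K + 1)) ^ i ≤ K / (i : ℝ) := by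
  have hi' : (0 : ℝ) < i := by exact_mod_cast (by omega : 0 < i)
  have h1 : 1 + (i : ℝ) * (1 / K) ≤ (1 + 1 / K) ^ i := one_add_mul_le_pow (by have : 0 < 1 / K := by positivity
                                                                              linarith) i
  have h2 : K / (K + 1) = (1 + 1 / K)⁻¹ := by field_simp
  rw [h2, inv_pow]
  have h3 : (i : ℝ) / K ≤ (1 + 1 / K) ^ i := by
    have : (i : ℝ) * (1 / K) = (i : ℝ) / K := by ring
    linarith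
  calc ((1 + 1 / K) ^ i)⁻¹ ≤ ((i : ℝ) / K)⁻¹ := inv_anti₀ (by positivity) h3
    _ = K / (i : ℝ) := by rw [inv_div]

theorem gpT_nonneg {a γ : ℝ} (ha : 0 < a) (hγ : 0 < γ) (D box : Finset (ℤ × ℤ)) (F : ℤ × ℤ → ℝ) : 0 ≤ gpT a γ D box F := by
  have := gpE_nonneg D F
  rw [gpT]; positivity

theorem gpE_le_T {a γ : ℝ} (ha : 0 < a) (hγ : 0 < γ) (D box : Finset (ℤ × ℤ)) (F : ℤ × ℤ → ℝ) : gpE D F ≤ a * gpT a γ D box F := by
  have h1 : 0 ≤ γ * gpAvg box F ^ 2 := by positivity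
  have h2 : a * gpT a γ D box F = gpE D F + a * (γ * gpAvg box F ^ 2) := by
    rw [gpT]; field_simp
  rw [h2]
  have : 0 ≤ a * (γ * gpAvg box F ^ 2) := by positivity
  linarith

/-- **the competitor for all harmonic fields** -/
theorem GpChain.E0 (h : GpChain D p A box J n S η) (hJ : 2 ≤ J) {a γ CP C0 : ℝ} (ha : 0 < a) (hγ : 0 < γ) (hCP : 0 < CP) (hP : GpPoinc CP)
    {F : ℤ × ℤ → ℝ} (hF : gpHarm D p F) (hC0 : gpAvg (gpShell (n 0)) F ^ 2 ≤ C0 * gpT a γ D box F) :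
    ∃ g : ℤ × ℤ → ℝ, (∀ x ∈ p, g x = 0) ∧ (∀ x ∈ A, g x = F x) ∧
      a⁻¹ * gpE D g ≤ (256 * CP ^ 2 + 192 * C0 / a) / (J : ℝ) * gpT a γ D box F := by
  have hJ' : (0 : ℝ) < J := by exact_mod_cast (by omega : 0 < J)
  set c := gpAvg (gpShell (n 0)) F with hc
  set T := gpT a γ D box F with hT
  have hT0 : 0 ≤ T := gpT_nonneg ha hγ D box F
  refine ⟨fun x => η 0 x * (F x - c) + c * ((∑ j ∈ Finset.range J, η j x) / (J : ℝ)), ?_, ?_, ?_⟩
  · intro x hx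
    have h1 : ∑ j ∈ Finset.range J, η j x = 0 := Finset.sum_eq_zero fun j hj => h.η_p (Finset.mem_range.1 hj) x hx
    simp only []
    rw [h.η_p (by omega) x hx, h1]; simp
  · intro x hx
    have h1 : ∑ j ∈ Finset.range J, η j x = J := by
      rw [Finset.sum_congr rfl fun j hj => h.η_one j (Finset.mem_range.1 hj) x
        (h.S_le (Nat.zero_le j) (by have := Finset.mem_range.1 hj; omega) (h.A_sub hx))]
      simp
    simp only []
    rw [h.η_one 0 (by omega) x (h.A_sub hx), h1, div_self hJ'.ne']; ring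
  · have h1 := gpE_add_le_two D (fun x => η 0 x * (F x - c)) (fun x => c * ((∑ j ∈ Finset.range J, η j x) / (J : ℝ)))
    rw [gpE_const_mul] at h1
    have h2 := h.psi (by omega)
    have hn := h.n_pos (j := 0) (by omega)
    have h3 := h.cacc hF (j := 0) (by omega) c
    have h4 := hP (n 0) (by have := h.n_ge 0 (by omega); omega) F
    have h5 : 8 / (n 0 : ℝ) ^ 2 * ∑ x ∈ gpShell (n 0), (F x - c) ^ 2 ≤ 8 * CP * gpE (gpShell (n 0)) F := by
      calc _ ≤ 8 / (n 0 : ℝ) ^ 2 * (CP * (n 0 : ℝ) ^ 2 * gpE (gpShell (n 0)) F) := mul_le_mul_of_nonneg_left h4 (by positivity)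
        _ = _ := by field_simp
    have h6 : gpE (gpShell (n 0)) F ≤ gpE (S 1) F := gpE_mono (h.U_sub 0 (by omega)) F
    have h7 := h.decay hCP hP hF (J - 1) (by omega)
    have e : J - (J - 1) = 1 := by omega
    rw [e] at h7
    have h8 := gp_theta_pow_le (K := 8 * CP) (by positivity) (i := J - 1) (by omega)
    have h9 : 8 * CP / ((J - 1 : ℕ) : ℝ) ≤ 16 * CP / (J : ℝ) := by
      have hJ1 : (0 : ℝ) < ((J - 1 : ℕ) : ℝ) := by exact_mod_cast (by omega : 0 < J - 1)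
      rw [div_le_div_iff₀ hJ1 hJ']
      have : (J : ℝ) ≤ 2 * ((J - 1 : ℕ) : ℝ) := by exact_mod_cast (by omega : J ≤ 2 * (J - 1))
      nlinarith
    have hE := gpE_le_T ha hγ D box F
    have hE0 := gpE_nonneg D F
    have h10 : gpE (S 1) F ≤ 16 * CP / (J : ℝ) * (a * T) := by
      calc _ ≤ _ := h7
        _ ≤ 16 * CP / (J : ℝ) * gpE D F := mul_le_mul_of_nonneg_right (h8.trans h9) hE0
        _ ≤ _ := mul_le_mul_of_nonneg_left hE (by positivity)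
    have h11 : c ^ 2 * gpE D (fun x => (∑ j ∈ Finset.range J, η j x) / (J : ℝ)) ≤ C0 * T * (96 / (J : ℝ)) :=
      mul_le_mul hC0 h2 (gpE_nonneg _ _) ((sq_nonneg c).trans hC0)
    have h12 : gpE D (fun x => η 0 x * (F x - c) + c * ((∑ j ∈ Finset.range J, η j x) / (J : ℝ)))
        ≤ 2 * (8 * CP * (16 * CP / (J : ℝ) * (a * T))) + 2 * (C0 * T * (96 / (J : ℝ))) := by
      have : 8 * CP * gpE (gpShell (n 0)) F ≤ 8 * CP * (16 * CP / (J : ℝ) * (a * T)) :=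
        mul_le_mul_of_nonneg_left (h6.trans h10) (by positivity)
      linarith
    calc _ ≤ a⁻¹ * (2 * (8 * CP * (16 * CP / (J : ℝ) * (a * T))) + 2 * (C0 * T * (96 / (J : ℝ)))) :=
          mul_le_mul_of_nonneg_left h12 (by positivity)
      _ = _ := by field_simp; ring

/-- **the competitor on the kernel of the cell sums of the first two shells** -/
theorem GpChain.Ek (h : GpChain D p A box J n S η) (hJ : 2 ≤ J) {CR : ℝ} (hCR : 0 < CR) (hR : GpRes CR) (k : ℕ) :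
    ∃ 𝒞 : Finset (Finset (ℤ × ℤ)), 𝒞.card ≤ 8 * 4 ^ k ∧ (∀ C ∈ 𝒞, C ⊆ D) ∧
      ∀ F : ℤ × ℤ → ℝ, gpHarm D p F → (∀ C ∈ 𝒞, ∑ x ∈ C, F x = 0) →
        gpE D (fun x => η 0 x * F x) ≤ 64 * CR ^ 2 / 16 ^ k * gpE D F := by
  obtain ⟨𝒞₀, hc0, hs0, hb0⟩ := hR (n 0) (by have := h.n_ge 0 (by omega); omega) k
  obtain ⟨𝒞₁, hc1, hs1, hb1⟩ := hR (n 1) (by have := h.n_ge 1 (by omega); omega) k
  refine ⟨𝒞₀ ∪ 𝒞₁, (Finset.card_union_le _ _).trans (by omega), ?_, ?_⟩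
  · intro C hC
    rcases Finset.mem_union.1 hC with hC | hC
    · exact (hs0 C hC).trans (h.U_D (by omega))
    · exact (hs1 C hC).trans (h.U_D (by omega))
  · intro F hF hker
    have key : ∀ j < J, (∑ x ∈ gpShell (n j), F x ^ 2 ≤ CR * (n j : ℝ) ^ 2 / 4 ^ k * gpE (gpShell (n j)) F) →
        gpE D (fun x => η j x * F x) ≤ 8 * CR / 4 ^ k * gpE (gpShell (n j)) F := by
      intro j hj hb
      have hn := h.n_pos (j := j) (by omega)
      have h3 := h.cacc hF hj 0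
      simp only [sub_zero] at h3
      calc _ ≤ _ := h3
        _ ≤ 8 / (n j : ℝ) ^ 2 * (CR * (n j : ℝ) ^ 2 / 4 ^ k * gpE (gpShell (n j)) F) := mul_le_mul_of_nonneg_left hb (by positivity)
        _ = _ := by field_simp
    have k0 := key 0 (by omega) (hb0 F fun C hC => hker C (Finset.mem_union_left _ hC))
    have k1 := key 1 (by omega) (hb1 F fun C hC => hker C (Finset.mem_union_right _ hC))
    have h6 : gpE (gpShell (n 0)) F ≤ gpE (S 1) F := gpE_mono (h.U_sub 0 (by omega)) F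
    have h7 := h.inner_le F (j := 1) (by omega) 0
    simp only [sub_zero] at h7
    have h8 : gpE (gpShell (n 1)) F ≤ gpE D F := gpE_mono (h.U_D (by omega)) F
    have hq : (0 : ℝ) ≤ 8 * CR / 4 ^ k := by positivity
    calc _ ≤ _ := k0
      _ ≤ 8 * CR / 4 ^ k * (8 * CR / 4 ^ k * gpE D F) :=
          mul_le_mul_of_nonneg_left (h6.trans (h7.trans (k1.trans (mul_le_mul_of_nonneg_left h8 hq)))) hq
      _ = _ := by
          have : (16 : ℝ) ^ k = 4 ^ k * 4 ^ k := by rw [← mul_pow]; norm_num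
          rw [this]; field_simp; ring

/-- cell sums as `j` row vectors -/
theorem gp_rows_of_cells (D : Finset (ℤ × ℤ)) (𝒞 : Finset (Finset (ℤ × ℤ))) (hD : ∀ C ∈ 𝒞, C ⊆ D) (j : ℕ) (hj : 𝒞.card ≤ j) :
    ∃ ℓ : Fin j → ℤ × ℤ → ℝ, ∀ F : ℤ × ℤ → ℝ, (∀ i, ∑ x ∈ D, ℓ i x * F x = 0) → ∀ C ∈ 𝒞, ∑ x ∈ C, F x = 0 := by
  refine ⟨fun i x => if hi : i.1 < 𝒞.card then (if x ∈ (𝒞.equivFin.symm ⟨i.1, hi⟩).1 then 1 else 0) else 0, ?_⟩
  intro F hF C hC
  have h1 := hF ⟨(𝒞.equivFin ⟨C, hC⟩).1, lt_of_lt_of_le (𝒞.equivFin ⟨C, hC⟩).2 hj⟩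
  simp only [Fin.is_lt, dite_true, Fin.eta, Equiv.symm_apply_apply, ite_mul, one_mul, zero_mul] at h1
  rw [← Finset.sum_filter, Finset.filter_mem_eq_inter, Finset.inter_eq_right.2 (hD C hC)] at h1
  exact h1

/-- **the two families of competitors on a chain** -/
theorem gp_chain_main {a γ : ℝ} (ha : 0 < a) (hγ : 0 < γ) :
    ∃ C₁ C₂ : ℝ, 0 ≤ C₁ ∧ 0 ≤ C₂ ∧ ∀ (D p A box : Finset (ℤ × ℤ)) (J : ℕ) (n : ℕ → ℕ) (S : ℕ → Finset (ℤ × ℤ)) (η : ℕ → ℤ × ℤ → ℝ),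
      GpChain D p A box J n S η → 2 ≤ J →
      (∀ F : ℤ × ℤ → ℝ, gpHarm D p F → ∃ g : ℤ × ℤ → ℝ, (∀ x ∈ p, g x = 0) ∧ (∀ x ∈ A, g x = F x) ∧
        a⁻¹ * gpE D g ≤ C₁ / (J : ℝ) * gpT a γ D box F) ∧
      (∀ j : ℕ, 8 ≤ j → ∃ ℓ : Fin j → ℤ × ℤ → ℝ, ∀ F : ℤ × ℤ → ℝ, gpHarm D p F → (∀ i, ∑ x ∈ D, ℓ i x * F x = 0) →
        ∃ g : ℤ × ℤ → ℝ, (∀ x ∈ p, g x = 0) ∧ (∀ x ∈ A, g x = F x) ∧ a⁻¹ * gpE D g ≤ C₂ / (j : ℝ) ^ 2 * gpT a γ D box F) := by
  obtain ⟨CP, hCP, hP⟩ := gp_shell_poincare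
  obtain ⟨CM, hCM, hM⟩ := gp_shell_mean hCP hP
  obtain ⟨CR, hCR, hR⟩ := gp_shell_res
  obtain ⟨C0, hC0, hmean⟩ := gp_mean0 ha hγ hCP hP hCM hM
  refine ⟨256 * CP ^ 2 + 192 * C0 / a, 64 * CR ^ 2 * 1024, by positivity, by positivity, ?_⟩
  intro D p A box J n S η h hJ
  refine ⟨fun F hF => h.E0 hJ ha hγ hCP hP hF (hmean D p A box J n S η h F hF), ?_⟩
  intro j hj
  set k := Nat.log 4 (j / 8) with hk
  have hk1 : 4 ^ k ≤ j / 8 := Nat.pow_log_le_self 4 (by omega)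
  have hk2 : j / 8 < 4 ^ (k + 1) := Nat.lt_pow_succ_log_self (by norm_num) _
  obtain ⟨𝒞, hcard, hsub, hb⟩ := h.Ek hJ hCR hR k
  obtain ⟨ℓ, hℓ⟩ := gp_rows_of_cells D 𝒞 hsub j (hcard.trans (by omega))
  refine ⟨ℓ, fun F hF hker => ⟨fun x => η 0 x * F x, ?_, ?_, ?_⟩⟩
  · intro x hx; simp only []; rw [h.η_p (by omega) x hx, zero_mul]
  · intro x hx; simp only []; rw [h.η_one 0 (by omega) x (h.A_sub hx), one_mul]
  · have h1 := hb F hF (hℓ F hker)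
    have hj' : (0 : ℝ) < j := by exact_mod_cast (by omega : 0 < j)
    have h2 : (j : ℝ) ≤ 32 * 4 ^ k := by
      have : j < 32 * 4 ^ k := by rw [pow_succ] at hk2; omega
      exact_mod_cast this.le
    have h3 : 64 * CR ^ 2 / 16 ^ k ≤ 64 * CR ^ 2 * 1024 / (j : ℝ) ^ 2 := by
      have e16 : (16 : ℝ) ^ k = (4 ^ k) ^ 2 := by rw [← pow_mul, mul_comm, pow_mul]; norm_num
      rw [e16, div_le_div_iff₀ (by positivity) (by positivity)]
      have : (j : ℝ) ^ 2 ≤ (32 * 4 ^ k) ^ 2 := pow_le_pow_left₀ hj'.le h2 2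
      nlinarith [sq_nonneg CR]
    have hE0 := gpE_nonneg D F
    have h4 : a⁻¹ * gpE D F ≤ gpT a γ D box F := by
      rw [gpT]; have : 0 ≤ γ * gpAvg box F ^ 2 := by positivity
      linarith
    calc a⁻¹ * gpE D (fun x => η 0 x * F x) ≤ a⁻¹ * (64 * CR ^ 2 * 1024 / (j : ℝ) ^ 2 * gpE D F) :=
          mul_le_mul_of_nonneg_left (h1.trans (mul_le_mul_of_nonneg_right h3 hE0)) (by positivity)
      _ = 64 * CR ^ 2 * 1024 / (j : ℝ) ^ 2 * (a⁻¹ * gpE D F) := by ring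
      _ ≤ _ := mul_le_mul_of_nonneg_left h4 (by positivity)


/-!
# ROW 285, S46 post POT-S46-GPIN, file 1/2, section GEO: the two chains of shells of the annulus, and the observation row of `annGeom` (architect helper145).   Integer geometry / bookkeeping only.
`ρ = M s`, `N = 2^l ρ`; `guard = gpShell N`.
* inner chain: `n j = 2^(j+2) ρ`, `S j = ann ∩ sq (n j)`, `η j = gpCut (n j)`, `J = l - 2`.
* outer chain: `n j = 2^(2l-3-j) ρ`, `S j = ann \ sq (2^(2l-2-j) ρ)`, `η j = 1 - gpCut (n j)`, `J = l - 3`.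
Tools: `mem_sq`, `sq_mono`, `stair_subset_sq`, `sq_subset_stair`, `obox_subset_guard` (`GeomA`), `gp_cut_*` (`GPinKit`).
The shells lie in the annulus: `sq (4^(l-1) ρ) ⊆ stair M (4^l s)` by `sq_subset_stair M (4^l s) (4^(l-1) M s)`: `2 (4^(l-1) M s + 4^l s)² ≤ (M 4^l s)²` as `M ≥ 4` (`2 (M/4 + 1)² ≤ M²`); `stair M s ⊆ sq ρ ⊆ sq (n j)`.
-/


theorem gp_sq_sub_stair (M l s : ℕ) (hM : 4 ≤ M) (hl : 1 ≤ l) (hs : 1 ≤ s) :
    sq (4 ^ (l - 1) * (M * s)) ⊆ stair M (4 ^ l * s) := by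
  refine sq_subset_stair M (4 ^ l * s) _ (Nat.mul_pos (ga_pow4_pos l) hs) ?_
  obtain ⟨k, rfl⟩ : ∃ k, l = k + 1 := ⟨l - 1, by omega⟩
  rw [Nat.add_sub_cancel, pow_succ 4 k]
  generalize 4 ^ k = q
  have e1 : q * (M * s) + q * 4 * s = (q * s) * (M + 4) := by ring
  have e2 : M * (q * 4 * s) = (q * s) * (4 * M) := by ring
  rw [e1, e2, mul_pow (q * s) (M + 4), mul_pow (q * s) (4 * M), ← mul_assoc, mul_comm 2, mul_assoc]
  refine Nat.mul_le_mul_left _ ?_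
  nlinarith

theorem gp_shell_sub_ann (M l s : ℕ) (hM : 4 ≤ M) (hl : 1 ≤ l) (hs : 1 ≤ s) {n : ℕ} (h1 : M * s ≤ n)
    (h2 : 2 * n ≤ 4 ^ (l - 1) * (M * s)) : gpShell n ⊆ ann M l s := by
  intro x hx
  rw [gpShell, Finset.mem_sdiff] at hx
  rw [ann, Finset.mem_sdiff]
  exact ⟨gp_sq_sub_stair M l s hM hl hs (sq_mono h2 hx.1), fun h => hx.2 (sq_mono h1 (stair_subset_sq M s h))⟩

theorem gp_obox_card (M l s : ℕ) : (obox M l s).card = (2 ^ l * (M * s)) * (2 ^ l * (M * s)) := by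
  rw [obox, Finset.card_product, Int.card_Ico, Int.card_Ico, mul_assoc]
  generalize 2 ^ l * (M * s) = N
  congr 1
  push_cast
  have : (2 * (N : ℤ) - N) = N := by ring
  rw [this, Int.toNat_natCast]
/-- Leaf GP-G1 -/
theorem gp_chain_in (M l s : ℕ) (hM : 4 ≤ M) (hl : 4 ≤ l) (hs : 1 ≤ s) :
    GpChain (ann M l s) (guard M l s) (endIn M l s) (obox M l s) (l - 2) (fun j => 2 ^ (j + 2) * (M * s))
      (fun j => ann M l s ∩ sq (2 ^ (j + 2) * (M * s))) (fun j => gpCut (2 ^ (j + 2) * (M * s))) := by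
  have hρ : 4 ≤ M * s := le_trans hM (Nat.le_mul_of_pos_right M hs)
  have hn2 : ∀ j : ℕ, 2 ≤ 2 ^ (j + 2) * (M * s) := fun j => by
    have : 1 ≤ 2 ^ (j + 2) := Nat.one_le_pow _ _ (by norm_num)
    nlinarith
  have hstep : ∀ j : ℕ, 2 ^ (j + 1 + 2) * (M * s) = 2 * (2 ^ (j + 2) * (M * s)) := fun j => by
    rw [pow_succ]; ring
  have hJ : l - 2 + 2 = l := by omega
  refine ⟨fun j _ => hn2 j, ?_, Finset.inter_subset_left, ?_, ?_, ?_, ?_, obox_subset_guard M l s, ?_, ?_, ?_, ?_, ?_, ?_⟩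
  · intro j _
    refine Finset.inter_subset_inter_left (sq_mono ?_)
    rw [hstep]; omega
  · intro j hj
    refine Finset.subset_inter (gp_shell_sub_ann M l s hM (by omega) hs ?_ ?_) ?_
    · have : 1 ≤ 2 ^ (j + 2) := Nat.one_le_pow _ _ (by norm_num)
      nlinarith
    · rw [← mul_assoc, ← pow_succ']
      refine Nat.mul_le_mul_right _ ?_
      have e : 4 ^ (l - 1) = 2 ^ (2 * (l - 1)) := by rw [pow_mul]; norm_num
      rw [e]
      exact Nat.pow_le_pow_right (by norm_num) (by omega)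
    · simp only [hstep]
      exact Finset.sdiff_subset
  · intro j _
    rw [Finset.disjoint_left]
    intro x hx hx'
    exact (Finset.mem_sdiff.1 hx').2 (Finset.mem_inter.1 hx).2
  · simp only [hJ]
    exact ga_guard_eq M l s
  · rw [endIn]
    norm_num
  · simp only [hJ]
    rw [gp_obox_card]
    push_cast
    rw [pow_two]
  · intro j _
    exact Or.inl (hstep j)
  · intro j _ x hx
    exact gp_cut_one (hn2 j) (Finset.mem_inter.1 hx).2
  · intro j _ x hxD hx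
    refine gp_cut_zero (hn2 j) fun h => hx (Finset.mem_inter.2 ⟨hxD, ?_⟩)
    rw [hstep]; exact h
  · intro j _ e _
    exact gp_cut_grad (hn2 j) e
  · intro j _ e _ he
    exact gp_cut_supp (hn2 j) e he

/-- Leaf GP-G2 -/
theorem gp_chain_out (M l s : ℕ) (hM : 4 ≤ M) (hl : 4 ≤ l) (hs : 1 ≤ s) :
    GpChain (ann M l s) (guard M l s) (endOut M l s) (obox M l s) (l - 3) (fun j => 2 ^ (2 * l - 3 - j) * (M * s))
      (fun j => ann M l s \ sq (2 ^ (2 * l - 2 - j) * (M * s))) (fun j x => 1 - gpCut (2 ^ (2 * l - 3 - j) * (M * s)) x) := by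
  have hρ : 4 ≤ M * s := le_trans hM (Nat.le_mul_of_pos_right M hs)
  have hn2 : ∀ j : ℕ, 2 ≤ 2 ^ (2 * l - 3 - j) * (M * s) := fun j => by
    have : 1 ≤ 2 ^ (2 * l - 3 - j) := Nat.one_le_pow _ _ (by norm_num)
    nlinarith
  have hdbl : ∀ j : ℕ, j ≤ l - 3 → 2 ^ (2 * l - 2 - j) * (M * s) = 2 * (2 ^ (2 * l - 3 - j) * (M * s)) := fun j hj => by
    have : 2 * l - 2 - j = 2 * l - 3 - j + 1 := by omega
    rw [this, pow_succ]; ring
  have hnext : ∀ j : ℕ, 2 * l - 2 - (j + 1) = 2 * l - 3 - j := fun j => by omega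
  have hJ : 2 * l - 3 - (l - 3) = l := by omega
  refine ⟨fun j _ => hn2 j, ?_, Finset.sdiff_subset, ?_, ?_, ?_, ?_, obox_subset_guard M l s, ?_, ?_, ?_, ?_, ?_, ?_⟩
  · intro j _
    refine Finset.sdiff_subset_sdiff (Finset.Subset.refl _) (sq_mono ?_)
    exact Nat.mul_le_mul_right _ (Nat.pow_le_pow_right (by norm_num) (by omega))
  · intro j hj x hx
    simp only [hnext]
    refine Finset.mem_sdiff.2 ⟨gp_shell_sub_ann M l s hM (by omega) hs ?_ ?_ hx, (Finset.mem_sdiff.1 hx).2⟩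
    · have : 1 ≤ 2 ^ (2 * l - 3 - j) := Nat.one_le_pow _ _ (by norm_num)
      nlinarith
    · rw [← hdbl j hj]
      refine Nat.mul_le_mul_right _ ?_
      have e : 4 ^ (l - 1) = 2 ^ (2 * (l - 1)) := by rw [pow_mul]; norm_num
      rw [e]
      exact Nat.pow_le_pow_right (by norm_num) (by omega)
  · intro j hj
    rw [Finset.disjoint_left]
    intro x hx hx'
    refine (Finset.mem_sdiff.1 hx).2 ?_
    rw [hdbl j hj]
    exact (Finset.mem_sdiff.1 hx').1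
  · simp only [hJ]
    exact ga_guard_eq M l s
  · rw [endOut]
    have e : 4 ^ (l - 1) = 2 ^ (2 * l - 2 - 0) := by
      rw [show 2 * l - 2 - 0 = 2 * (l - 1) by omega, pow_mul]; norm_num
    rw [e]
  · simp only [hJ]
    rw [gp_obox_card]
    push_cast
    rw [pow_two]
  · intro j hj
    refine Or.inr ?_
    have : 2 * l - 3 - j = 2 * l - 3 - (j + 1) + 1 := by omega
    rw [this, pow_succ]; ring
  · intro j hj x hx
    rw [gp_cut_zero (hn2 j) (by rw [← hdbl j (by omega)]; exact (Finset.mem_sdiff.1 hx).2), sub_zero]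
  · intro j hj x hxD hx
    simp only [hnext] at hx
    have hx2 : x ∈ sq (2 ^ (2 * l - 3 - j) * (M * s)) := by
      by_contra hc
      exact hx (Finset.mem_sdiff.2 ⟨hxD, hc⟩)
    rw [gp_cut_one (hn2 j) hx2, sub_self]
  · intro j _ e _
    have := gp_cut_grad (hn2 j) e
    calc _ = (gpCut (2 ^ (2 * l - 3 - j) * (M * s)) e.snd - gpCut (2 ^ (2 * l - 3 - j) * (M * s)) e.1) ^ 2 := by ring
      _ ≤ _ := by exact_mod_cast this
  · intro j _ e _ he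
    exact gp_cut_supp (hn2 j) e fun h => he (by rw [h])

/-- Leaf GP-G3: the single row of `annGeom` is `√γ ·` the mean over `obox M l s`.
`O = Fin 1`; `obs u o = ∑_x √γ · avgRow (box) x · u x`; `region (cellsOf (obox M l 1)) = obox M l s` (`cgrid_region`, `blow_obox`, `Finset.coe_injective`; `obox M l 1 ⊆ guard M l 1 ⊆ ann M l 1 ⊆ sq (M 4^l)`);
`cellsOf (obox) ∩ T = cellsOf (obox)`; sums over the vertices: `Finset.sum_coe_sort` / `Finset.sum_subtype`; `obox M l s ⊆ ann M l s = region T` (`annGeom_region`). -/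
theorem gp_law_obs (M l s : ℕ) (γ : ℝ) (hγ : 0 < γ) (hM : 4 ≤ M) (hl : 4 ≤ l) (hs : 1 ≤ s) (F : ℤ × ℤ → ℝ) :
    ∑ o, ((annGeom M l γ).law (cgrid (M * 4 ^ l) s)).obs
      (domFn (D := (cgrid (M * 4 ^ l) s).region (annGeom M l γ).T) (cut := (annGeom M l γ).cutB (cgrid (M * 4 ^ l) s)) F) o ^ 2
      = γ * gpAvg (obox M l s) F ^ 2 := by
  have hbox : (cgrid (M * 4 ^ l) s).region (cellsOf (M * 4 ^ l) (obox M l 1)) = obox M l s :=
    ag_region_eq _ s hs _ _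
      (fun v hv => ag_ann_subset M l (guard_subset_ann M l 1 hM hl le_rfl (obox_subset_guard M l 1 hv))) (blow_obox M l s hs)
  have hint : cellsOf (M * 4 ^ l) (obox M l 1) ∩ (annGeom M l γ).T = cellsOf (M * 4 ^ l) (obox M l 1) := by
    refine Finset.inter_eq_left.2 fun κ hκ => ?_
    have h1 := (Finset.mem_filter.1 hκ).2
    exact Finset.mem_filter.2 ⟨Finset.mem_univ _, guard_subset_ann M l 1 hM hl le_rfl (obox_subset_guard M l 1 h1)⟩
  have hsub : obox M l s ⊆ (cgrid (M * 4 ^ l) s).region (annGeom M l γ).T := by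
    rw [annGeom_region M l s γ hs]
    exact fun v hv => guard_subset_ann M l s hM hl hs (obox_subset_guard M l s hv)
  have hobs : ∀ o, ((annGeom M l γ).law (cgrid (M * 4 ^ l) s)).obs
      (domFn (D := (cgrid (M * 4 ^ l) s).region (annGeom M l γ).T) (cut := (annGeom M l γ).cutB (cgrid (M * 4 ^ l) s)) F) o
      = Real.sqrt γ * gpAvg (obox M l s) F := by
    intro o
    have h1 : ((annGeom M l γ).law (cgrid (M * 4 ^ l) s)).obs
        (domFn (D := (cgrid (M * 4 ^ l) s).region (annGeom M l γ).T) (cut := (annGeom M l γ).cutB (cgrid (M * 4 ^ l) s)) F) o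
        = ∑ x : {v : ℤ × ℤ // v ∈ (cgrid (M * 4 ^ l) s).region (annGeom M l γ).T},
          (fun v : ℤ × ℤ => Real.sqrt γ * (if v ∈ obox M l s then ((obox M l s).card : ℝ)⁻¹ else 0) * F v) x.1 := by
      unfold HLaw.obs
      refine Finset.sum_congr rfl fun x _ => ?_
      show Real.sqrt γ * (annGeom M l γ).avgRow (cgrid (M * 4 ^ l) s) (cellsOf (M * 4 ^ l) (obox M l 1)) x * _ = _
      unfold CGeom.avgRow
      rw [hint, hbox]
      have h2 : (x ∈ (annGeom M l γ).sites (cgrid (M * 4 ^ l) s) (cellsOf (M * 4 ^ l) (obox M l 1))) ↔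
          (Subtype.val (p := fun v => v ∈ (cgrid (M * 4 ^ l) s).region (annGeom M l γ).T) x) ∈ obox M l s := by
        rw [← hbox]
        exact Iff.rfl
      simp only [h2]
      rfl
    rw [h1, ← Finset.sum_subtype _ (fun _ => Iff.rfl)
      (fun v : ℤ × ℤ => Real.sqrt γ * (if v ∈ obox M l s then ((obox M l s).card : ℝ)⁻¹ else 0) * F v)]
    have h3 : ∀ v : ℤ × ℤ, Real.sqrt γ * (if v ∈ obox M l s then ((obox M l s).card : ℝ)⁻¹ else 0) * F v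
        = if v ∈ obox M l s then Real.sqrt γ * ((obox M l s).card : ℝ)⁻¹ * F v else 0 := by
      intro v
      split_ifs <;> ring
    simp only [h3]
    rw [← Finset.sum_filter, Finset.filter_mem_eq_inter, Finset.inter_eq_right.2 hsub, ← Finset.mul_sum]
    unfold gpAvg
    ring
  simp only [hobs]
  have h4 : ∀ c : ℝ, ∑ _o : ((annGeom M l γ).law (cgrid (M * 4 ^ l) s)).O, c = c := by
    intro c
    exact Fin.sum_univ_one (fun _ => c)
  rw [h4, mul_pow, Real.sq_sqrt hγ.le]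

end

end Claimed.Agent.R285.S46
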