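import Claimed.Agent.R285.S46.ZD
import Claimed.Agent.R285.S46.Flat
import Claimed.Agent.R285.S46.EnAnn
import Claimed.Agent.R285.Read.S23

/-!
# ROW 285, layer S46: [S]P5.3 (average loss), sector limit and energies on annuli.
MERGED FILE (file budget of 15:22Z): sections = the former files `EnAdd`, `Sector`, `Loss` of `R285/S46/`; every section keeps its header (leaf name, plan).  Provers: replace the sorry IN PLACE, helper lemmas just above.
-/

set_option autoImplicit false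

namespace Claimed.Agent.R285.S46

open Filter Topology
open scoped Classical

/-!
# ROW 285, S46 leaf L-S46-ENADD: near-additivity of the annulus energy.   From `ann_energy` (at `l` twice and at `2l`), `ann2_eq_ann`, `ann2_eq_union`, `Men_prod`, `Men_mono`.
-/

/-- a bond between the two consecutive annuli crosses the middle wall -/
theorem seam2_of_bdry (M l s : ℕ) (e : Bond) (he : e ∈ bdry (↑(ann M l s) : Set (ℤ × ℤ)))
    (h1 : e.1 ∈ ann M l s ∪ ann M l (4 ^ l * s)) (h2 : e.snd ∈ ann M l s ∪ ann M l (4 ^ l * s)) : e ∈ seam2 M l s := by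
  have hA : ∀ v, v ∈ ann M l s → v ∈ stair M (4 ^ l * s) := fun v hv => (Finset.mem_sdiff.1 hv).1
  have hB : ∀ v, v ∈ ann M l (4 ^ l * s) → v ∉ stair M (4 ^ l * s) := fun v hv => (Finset.mem_sdiff.1 hv).2
  rcases he with ⟨a, b⟩ | ⟨a, b⟩
  · exact Or.inl ⟨hA _ a, hB _ ((Finset.mem_union.1 h2).resolve_left b)⟩
  · exact Or.inr ⟨hB _ ((Finset.mem_union.1 h1).resolve_left a), hA _ b⟩

/-- no bond of the seam has both endpoints in the inner annulus -/
theorem domBonds_ann_seam (M l s : ℕ) : domBonds (ann M l s) (seam2 M l s) = domBonds (ann M l s) ∅ := by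
  ext e
  simp only [mem_domBonds, seam2, bdry, Set.mem_ofPred_eq, Finset.mem_coe, ann, Finset.mem_sdiff, Set.mem_empty_iff_false]
  tauto

/-- no bond of the seam has both endpoints in the outer annulus -/
theorem domBonds_ann_seam' (M l s : ℕ) : domBonds (ann M l (4 ^ l * s)) (seam2 M l s) = domBonds (ann M l (4 ^ l * s)) ∅ := by
  ext e
  simp only [mem_domBonds, seam2, bdry, Set.mem_ofPred_eq, Finset.mem_coe, ann, Finset.mem_sdiff, Set.mem_empty_iff_false]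
  tauto

theorem Men_congr_cut (D : Finset (ℤ × ℤ)) (cut cut' : Set Bond) (P : Set (ℤ × ℤ)) (τ : Bond → ℤ) (h : domBonds D cut = domBonds D cut') :
    Men D cut P τ = Men D cut' P τ :=
  le_antisymm (Men_mono D D cut' cut P τ h.le (Finset.Subset.refl _)) (Men_mono D D cut cut' P τ h.ge (Finset.Subset.refl _))

theorem Men_ann2_seam (M l s : ℕ) (hM : 4 ≤ M) (hl : 1 ≤ l) (hs : 1 ≤ s) (τ : Bond → ℤ) :
    Men (ann2 M l s) (seam2 M l s) ∅ τ = Men (ann M l s) ∅ ∅ τ + Men (ann M l (4 ^ l * s)) ∅ ∅ τ := by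
  rw [ann2_eq_union M l s hM hl hs, Men_prod _ _ _ _ _ (ann_disjoint M l s) (fun e he h1 h2 => seam2_of_bdry M l s e he h1 h2),
    Men_congr_cut _ _ _ _ _ (domBonds_ann_seam M l s), Men_congr_cut _ _ _ _ _ (domBonds_ann_seam' M l s)]

/-- POT (E1'): near-additivity under cutting along the middle wall (the lower bound `0 ≤` is restriction). -/
theorem ann_energy_add : ∃ C : ℝ, ∀ M ≥ 4, ∀ l ≥ 1, ∃ s0, ∀ s ≥ s0,
    0 ≤ Men (ann2 M l s) ∅ ∅ ray - Men (ann2 M l s) (seam2 M l s) ∅ ray ∧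
      Men (ann2 M l s) ∅ ∅ ray - Men (ann2 M l s) (seam2 M l s) ∅ ray ≤ C / M := by
  obtain ⟨C, hC⟩ := ann_energy
  refine ⟨3 * C, fun M hM l hl => ?_⟩
  obtain ⟨s1, h1⟩ := hC M hM l hl
  obtain ⟨s2, h2⟩ := hC M hM (2 * l) (by omega)
  refine ⟨max 1 (max s1 s2), fun s hs => ⟨?_, ?_⟩⟩
  · refine sub_nonneg.2 (Men_mono _ _ _ _ _ _ ?_ (Finset.Subset.refl _))
    intro e he
    obtain ⟨a, b', _⟩ := mem_domBonds.1 he
    exact mem_domBonds.2 ⟨a, b', fun h => h⟩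
  · have hs1 : 1 ≤ s := (le_max_left _ _).trans hs
    have hs1' : s1 ≤ s := ((le_max_left _ _).trans (le_max_right _ _)).trans hs
    have hs2' : s2 ≤ s := ((le_max_right _ _).trans (le_max_right _ _)).trans hs
    have hs3 : s1 ≤ 4 ^ l * s := hs1'.trans (Nat.le_mul_of_pos_left s (by positivity))
    have e1 := abs_le.1 (h1 s hs1')
    have e2 := abs_le.1 (h1 (4 ^ l * s) hs3)
    have e3 := abs_le.1 (h2 s hs2')
    rw [Men_ann2_seam M l s hM hl hs1, ann2_eq_ann]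
    have hlog : Real.log ((4 : ℝ) ^ (2 * l)) = 2 * Real.log ((4 : ℝ) ^ l) := by
      rw [Real.log_pow, Real.log_pow]; push_cast; ring
    rw [hlog] at e3
    have : 3 * C / M = C / M + C / M + C / M := by ring
    rw [this]
    linarith [e1.1, e2.1, e3.2]

/-!
# ROW 285, S46 leaf L-S46-SECTOR (PROVED, helper173): [S]T3.1 on annuli.   Instance of `S23.sector_limit` (Read/S23, helper144) through `S23.secDefect_eq`; string `annRay`.
`ann_sector1`: `Γ = annGeom0 M l`, `g k = cgrid _ k`, `ν k = max k 1`, `K = 1`; the string `F = facesOf _ {e | ray e = 1}`: `faceConn g F q = q • ray` on the bonds of the graph (`annGeom0_faceConn`).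
 `ratioL` of `Γ.law g` (no pin, no observation) = `Fsec` (same lattice: `pinned ∅ = flatL _ ∅ ∅`; `O = Fin 0` versus `Empty`: both Gaussian factors are `1`; an `LSys` congruence lemma or `ZD_eq_ZG`).
 `hbd`: `gEn = a⁻¹ Men (q • ray) ≤ a⁻¹ q² Men ray`, bounded by `ann_energy` (or by any fixed trial field).
`ann_sector`: `ann2 M l s = ann M (2 l) s`; the CUT graph is the disjoint union of `ann M l s` and `ann M l (λ s)`: `ZD_prod`, `Men_prod` (NO `CGeom` with a cut wall: `CGeom.NoDiag` fails for every geometry with a full cut line).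
-/

/-- bridge: the defect of [S]T3.1 (S23) in the vocabulary of this layer -/
theorem secDefect_eq_Fsec (b : ℝ) (ha : 0 < aLim b) {m₁ m₂ r : ℕ} (Γ : CGeom m₁ m₂) (hcut : Γ.cutF = ∅) (hpin : Γ.pin = ∅) (g : DGrid m₁ m₂)
    (R : Fin r → S23.Ray) (D : Finset (ℤ × ℤ)) (τ : Bond → ℤ) (hD : g.region Γ.T = D) (hτ : ∀ e ∈ domBonds D ∅, τ e = S23.connB g R e) :
    S23.secDefect b Γ g R = -2 * Real.log (Fsec b D ∅ ∅ τ) - (aLim b)⁻¹ * Men D ∅ ∅ τ := by
  subst hD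
  have hΛ : (dlaw (g.region Γ.T) ∅ ∅ ∅).Λ = HLaw.pinned (domSet (↑(g.region Γ.pin) : Set (ℤ × ℤ))) := by
    ext h
    constructor
    · intro _ v hv
      rw [hpin] at hv
      simp [domSet, DGrid.region] at hv
      exact absurd hv (Set.notMem_empty _)
    · intro _
      refine ⟨fun v hv => absurd hv (by simp [domSet]), fun F hF => ?_⟩
      rw [Set.image_empty] at hF
      exact absurd hF (Set.notMem_empty _)
  have : IsEmpty (dlaw (g.region Γ.T) ∅ ∅ ∅).O := inferInstanceAs (IsEmpty Empty)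
  rw [S23.secDefect_eq b Γ hcut g R (dlaw (g.region Γ.T) ∅ ∅ ∅) hΛ (fun o => o.elim)]
  have e1 : (domFnE (S23.connB g R) : (domG (g.region Γ.T) ∅).E → ℤ) = domFnE τ := by
    funext e
    exact (hτ _ e.2).symm
  rw [e1, gEn_eq_Men (aLim b) ha]
  congr 2


/-- the string of coarse faces below the positive half axis, from the inner to the outer wall of the annulus -/
def annRay (M l : ℕ) (q : ℤ) : S23.Ray := ⟨true, M * 4 ^ l - 1, M * 4 ^ l + (M - 1), M * 4 ^ l + (M - 1) * 4 ^ l, q⟩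

theorem agf_row {j : ℤ} (hj : j = -1 ∨ j = 0) : agf j = 1 := by
  rcases hj with rfl | rfl <;> norm_num [agf]

theorem agf_of_nonneg {k : ℤ} (hk : 0 ≤ k) : agf k = (k + 1) ^ 2 := by
  unfold agf
  exact max_eq_right (by nlinarith)

/-- membership in the annulus at scale one, on the two rows along the positive half axis -/
theorem ann1_row (M l : ℕ) (hM : 4 ≤ M) {i j : ℤ} (hi : 0 ≤ i) (hj : j = -1 ∨ j = 0) :
    (i, j) ∈ ann M l 1 ↔ (M : ℤ) - 1 ≤ i ∧ i < ((M : ℤ) - 1) * ((4 ^ l : ℕ) : ℤ) := by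
  have hL : (0 : ℤ) < ((4 ^ l : ℕ) : ℤ) := by positivity
  have hjL : j / ((4 ^ l : ℕ) : ℤ) = -1 ∨ j / ((4 ^ l : ℕ) : ℤ) = 0 := by
    rcases hj with rfl | rfl
    · left
      exact (ag_ediv_iff hL).1 ⟨by omega, by omega⟩
    · right; simp
  have hiL : 0 ≤ i / ((4 ^ l : ℕ) : ℤ) := Int.ediv_nonneg hi hL.le
  have hM0 : (4 : ℤ) ≤ (M : ℤ) := by exact_mod_cast hM
  rw [ag_mem_ann1, agf_row hj, agf_row hjL, agf_of_nonneg hi, agf_of_nonneg hiL]
  have key : ∀ k : ℤ, 0 ≤ k → ((k + 1) ^ 2 + 1 ≤ (M : ℤ) ^ 2 ↔ k + 1 ≤ (M : ℤ) - 1) := by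
    intro k hk
    constructor
    · intro h
      by_contra hc
      have : (M : ℤ) ≤ k + 1 := by omega
      nlinarith
    · intro h
      nlinarith
  rw [key _ hiL, key _ hi]
  constructor
  · rintro ⟨h1, h2⟩
    refine ⟨by omega, ?_⟩
    have : i / ((4 ^ l : ℕ) : ℤ) < (M : ℤ) - 1 := by omega
    exact (Int.ediv_lt_iff_lt_mul hL).1 this
  · rintro ⟨h1, h2⟩
    refine ⟨?_, by omega⟩
    have : i / ((4 ^ l : ℕ) : ℤ) < (M : ℤ) - 1 := (Int.ediv_lt_iff_lt_mul hL).2 h2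
    omega


theorem annRay_has (M l : ℕ) (q : ℤ) (A : Finset (ℤ × ℤ)) (i j : ℕ) :
    (annRay M l q).has (cellsOf (M * 4 ^ l) A) i j ↔ (i < 2 * (M * 4 ^ l) ∧ j < 2 * (M * 4 ^ l)) ∧ (((i : ℤ) - (M * 4 ^ l : ℕ), (j : ℤ) - (M * 4 ^ l : ℕ)) : ℤ × ℤ) ∈ A := by
  unfold S23.Ray.has annRay
  simp only [if_true]
  constructor
  · rintro ⟨κ, hκ, h1, h2⟩
    rw [ag_mem_cellsOf] at hκ
    subst h1 h2
    exact ⟨⟨κ.1.2, κ.2.2⟩, hκ⟩
  · rintro ⟨⟨h1, h2⟩, h3⟩
    exact ⟨(⟨i, h1⟩, ⟨j, h2⟩), (ag_mem_cellsOf _ _ _).2 h3, rfl, rfl⟩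

theorem annRay_ok (M l : ℕ) (hM : 4 ≤ M) (hl : 1 ≤ l) (q : ℤ) : S23.RaysOk (annGeom0 M l) (fun _ : Fin 1 => annRay M l q) := by
  refine ⟨fun _ => ?_, fun i j hij => absurd (Subsingleton.elim i j) hij⟩
  obtain ⟨L, hL⟩ : ∃ L : ℕ, L = 4 ^ l := ⟨_, rfl⟩
  have hL4 : 4 ≤ L := by
    rw [hL]
    calc 4 = 4 ^ 1 := by norm_num
      _ ≤ 4 ^ l := Nat.pow_le_pow_right (by norm_num) hl
  obtain ⟨P, hP⟩ : ∃ P : ℕ, P = (M - 1) * L := ⟨_, rfl⟩
  have hm : M * L = P + L := by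
    rw [hP]
    obtain ⟨n, rfl⟩ : ∃ n, M = n + 1 := ⟨M - 1, by omega⟩
    simp only [Nat.add_sub_cancel]
    ring
  have hP4 : 4 * (M - 1) ≤ P := by
    rw [hP, mul_comm]
    exact Nat.mul_le_mul_left _ hL4
  have hPz : ((M : ℤ) - 1) * ((4 ^ l : ℕ) : ℤ) = (P : ℤ) := by
    rw [hP, ← hL]
    push_cast [Nat.cast_sub (show 1 ≤ M by omega)]
    ring
  have hT : (annGeom0 M l).T = cellsOf (M * 4 ^ l) (ann M l 1) := rfl
  have hlo : (annRay M l q).lo = M * L + (M - 1) := by rw [hL]; rfl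
  have hhi : (annRay M l q).hi = M * L + P := by rw [hP, hL]; rfl
  have hpos : (annRay M l q).pos = M * L - 1 := by rw [hL]; rfl
  have row : ∀ i j : ℕ, M * L ≤ i → (j = M * L - 1 ∨ j = M * L - 1 + 1) →
      ((annRay M l q).has (annGeom0 M l).T i j ↔ i < 2 * (M * L) ∧ M * L + (M - 1) ≤ i ∧ i < M * L + P) := by
    intro i j hi hj
    rw [hT, annRay_has, ann1_row M l hM (by rw [← hL]; push_cast; omega) (by rw [← hL]; push_cast; omega), hPz, ← hL]
    push_cast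
    omega
  refine ⟨by rw [hlo, hhi]; omega, ?_, ?_, ?_⟩
  · intro i h1 h2
    rw [hlo] at h1
    rw [hhi] at h2
    rw [hpos, row i _ (by omega) (Or.inl rfl), row i _ (by omega) (Or.inr rfl)]
    omega
  · intro i hi
    rw [hlo, hhi] at hi
    rw [hpos, row i _ (by omega) (Or.inl rfl), row i _ (by omega) (Or.inr rfl)]
    omega
  · exact Finset.disjoint_empty_right _


theorem annRay_cross (M l s : ℕ) (hM : 4 ≤ M) (hs : 1 ≤ s) (q : ℤ) (e : Bond) (he : e.1 ∈ ann M l s) :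
    e ∈ S23.crossB (cgrid (M * 4 ^ l) s) ((annRay M l q).faces : Finset (S23.CFace (2 * (M * 4 ^ l)) (2 * (M * 4 ^ l)))) ↔ ray e = 1 := by
  have hS : (0 : ℤ) < (s : ℤ) := by exact_mod_cast hs
  have hL1 : 1 ≤ 4 ^ l := Nat.one_le_pow _ _ (by norm_num)
  have hm1 : 1 ≤ M * 4 ^ l := Nat.mul_pos (by omega) hL1
  have hle : (M - 1) * 4 ^ l + 4 ^ l = M * 4 ^ l := by
    obtain ⟨n, rfl⟩ : ∃ n, M = n + 1 := ⟨M - 1, by omega⟩
    simp only [Nat.add_sub_cancel]
    ring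
  have hPz : ((M : ℤ) - 1) * ((4 ^ l : ℕ) : ℤ) = (((M - 1) * 4 ^ l : ℕ) : ℤ) := by
    push_cast [Nat.cast_sub (show 1 ≤ M by omega)]
    ring
  have hmem : ∀ f : S23.CFace (2 * (M * 4 ^ l)) (2 * (M * 4 ^ l)), f ∈ ((annRay M l q).faces : Finset (S23.CFace (2 * (M * 4 ^ l)) (2 * (M * 4 ^ l)))) ↔
      f.2 = false ∧ f.1.2.1 = M * 4 ^ l - 1 ∧ M * 4 ^ l + (M - 1) ≤ f.1.1.1 ∧ f.1.1.1 < M * 4 ^ l + (M - 1) * 4 ^ l := by
    intro f
    unfold S23.Ray.faces annRay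
    simp only [Finset.mem_filter, Finset.mem_univ, true_and, if_true]
  rw [ag_ray_eq_one]
  constructor
  · rintro ⟨f, hf, h2, h3, h4⟩
    obtain ⟨g1, g2, g3, g4⟩ := (hmem f).1 hf
    have h2' : e.2 = false := h2.trans g1
    rw [ag_mem_cell _ s hs] at h3 h4
    have hsnd : e.snd = (e.1.1, e.1.2 + 1) := by
      unfold Bond.snd
      rw [h2']
      rfl
    rw [hsnd] at h4
    simp only at h4
    obtain ⟨a1, a2⟩ := (ag_ediv_iff hS).2 h3.1
    obtain ⟨b1, b2⟩ := (ag_ediv_iff hS).2 h3.2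
    have hk2 : ((f.1.2.1 : ℕ) : ℤ) - ((M * 4 ^ l : ℕ) : ℤ) = -1 := by
      rw [g2]; push_cast [Nat.cast_sub hm1]; ring
    have hk1 : 0 ≤ ((f.1.1.1 : ℕ) : ℤ) - ((M * 4 ^ l : ℕ) : ℤ) := by
      have : ((M * 4 ^ l : ℕ) : ℤ) ≤ ((f.1.1.1 : ℕ) : ℤ) := by exact_mod_cast (by omega : M * 4 ^ l ≤ f.1.1.1)
      omega
    rw [hk2] at b1 b2
    refine ⟨h2', ?_, ?_⟩
    · by_contra hne
      apply h4
      refine ⟨h3.1, ?_⟩
      rw [hk2]
      exact (ag_ediv_iff hS).1 ⟨by omega, by omega⟩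
    · nlinarith
  · rintro ⟨h1, h2, h3⟩
    have hb : e.1 ∈ blow s (ann M l 1) := by rw [blow_ann M l s hs]; exact Finset.mem_coe.2 he
    rw [ga_mem_blow] at hb
    have hj : e.1.2 / (s : ℤ) = -1 := by
      rw [h2]
      exact (ag_ediv_iff hS).1 ⟨by omega, by omega⟩
    have hi : 0 ≤ e.1.1 / (s : ℤ) := Int.ediv_nonneg h3 hS.le
    obtain ⟨c1, c2⟩ := (ann1_row M l hM hi (Or.inl hj)).1 hb
    rw [hPz] at c2
    refine ⟨((⟨(e.1.1 / (s : ℤ) + (M * 4 ^ l : ℕ)).toNat, by omega⟩, ⟨M * 4 ^ l - 1, by omega⟩), false), ?_, h1, ?_, ?_⟩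
    · rw [hmem]
      simp only
      refine ⟨trivial, trivial, ?_, ?_⟩ <;> omega
    · rw [ag_mem_cell _ s hs]
      simp only
      rw [Int.toNat_of_nonneg (by omega), add_sub_cancel_right, hj]
      refine ⟨rfl, ?_⟩
      push_cast [Nat.cast_sub hm1]; ring
    · have hsnd : e.snd = (e.1.1, e.1.2 + 1) := by
        unfold Bond.snd
        rw [h1]
        rfl
      rw [hsnd, ag_mem_cell _ s hs]
      simp only
      rintro ⟨-, h5⟩
      rw [h2] at h5
      push_cast [Nat.cast_sub hm1] at h5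
      norm_num at h5

theorem annRay_conn (M l s : ℕ) (hM : 4 ≤ M) (hs : 1 ≤ s) (q : ℤ) (e : Bond) (he : e ∈ domBonds (ann M l s) ∅) :
    (q • ray) e = S23.connB (cgrid (M * 4 ^ l) s) (fun _ : Fin 1 => annRay M l q) e := by
  have h2 := annRay_cross M l s hM hs q e (mem_domBonds.1 he).1
  unfold S23.connB
  rw [Fin.sum_univ_one]
  by_cases h3 : ray e = 1
  · rw [if_pos (h2.2 h3)]
    show q • ray e = q
    rw [h3]; simp
  · rw [if_neg (fun h => h3 (h2.1 h))]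
    have h4 : ray e = 0 := by
      unfold ray at h3 ⊢
      split_ifs at h3 ⊢ with h5
      · exact absurd rfl h3
      · rfl
    show q • ray e = 0
    rw [h4]; simp

/-- [S]T3.1 on one annulus -/
theorem ann_sector1 (b : ℝ) (hb : 0 < b) (ha : 0 < aLim b) (M l : ℕ) (hM : 4 ≤ M) (hl : 1 ≤ l) (q : ℤ) :
    Tendsto (fun s : ℕ => -2 * Real.log (Fsec b (ann M l s) ∅ ∅ (q • ray)) - (aLim b)⁻¹ * Men (ann M l s) ∅ ∅ (q • ray)) atTop (𝓝 0) := by
  have h := S23.sector_limit b hb ha (annGeom0 M l) (annGeom0_noDiag M l hM hl) rfl (fun _ : Fin 1 => annRay M l q) (annRay_ok M l hM hl q)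
    1 (fun k => cgrid (M * 4 ^ l) k) (fun k => max k 1) (cgrid_admissible _)
  refine h.congr' ?_
  filter_upwards [eventually_ge_atTop 1] with s hs
  exact secDefect_eq_Fsec b ha (annGeom0 M l) rfl rfl (cgrid (M * 4 ^ l) s) _ (ann M l s) (q • ray) (annGeom0_region M l s hs)
    (fun e he => annRay_conn M l s hM hs q e he)


theorem ZD_ann2_seam (b : ℝ) (hb : 0 < b) (M l s : ℕ) (hM : 4 ≤ M) (hl : 1 ≤ l) (hs : 1 ≤ s) (τ : Bond → ℤ) :
    ZD b (ann2 M l s) (seam2 M l s) ∅ ∅ 0 τ = ZD b (ann M l s) ∅ ∅ ∅ 0 τ * ZD b (ann M l (4 ^ l * s)) ∅ ∅ ∅ 0 τ := by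
  rw [ann2_eq_union M l s hM hl hs, ZD_prod b hb _ _ _ _ _ _ _ (ann_disjoint M l s) (fun e he h1 h2 => seam2_of_bdry M l s e he h1 h2)
      (fun F hF => absurd hF (Set.notMem_empty _)),
    ZD_congr_set b _ _ ∅ ∅ ∅ ∅ ∅ 0 τ (domBonds_ann_seam M l s) rfl, ZD_congr_set b _ _ ∅ ∅ ∅ ∅ ∅ 0 τ (domBonds_ann_seam' M l s) rfl]

/-- [S]T3.1 on two consecutive annuli, with and without the middle wall, in the form consumed by `average_loss`. -/
theorem ann_sector (b : ℝ) (hb : 0 < b) (ha : 0 < aLim b) (M l : ℕ) (hM : 4 ≤ M) (hl : 1 ≤ l) (q : ℤ) :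
    Tendsto (fun s : ℕ => -2 * Real.log (Fsec b (ann2 M l s) ∅ ∅ (q • ray)) - (aLim b)⁻¹ * Men (ann2 M l s) ∅ ∅ (q • ray)) atTop (𝓝 0) ∧
    Tendsto (fun s : ℕ => -2 * Real.log (Fsec b (ann2 M l s) (seam2 M l s) ∅ (q • ray)) - (aLim b)⁻¹ * Men (ann2 M l s) (seam2 M l s) ∅ (q • ray)) atTop (𝓝 0) := by
  constructor
  · simp_rw [ann2_eq_ann]
    exact ann_sector1 b hb ha M (2 * l) hM (by omega) q
  · have h1 := ann_sector1 b hb ha M l hM hl q
    have hmul : Tendsto (fun s : ℕ => 4 ^ l * s) atTop atTop :=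
      tendsto_atTop_mono (fun s => Nat.le_mul_of_pos_left s (by positivity)) tendsto_id
    have h2 := h1.comp hmul
    have h3 := h1.add h2
    rw [add_zero] at h3
    refine h3.congr' ?_
    filter_upwards [eventually_ge_atTop 1] with s hs
    have p1 := ZD_pos b hb (ann M l s) ∅ ∅ ∅ 0 (q • ray)
    have p2 := ZD_pos b hb (ann M l (4 ^ l * s)) ∅ ∅ ∅ 0 (q • ray)
    have p3 := ZD_pos b hb (ann M l s) ∅ ∅ ∅ 0 0
    have p4 := ZD_pos b hb (ann M l (4 ^ l * s)) ∅ ∅ ∅ 0 0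
    have e : Fsec b (ann2 M l s) (seam2 M l s) ∅ (q • ray) = Fsec b (ann M l s) ∅ ∅ (q • ray) * Fsec b (ann M l (4 ^ l * s)) ∅ ∅ (q • ray) := by
      unfold Fsec
      rw [ZD_ann2_seam b hb M l s hM hl hs, ZD_ann2_seam b hb M l s hM hl hs]
      field_simp
    have q1 : Fsec b (ann M l s) ∅ ∅ (q • ray) ≠ 0 := (div_pos p1 p3).ne'
    have q2 : Fsec b (ann M l (4 ^ l * s)) ∅ ∅ (q • ray) ≠ 0 := (div_pos p2 p4).ne'
    rw [e, Men_ann2_seam M l s hM hl hs, Real.log_mul q1 q2]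
    simp only [Function.comp]
    ring

/-!
# ROW 285, S46 leaf L-S46-LOSS: [S]P5.3, (10) and (11).   Assembly.
* `avgK_sector`: algebra (`0 • ray = 0`, `ZD_pos`).
* `avgK_zero_lower`: `avgK 0 = pFlat_cut (guards2) / pFlat_res (guards2)`; `kernel_average_lower` with `ι = Bool`, `D = ann2`, `cut = ∅`, `seam = seam2`, `A = (ann s, ann λs)`, `H = (endOut s, endIn λs)`, `p` = the guards
   (`seam_endpoints`, `guard_subset_ann`, `guard_oneComp` + `OneComp.mono`, `ann_disjoint`, `ann2_eq_union`); `Dbar` on `(ann, ∅ ∪ seam2)` = `Dbar` on `(ann, ∅)` (`ZD_congr_set`: no seam bond has both endpoints in one annulus).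
* `average_loss`: given `ξ`: `C` from `ann_energy_add`, `M0` with `C/(2 a M0) ≤ ξ/4`; `flat_interaction M (ξ/8)` at the scales `s` and `λ s`; `ann_sector` for `q = ±1` (`Men_neg`), error `≤ ξ/4` eventually; `1 - e^{-x} ≤ x`.
-/

/-- **[S]P5.3 (10)**: exact. -/
theorem avgK_sector (b : ℝ) (hb : 0 < b) (M l s : ℕ) (q : ℤ) :
    avgK b M l s q = avgK b M l s 0 * (Fsec b (ann2 M l s) ∅ ∅ (q • ray) / Fsec b (ann2 M l s) (seam2 M l s) ∅ (q • ray)) := by
  unfold avgK Fsec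
  rw [zero_smul]
  have p1 := ZD_pos b hb (ann2 M l s) ∅ ∅ ∅ 0 0
  have p2 := ZD_pos b hb (ann2 M l s) (seam2 M l s) ∅ ∅ 0 0
  have p3 := ZD_pos b hb (ann2 M l s) ∅ ∅ ∅ 0 (q • ray)
  have p4 := ZD_pos b hb (ann2 M l s) (seam2 M l s) ∅ ∅ 0 (q • ray)
  have p5 := ZD_pos b hb (ann2 M l s) ∅ ∅ (guards2 M l s) 0 0
  have p6 := ZD_pos b hb (ann2 M l s) (seam2 M l s) ∅ (guards2 M l s) 0 0
  field_simp

theorem seam2_of_bdry' (M l s : ℕ) (e : Bond) (he : e ∈ bdry (↑(ann M l (4 ^ l * s)) : Set (ℤ × ℤ)))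
    (h1 : e.1 ∈ ann M l s ∪ ann M l (4 ^ l * s)) (h2 : e.snd ∈ ann M l s ∪ ann M l (4 ^ l * s)) : e ∈ seam2 M l s := by
  have hA : ∀ v, v ∈ ann M l s → v ∈ stair M (4 ^ l * s) := fun v hv => (Finset.mem_sdiff.1 hv).1
  have hB : ∀ v, v ∈ ann M l (4 ^ l * s) → v ∉ stair M (4 ^ l * s) := fun v hv => (Finset.mem_sdiff.1 hv).2
  rcases he with ⟨a, b⟩ | ⟨a, b⟩
  · exact Or.inr ⟨hB _ a, hA _ ((Finset.mem_union.1 h2).resolve_right b)⟩
  · exact Or.inl ⟨hA _ ((Finset.mem_union.1 h1).resolve_right a), hB _ b⟩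

theorem Dbar_congr_cut (b : ℝ) (D : Finset (ℤ × ℤ)) (cut cut' : Set Bond) (H p : Set (ℤ × ℤ)) (h : domBonds D cut = domBonds D cut') :
    Dbar b D cut H p = Dbar b D cut' H p := by
  unfold Dbar pFlat
  simp only [ZD_congr_set b D cut cut' ∅ ∅ _ _ 0 0 h rfl]

/-- **[S](9)** for a regular interface -/
theorem avgK_zero_lower (b : ℝ) (hb : 0 < b) (M l s : ℕ) (hM : 4 ≤ M) (hl : 4 ≤ l) (hs : 1 ≤ s) :
    Real.exp (-(Dbar b (ann M l s) ∅ ↑(endOut M l s) ↑(guard M l s)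
      + Dbar b (ann M l (4 ^ l * s)) ∅ ↑(endIn M l (4 ^ l * s)) ↑(guard M l (4 ^ l * s)))) ≤ avgK b M l s 0 := by
  have hl1 : 1 ≤ l := by omega
  have hs' : 1 ≤ 4 ^ l * s := Nat.one_le_iff_ne_zero.2 (by positivity)
  have hun := ann2_eq_union M l s hM hl1 hs
  have key := kernel_average_lower b hb (ann2 M l s) ∅ (seam2 M l s) ∅
    (fun ℓ : Bool => if ℓ then ann M l s else ann M l (4 ^ l * s))
    (fun ℓ : Bool => if ℓ then (↑(endOut M l s) : Set (ℤ × ℤ)) else ↑(endIn M l (4 ^ l * s)))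
    (fun ℓ : Bool => if ℓ then (↑(guard M l s) : Set (ℤ × ℤ)) else ↑(guard M l (4 ^ l * s)))
    (by
      rintro (_ | _)
      · simp only [Bool.false_eq_true, if_false, hun]; exact Finset.subset_union_right
      · simp only [if_true, hun]; exact Finset.subset_union_left)
    (by
      rintro (_ | _) (_ | _) h
      · exact absurd rfl h
      · simpa using (ann_disjoint M l s).symm
      · simpa using ann_disjoint M l s
      · exact absurd rfl h)
    (by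
      rintro (_ | _)
      · simp only [Bool.false_eq_true, if_false, endIn]
        exact_mod_cast Finset.inter_subset_left
      · simp only [if_true, endOut]
        exact_mod_cast Finset.sdiff_subset)
    (by
      rintro (_ | _)
      · simp only [Bool.false_eq_true, if_false]
        exact_mod_cast guard_subset_ann M l (4 ^ l * s) hM hl hs'
      · simp only [if_true]
        exact_mod_cast guard_subset_ann M l s hM hl hs)
    (by
      rintro (_ | _)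
      · simp only [Bool.false_eq_true, if_false, Set.empty_union]
        refine (guard_oneComp M l (4 ^ l * s) hM hs').mono ?_ (Set.Subset.refl _)
        rw [domBonds_ann_seam']
        intro e he
        obtain ⟨a, b', c⟩ := mem_domBonds.1 he
        exact mem_domBonds.2 ⟨guard_subset_ann M l (4 ^ l * s) hM hl hs' a, guard_subset_ann M l (4 ^ l * s) hM hl hs' b', c⟩
      · simp only [if_true, Set.empty_union]
        refine (guard_oneComp M l s hM hs).mono ?_ (Set.Subset.refl _)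
        rw [domBonds_ann_seam]
        intro e he
        obtain ⟨a, b', c⟩ := mem_domBonds.1 he
        exact mem_domBonds.2 ⟨guard_subset_ann M l s hM hl hs a, guard_subset_ann M l s hM hl hs b', c⟩)
    (fun ℓ => Set.empty_disjoint _)
    (by
      rintro (_ | _) e he h1 h2
      · simp only [Bool.false_eq_true, if_false] at he
        rw [hun] at h1 h2
        exact Or.inr (seam2_of_bdry' M l s e he h1 h2)
      · simp only [if_true] at he
        rw [hun] at h1 h2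
        exact Or.inr (seam2_of_bdry M l s e he h1 h2))
    (by
      rintro (_ | _) e he
      · simp only [Bool.false_eq_true, if_false]
        exact (seam_endpoints M l s hM hl hs e he).2
      · simp only [if_true]
        exact (seam_endpoints M l s hM hl hs e he).1)
  have hrange : Set.range (fun ℓ : Bool => if ℓ then (↑(guard M l s) : Set (ℤ × ℤ)) else ↑(guard M l (4 ^ l * s))) = guards2 M l s := by
    ext F
    simp only [Set.mem_range, Bool.exists_bool, guards2, Set.mem_insert_iff, Set.mem_singleton_iff, Bool.false_eq_true, if_false, if_true]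
    constructor
    · rintro (h | h)
      · exact Or.inr h.symm
      · exact Or.inl h.symm
    · rintro (h | h)
      · exact Or.inr h.symm
      · exact Or.inl h.symm
  rw [hrange, Fintype.sum_bool, Set.empty_union] at key
  simp only [Bool.false_eq_true, if_false, if_true] at key
  rw [Dbar_congr_cut b _ _ _ _ _ (domBonds_ann_seam M l s), Dbar_congr_cut b _ _ _ _ _ (domBonds_ann_seam' M l s)] at key
  unfold pFlat at key
  unfold avgK
  rw [zero_smul]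
  have p1 := ZD_pos b hb (ann2 M l s) ∅ ∅ ∅ 0 0
  have p2 := ZD_pos b hb (ann2 M l s) (seam2 M l s) ∅ ∅ 0 0
  have p5 := ZD_pos b hb (ann2 M l s) ∅ ∅ (guards2 M l s) 0 0
  have p6 := ZD_pos b hb (ann2 M l s) (seam2 M l s) ∅ (guards2 M l s) 0 0
  have e1 : ZD b (ann2 M l s) ∅ ∅ ∅ 0 0 / ZD b (ann2 M l s) (seam2 M l s) ∅ ∅ 0 0 /
      (ZD b (ann2 M l s) ∅ ∅ (guards2 M l s) 0 0 / ZD b (ann2 M l s) (seam2 M l s) ∅ (guards2 M l s) 0 0) =
      (ZD b (ann2 M l s) (seam2 M l s) ∅ (guards2 M l s) 0 0 / ZD b (ann2 M l s) (seam2 M l s) ∅ ∅ 0 0) /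
        (ZD b (ann2 M l s) ∅ ∅ (guards2 M l s) 0 0 / ZD b (ann2 M l s) ∅ ∅ ∅ 0 0) := by
    field_simp
  rw [e1, le_div_iff₀ (by positivity)]
  exact key

theorem Fsec_pos (b : ℝ) (hb : 0 < b) (D : Finset (ℤ × ℤ)) (cut : Set Bond) (P : Set (ℤ × ℤ)) (τ : Bond → ℤ) : 0 < Fsec b D cut P τ :=
  div_pos (ZD_pos b hb _ _ _ _ _ _) (ZD_pos b hb _ _ _ _ _ _)

theorem Fsec_zero (b : ℝ) (hb : 0 < b) (D : Finset (ℤ × ℤ)) (cut : Set Bond) (P : Set (ℤ × ℤ)) : Fsec b D cut P 0 = 1 :=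
  div_self (ZD_pos b hb _ _ _ _ _ _).ne'

/-- the sector part of the loss, for `q = ± 1` -/
theorem loss_sector_aux (b : ℝ) (hb : 0 < b) (ha : 0 < aLim b) (M l : ℕ) (hM : 4 ≤ M) (hl : 1 ≤ l) (q : ℤ) (ξ : ℝ) (hξ : 0 < ξ) :
    ∀ᶠ s : ℕ in atTop, Real.exp (-(ξ / 4) - (aLim b)⁻¹ * (Men (ann2 M l s) ∅ ∅ (q • ray) - Men (ann2 M l s) (seam2 M l s) ∅ (q • ray)) / 2)
      ≤ Fsec b (ann2 M l s) ∅ ∅ (q • ray) / Fsec b (ann2 M l s) (seam2 M l s) ∅ (q • ray) := by
  obtain ⟨t1, t2⟩ := ann_sector b hb ha M l hM hl q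
  have e1 := (Metric.tendsto_nhds.1 t1) (ξ / 4) (by positivity)
  have e2 := (Metric.tendsto_nhds.1 t2) (ξ / 4) (by positivity)
  filter_upwards [e1, e2] with s h1 h2
  rw [Real.dist_eq, sub_zero] at h1 h2
  have p1 := Fsec_pos b hb (ann2 M l s) ∅ ∅ (q • ray)
  have p2 := Fsec_pos b hb (ann2 M l s) (seam2 M l s) ∅ (q • ray)
  rw [← Real.exp_log (div_pos p1 p2), Real.log_div p1.ne' p2.ne']
  refine Real.exp_le_exp.2 ?_
  have a1 := abs_lt.1 h1
  have a2 := abs_lt.1 h2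
  linarith [a1.2, a2.1]

/-- **[S]P5.3 (11).**  Order of the constants: `ξ`, then `M` (`ε = √2/M`), then `l`, then `s` (`R₀ = M s₀`). -/
theorem average_loss (b : ℝ) (hb : 0 < b) (ha : 0 < aLim b) (ξ : ℝ) (hξ : 0 < ξ) :
    ∃ M0, ∀ M ≥ M0, ∃ l0, ∀ l ≥ l0, ∃ s0, ∀ s ≥ s0, ∀ q : ℤ, (q = 0 ∨ q = 1 ∨ q = -1) → 1 - avgK b M l s q ≤ ξ := by
  obtain ⟨C, hC⟩ := ann_energy_add
  obtain ⟨M1, hM1⟩ := exists_nat_ge (2 * |C| / (aLim b * ξ))
  refine ⟨max 4 (max M1 1), fun M hM => ?_⟩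
  have hM4 : 4 ≤ M := (le_max_left _ _).trans hM
  have hMM1 : M1 ≤ M := ((le_max_left _ _).trans (le_max_right _ _)).trans hM
  have hMpos : (0 : ℝ) < M := by
    have : 0 < M := by omega
    exact_mod_cast this
  have hCM : (aLim b)⁻¹ * (C / M) / 2 ≤ ξ / 4 := by
    have h1 : 2 * |C| / (aLim b * ξ) ≤ M := hM1.trans (by exact_mod_cast hMM1)
    rw [div_le_iff₀ (by positivity)] at h1
    have h2 : C ≤ |C| := le_abs_self C
    have h3 : (aLim b)⁻¹ * (C / M) / 2 = C / (2 * (aLim b * M)) := by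
      field_simp
    rw [h3, div_le_iff₀ (by positivity)]
    nlinarith
  obtain ⟨l0, hl0⟩ := flat_interaction b hb ha M hM4 (ξ / 8) (by positivity)
  refine ⟨max l0 4, fun l hl => ?_⟩
  have hl4 : 4 ≤ l := (le_max_right _ _).trans hl
  have hl1 : 1 ≤ l := by omega
  obtain ⟨s1, hs1⟩ := hl0 l ((le_max_left _ _).trans hl)
  obtain ⟨s2, hs2⟩ := hC M hM4 l hl1
  obtain ⟨s3, hs3⟩ := eventually_atTop.1 (loss_sector_aux b hb ha M l hM4 hl1 1 ξ hξ)
  obtain ⟨s4, hs4⟩ := eventually_atTop.1 (loss_sector_aux b hb ha M l hM4 hl1 (-1) ξ hξ)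
  refine ⟨max (max 1 s1) (max s2 (max s3 s4)), fun s hs q hq => ?_⟩
  have g1 : 1 ≤ s := ((le_max_left _ _).trans (le_max_left _ _)).trans hs
  have g2 : s1 ≤ s := ((le_max_right _ _).trans (le_max_left _ _)).trans hs
  have g3 : s2 ≤ s := ((le_max_left _ _).trans (le_max_right _ _)).trans hs
  have g4 : s3 ≤ s := ((le_max_left _ _).trans ((le_max_right _ _).trans (le_max_right _ _))).trans hs
  have g5 : s4 ≤ s := ((le_max_right _ _).trans ((le_max_right _ _).trans (le_max_right _ _))).trans hs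
  have g6 : s1 ≤ 4 ^ l * s := g2.trans (Nat.le_mul_of_pos_left s (by positivity))
  have k0 : Real.exp (-(ξ / 4)) ≤ avgK b M l s 0 := by
    refine le_trans (Real.exp_le_exp.2 ?_) (avgK_zero_lower b hb M l s hM4 hl4 g1)
    linarith [(hs1 s g2).2, (hs1 (4 ^ l * s) g6).1]
  have hen := (hs2 s g3).2
  have key : Real.exp (-(ξ / 4) - ξ / 4) ≤ Fsec b (ann2 M l s) ∅ ∅ (q • ray) / Fsec b (ann2 M l s) (seam2 M l s) ∅ (q • ray) := by
    have hmul : (aLim b)⁻¹ * (Men (ann2 M l s) ∅ ∅ ray - Men (ann2 M l s) (seam2 M l s) ∅ ray) / 2 ≤ ξ / 4 := by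
      refine le_trans ?_ hCM
      have : 0 < (aLim b)⁻¹ := inv_pos.2 ha
      gcongr
    rcases hq with rfl | rfl | rfl
    · rw [zero_smul, Fsec_zero b hb, Fsec_zero b hb, div_one]
      rw [← Real.exp_zero]
      exact Real.exp_le_exp.2 (by linarith)
    · refine le_trans (Real.exp_le_exp.2 ?_) (hs3 s g4)
      rw [one_smul]
      linarith
    · refine le_trans (Real.exp_le_exp.2 ?_) (hs4 s g5)
      rw [neg_one_smul, Men_neg, Men_neg]
      linarith
  rw [avgK_sector b hb M l s q]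
  have hprod : Real.exp (-(ξ / 4)) * Real.exp (-(ξ / 4) - ξ / 4) ≤
      avgK b M l s 0 * (Fsec b (ann2 M l s) ∅ ∅ (q • ray) / Fsec b (ann2 M l s) (seam2 M l s) ∅ (q • ray)) :=
    mul_le_mul k0 key (Real.exp_pos _).le ((Real.exp_pos _).le.trans k0)
  rw [← Real.exp_add] at hprod
  have := Real.add_one_le_exp (-(ξ / 4) + (-(ξ / 4) - ξ / 4))
  linarith

end Claimed.Agent.R285.S46
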