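import Claimed.Agent.R285.S46.Defs

/-!
# ROW 285, S46 leaf L-S46-STAB: [S]L5.4, the positive-kernel stability lemma.   Abstract, paper-free.   PROVED (helper173, no sorry).

The proof below is the UNNORMALISED version of the plan: `F_i = prop g`, `Q_i = prop 1`, `κ_i = ⟨F_i⟩/⟨Q_i⟩`, `D_i = F_i - κ_i Q_i`, squared norms only (no square roots), `ξ` replaced by `1/64`.

PLAN (= the paper's proof, all constants checked).  `⟨f⟩_i = ∑' u, m i u * f u`, `L_i f v = ∑' u, m i u * t i u v * f u`.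
1. `q_0 = 1`, `β_i = ⟨L_i q_i⟩_{i+1}`, `q_{i+1} = L_i q_i / β_i`.  Induction: `⟨q_i⟩ = 1`, `0 ≤ q_i ≤ 2`, `β_i = 1 - ∑∑ m m (1-t) q_i ≥ 1 - 2ξ`, `q_{i+1} ≤ 1/(1-2ξ) =: M < 2`.
2. `f_0 = g`, `f_{i+1} = L_i f_i / β_i`, `c_i = ⟨f_i⟩`, `E_i = f_i - c_i q_i` (mean zero).  `prop m t g i = (∏_{j<i} β_j) f_i`.
3. `c_i ≥ δ/2` where `m_0 (g < δ) < 1/4`: `c_i = ⟨g r_i⟩_0` with the normalised BACKWARD density `r_i ≤ 2` on `X 0` (step 1 for the reversed kernels), so `⟨1_{g ≥ δ} r_i⟩ ≥ 1 - 2/4`.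
4. for mean zero `E`: `L_i E = -∑' m (1-t) E`, Cauchy-Schwarz + `(1-t)² ≤ 1-t`: `‖L_i E‖_{2} ≤ √ξ ‖E‖_2`, `sup |L_i E| ≤ ‖E‖_2`.
   `E_{i+1} = (L_i E_i - ⟨L_i E_i⟩ q_{i+1})/β_i`, so `‖E_{i+1}‖_2 ≤ 3√ξ/(1-2ξ) ‖E_i‖_2` (ratio `< 1/2` for `ξ < 1/64`) and `sup |E_{i+1}| ≤ 3/(1-2ξ) ‖E_i‖_2`.
5. `f_N/c_N = q_N + E_N/c_N ≤ M + (2/δ) sup|E_N| ≤ 2` for large `N`.
-/

set_option autoImplicit false

namespace Claimed.Agent.R285.S46

open Filter Topology

section StabGen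

variable {X Y : Type}

theorem stab_summable {m : X → ℝ} (hm0 : ∀ u, 0 ≤ m u) (hm : Summable m) {f : X → ℝ} {C : ℝ} (hf : ∀ u, |f u| ≤ C) :
    Summable fun u => m u * f u := by
  refine Summable.of_norm_bounded (g := fun u => m u * C) (hm.mul_right C) ?_
  intro u
  rw [Real.norm_eq_abs, abs_mul, abs_of_nonneg (hm0 u)]
  exact mul_le_mul_of_nonneg_left (hf u) (hm0 u)

theorem stab_av_le {m : X → ℝ} (hm0 : ∀ u, 0 ≤ m u) (hm : Summable m) {f g : X → ℝ} {C C' : ℝ} (hf : ∀ u, |f u| ≤ C)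
    (hg : ∀ u, |g u| ≤ C') (h : ∀ u, f u ≤ g u) : ∑' u, m u * f u ≤ ∑' u, m u * g u :=
  (stab_summable hm0 hm hf).tsum_le_tsum (fun u => mul_le_mul_of_nonneg_left (h u) (hm0 u)) (stab_summable hm0 hm hg)

theorem stab_av_const {m : X → ℝ} (hm1 : HasSum m 1) (c : ℝ) : ∑' u, m u * c = c := by
  rw [tsum_mul_right, hm1.tsum_eq, one_mul]

theorem stab_av_nonneg {m : X → ℝ} (hm0 : ∀ u, 0 ≤ m u) {f : X → ℝ} (h : ∀ u, 0 ≤ f u) : 0 ≤ ∑' u, m u * f u :=
  tsum_nonneg fun u => mul_nonneg (hm0 u) (h u)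

theorem stab_av_le_const {m : X → ℝ} (hm0 : ∀ u, 0 ≤ m u) (hm1 : HasSum m 1) {f : X → ℝ} {C C' : ℝ} (hf : ∀ u, |f u| ≤ C')
    (h : ∀ u, f u ≤ C) : ∑' u, m u * f u ≤ C := by
  have := stab_av_le hm0 hm1.summable hf (fun _ => le_refl |C|) h
  rwa [stab_av_const hm1] at this

/-- summability on the product -/
theorem stab_summable2 {m : X → ℝ} {m' : Y → ℝ} (hm0 : ∀ u, 0 ≤ m u) (hm : Summable m) (hm0' : ∀ v, 0 ≤ m' v) (hm' : Summable m')
    {K : X → Y → ℝ} {C : ℝ} (hK : ∀ u v, |K u v| ≤ C) : Summable (Function.uncurry fun u v => m u * m' v * K u v) := by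
  have h1 : Summable fun x : X × Y => m x.1 * m' x.2 := hm.mul_of_nonneg hm' hm0 hm0'
  have := stab_summable (m := fun x : X × Y => m x.1 * m' x.2) (fun x => mul_nonneg (hm0 _) (hm0' _)) h1
    (f := fun x => K x.1 x.2) (C := C) (fun x => hK _ _)
  exact this

/-- Fubini -/
theorem stab_fubini {m : X → ℝ} {m' : Y → ℝ} (hm0 : ∀ u, 0 ≤ m u) (hm : Summable m) (hm0' : ∀ v, 0 ≤ m' v) (hm' : Summable m')
    {K : X → Y → ℝ} {C : ℝ} (hK : ∀ u v, |K u v| ≤ C) :
    ∑' u, ∑' v, m u * m' v * K u v = ∑' v, ∑' u, m u * m' v * K u v :=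
  ((stab_summable2 hm0 hm hm0' hm' hK).tsum_comm).symm

/-- Cauchy-Schwarz -/
theorem stab_cs {m : X → ℝ} (hm0 : ∀ u, 0 ≤ m u) (hm : Summable m) {f g : X → ℝ} {C C' : ℝ} (hf : ∀ u, |f u| ≤ C) (hg : ∀ u, |g u| ≤ C') :
    (∑' u, m u * (f u * g u)) ^ 2 ≤ (∑' u, m u * f u ^ 2) * ∑' u, m u * g u ^ 2 := by
  have bfg : ∀ u, |f u * g u| ≤ |C| * |C'| := fun u => by
    rw [abs_mul]; exact mul_le_mul ((hf u).trans (le_abs_self _)) ((hg u).trans (le_abs_self _)) (abs_nonneg _) (abs_nonneg _)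
  have bff : ∀ u, |f u ^ 2| ≤ |C| ^ 2 := fun u => by
    rw [abs_pow]; exact pow_le_pow_left₀ (abs_nonneg _) ((hf u).trans (le_abs_self _)) 2
  have bgg : ∀ u, |g u ^ 2| ≤ |C'| ^ 2 := fun u => by
    rw [abs_pow]; exact pow_le_pow_left₀ (abs_nonneg _) ((hg u).trans (le_abs_self _)) 2
  set A := ∑' u, m u * (f u * g u) with hA
  set B := ∑' u, m u * g u ^ 2 with hB
  set F := ∑' u, m u * f u ^ 2 with hF
  have sfg := stab_summable hm0 hm bfg
  have sff := stab_summable hm0 hm bff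
  have sgg := stab_summable hm0 hm bgg
  have key : ∀ x : ℝ, 0 ≤ F * (x * x) + (-2 * A) * x + B := by
    intro x
    have h1 : ∑' u, m u * (x * f u - g u) ^ 2 = F * (x * x) + (-2 * A) * x + B := by
      have e : ∀ u, m u * (x * f u - g u) ^ 2 = x ^ 2 * (m u * f u ^ 2) - 2 * x * (m u * (f u * g u)) + (m u * g u ^ 2) := by
        intro u; ring
      simp_rw [e]
      rw [Summable.tsum_add ((sff.mul_left _).sub (sfg.mul_left _)) sgg, Summable.tsum_sub (sff.mul_left _) (sfg.mul_left _),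
        tsum_mul_left, tsum_mul_left]
      ring
    rw [← h1]
    exact tsum_nonneg fun u => mul_nonneg (hm0 u) (sq_nonneg _)
  have := discrim_le_zero key
  unfold discrim at this
  nlinarith

/-- one step of the chain -/
structure StabStep (m : X → ℝ) (m' : Y → ℝ) (t : X → Y → ℝ) : Prop where
  m0 : ∀ u, 0 ≤ m u
  m1 : HasSum m 1
  m0' : ∀ v, 0 ≤ m' v
  m1' : HasSum m' 1
  t0 : ∀ u v, 0 ≤ t u v
  t1 : ∀ u v, t u v ≤ 1
  loss : ∑' u, ∑' v, m u * m' v * (1 - t u v) ≤ 1 / 64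

namespace StabStep

variable {m : X → ℝ} {m' : Y → ℝ} {t : X → Y → ℝ}

theorem abs_one_sub (h : StabStep m m' t) (u : X) (v : Y) : |1 - t u v| ≤ 1 := by
  rw [abs_le]; constructor <;> linarith [h.t0 u v, h.t1 u v]

theorem abs_t (h : StabStep m m' t) (u : X) (v : Y) : |t u v| ≤ 1 := by
  rw [abs_le]; constructor <;> linarith [h.t0 u v, h.t1 u v]

theorem swap (h : StabStep m m' t) : StabStep m' m (fun v u => t u v) where
  m0 := h.m0'
  m1 := h.m1'
  m0' := h.m0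
  m1' := h.m1
  t0 := fun v u => h.t0 u v
  t1 := fun v u => h.t1 u v
  loss := by
    have := stab_fubini h.m0 h.m1.summable h.m0' h.m1'.summable (K := fun u v => 1 - t u v) (C := 1) h.abs_one_sub
    have e : ∑' v, ∑' u, m' v * m u * (1 - t u v) = ∑' v, ∑' u, m u * m' v * (1 - t u v) := by
      congr 1; ext v; congr 1; ext u; ring
    rw [e, ← this]
    exact h.loss

/-- the column loss -/
noncomputable def w (_h : StabStep m m' t) (v : Y) : ℝ := ∑' u, m u * (1 - t u v)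

theorem w_nonneg (h : StabStep m m' t) (v : Y) : 0 ≤ h.w v :=
  tsum_nonneg fun u => mul_nonneg (h.m0 u) (by linarith [h.t1 u v])

theorem w_le_one (h : StabStep m m' t) (v : Y) : h.w v ≤ 1 :=
  stab_av_le_const h.m0 h.m1 (fun u => h.abs_one_sub u v) (fun u => by linarith [h.t0 u v])

theorem w_av (h : StabStep m m' t) : ∑' v, m' v * h.w v ≤ 1 / 64 := by
  have := stab_fubini h.m0 h.m1.summable h.m0' h.m1'.summable (K := fun u v => 1 - t u v) (C := 1) h.abs_one_sub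
  have e : ∑' v, m' v * h.w v = ∑' v, ∑' u, m u * m' v * (1 - t u v) := by
    congr 1; ext v
    unfold w
    rw [← tsum_mul_left]
    congr 1; ext u; ring
  rw [e, ← this]
  exact h.loss

theorem abs_w (h : StabStep m m' t) (v : Y) : |h.w v| ≤ 1 := by
  rw [abs_of_nonneg (h.w_nonneg v)]; exact h.w_le_one v

/-- summability of `m t f` -/
theorem summ (h : StabStep m m' t) {f : X → ℝ} {C : ℝ} (hf : ∀ u, |f u| ≤ C) (v : Y) : Summable fun u => m u * t u v * f u := by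
  have : ∀ u, |t u v * f u| ≤ C := fun u => by
    rw [abs_mul]
    calc |t u v| * |f u| ≤ 1 * |f u| := mul_le_mul_of_nonneg_right (h.abs_t u v) (abs_nonneg _)
      _ = |f u| := one_mul _
      _ ≤ C := hf u
  have := stab_summable h.m0 h.m1.summable this
  refine this.congr fun u => by ring

/-- the transported function is bounded -/
theorem abs_L (h : StabStep m m' t) {f : X → ℝ} {C : ℝ} (hf : ∀ u, |f u| ≤ C) (v : Y) : |∑' u, m u * t u v * f u| ≤ C := by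
  have hb : ∀ u, |t u v * f u| ≤ C := fun u => by
    rw [abs_mul]
    calc |t u v| * |f u| ≤ 1 * |f u| := mul_le_mul_of_nonneg_right (h.abs_t u v) (abs_nonneg _)
      _ = |f u| := one_mul _
      _ ≤ C := hf u
  have e : ∑' u, m u * t u v * f u = ∑' u, m u * (t u v * f u) := by congr 1; ext u; ring
  rw [e, abs_le]
  constructor
  · have := stab_av_le_const h.m0 h.m1 (f := fun u => -(t u v * f u)) (C := C) (C' := C) (fun u => by rw [abs_neg]; exact hb u)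
      (fun u => by have := (abs_le.1 (hb u)).1; linarith)
    have e2 : ∑' u, m u * -(t u v * f u) = -∑' u, m u * (t u v * f u) := by
      rw [← tsum_neg]; congr 1; ext u; ring
    rw [e2] at this
    linarith
  · exact stab_av_le_const h.m0 h.m1 hb (fun u => (abs_le.1 (hb u)).2)

/-- splitting `t = 1 - (1 - t)` -/
theorem L_split (h : StabStep m m' t) {f : X → ℝ} {C : ℝ} (hf : ∀ u, |f u| ≤ C) (v : Y) :
    ∑' u, m u * t u v * f u = ∑' u, m u * f u - ∑' u, m u * ((1 - t u v) * f u) := by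
  have hb : ∀ u, |(1 - t u v) * f u| ≤ C := fun u => by
    rw [abs_mul]
    calc |1 - t u v| * |f u| ≤ 1 * |f u| := mul_le_mul_of_nonneg_right (h.abs_one_sub u v) (abs_nonneg _)
      _ = |f u| := one_mul _
      _ ≤ C := hf u
  rw [← Summable.tsum_sub (stab_summable h.m0 h.m1.summable hf) (stab_summable h.m0 h.m1.summable hb)]
  congr 1; ext u; ring

/-- forward step for a nonnegative function dominated by twice its mean -/
theorem fwd (h : StabStep m m' t) {Q : X → ℝ} (hQ0 : ∀ u, 0 ≤ Q u) {A : ℝ} (hA : A = ∑' u, m u * Q u) (hQ : ∀ u, Q u ≤ 2 * A) :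
    (∀ v, 0 ≤ ∑' u, m u * t u v * Q u) ∧ (∀ v, ∑' u, m u * t u v * Q u ≤ A) ∧
      31 / 32 * A ≤ ∑' v, m' v * ∑' u, m u * t u v * Q u := by
  have hA0 : 0 ≤ A := hA ▸ stab_av_nonneg h.m0 hQ0
  have hb : ∀ u, |Q u| ≤ 2 * A := fun u => by rw [abs_of_nonneg (hQ0 u)]; exact hQ u
  have h1 : ∀ v, 0 ≤ ∑' u, m u * t u v * Q u := fun v =>
    tsum_nonneg fun u => mul_nonneg (mul_nonneg (h.m0 u) (h.t0 u v)) (hQ0 u)
  have hlow : ∀ v, A - 2 * A * h.w v ≤ ∑' u, m u * t u v * Q u := by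
    intro v
    rw [h.L_split hb v, ← hA]
    have hb2 : ∀ u, |(1 - t u v) * Q u| ≤ 2 * A := fun u => by
      rw [abs_mul]
      calc |1 - t u v| * |Q u| ≤ 1 * |Q u| := mul_le_mul_of_nonneg_right (h.abs_one_sub u v) (abs_nonneg _)
        _ = |Q u| := one_mul _
        _ ≤ 2 * A := hb u
    have hb3 : ∀ u, |(1 - t u v) * (2 * A)| ≤ 2 * A := fun u => by
      rw [abs_mul, abs_of_nonneg (by linarith : (0:ℝ) ≤ 2 * A)]
      calc |1 - t u v| * (2 * A) ≤ 1 * (2 * A) := mul_le_mul_of_nonneg_right (h.abs_one_sub u v) (by linarith)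
        _ = 2 * A := one_mul _
    have := stab_av_le h.m0 h.m1.summable hb2 hb3 (fun u => mul_le_mul_of_nonneg_left (hQ u) (by linarith [h.t1 u v]))
    have e : ∑' u, m u * ((1 - t u v) * (2 * A)) = 2 * A * h.w v := by
      unfold w
      rw [← tsum_mul_left]; congr 1; ext u; ring
    rw [e] at this
    linarith
  refine ⟨h1, ?_, ?_⟩
  · intro v
    rw [h.L_split hb v, ← hA]
    have : 0 ≤ ∑' u, m u * ((1 - t u v) * Q u) :=
      tsum_nonneg fun u => mul_nonneg (h.m0 u) (mul_nonneg (by linarith [h.t1 u v]) (hQ0 u))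
    linarith
  · have hbL : ∀ v, |∑' u, m u * t u v * Q u| ≤ 2 * A := fun v => h.abs_L hb v
    have hbl : ∀ v, |A - 2 * A * h.w v| ≤ 3 * A := fun v => by
      rw [abs_le]; constructor <;> nlinarith [h.w_nonneg v, h.w_le_one v]
    have := stab_av_le h.m0' h.m1'.summable hbl hbL hlow
    have e : ∑' v, m' v * (A - 2 * A * h.w v) = A - 2 * A * ∑' v, m' v * h.w v := by
      have e1 : ∀ v, m' v * (A - 2 * A * h.w v) = m' v * A - 2 * A * (m' v * h.w v) := fun v => by ring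
      simp_rw [e1]
      rw [Summable.tsum_sub (h.m1'.summable.mul_right A) ((stab_summable h.m0' h.m1'.summable h.abs_w).mul_left _), tsum_mul_left,
        stab_av_const h.m1']
    rw [e] at this
    nlinarith [h.w_av]

/-- duality -/
theorem dual (h : StabStep m m' t) {f : X → ℝ} {g : Y → ℝ} {C C' : ℝ} (hf : ∀ u, |f u| ≤ C) (hg : ∀ v, |g v| ≤ C') :
    ∑' u, m u * (f u * ∑' v, m' v * t u v * g v) = ∑' v, m' v * ((∑' u, m u * t u v * f u) * g v) := by
  have hK : ∀ u v, |f u * t u v * g v| ≤ |C| * |C'| := fun u v => by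
    rw [abs_mul, abs_mul]
    have h1 : |f u| * |t u v| ≤ |C| * 1 :=
      mul_le_mul ((hf u).trans (le_abs_self _)) (h.abs_t u v) (abs_nonneg _) (abs_nonneg _)
    calc |f u| * |t u v| * |g v| ≤ (|C| * 1) * |C'| := mul_le_mul h1 ((hg v).trans (le_abs_self _)) (abs_nonneg _) (by positivity)
      _ = |C| * |C'| := by ring
  have := stab_fubini h.m0 h.m1.summable h.m0' h.m1'.summable hK
  have e1 : ∑' u, m u * (f u * ∑' v, m' v * t u v * g v) = ∑' u, ∑' v, m u * m' v * (f u * t u v * g v) := by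
    congr 1; ext u
    rw [← tsum_mul_left, ← tsum_mul_left]
    congr 1; ext v; ring
  have e2 : ∑' v, m' v * ((∑' u, m u * t u v * f u) * g v) = ∑' v, ∑' u, m u * m' v * (f u * t u v * g v) := by
    congr 1; ext v
    rw [← tsum_mul_right, ← tsum_mul_left]
    congr 1; ext u; ring
  rw [e1, e2, this]

/-- contraction on mean zero functions -/
theorem contr (h : StabStep m m' t) {D : X → ℝ} {C : ℝ} (hD : ∀ u, |D u| ≤ C) (hz : ∑' u, m u * D u = 0) {n : ℝ} (hn : n = ∑' u, m u * D u ^ 2) :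
    (∀ v, (∑' u, m u * t u v * D u) ^ 2 ≤ n) ∧ ∑' v, m' v * (∑' u, m u * t u v * D u) ^ 2 ≤ n / 64 := by
  have hn0 : 0 ≤ n := hn ▸ tsum_nonneg fun u => mul_nonneg (h.m0 u) (sq_nonneg _)
  have key : ∀ v, (∑' u, m u * t u v * D u) ^ 2 ≤ h.w v * n := by
    intro v
    rw [h.L_split hD v, hz, zero_sub, neg_sq]
    have cs := stab_cs h.m0 h.m1.summable (f := fun u => 1 - t u v) (g := D) (fun u => h.abs_one_sub u v) hD
    rw [← hn] at cs
    refine cs.trans (mul_le_mul_of_nonneg_right ?_ hn0)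
    unfold w
    refine stab_av_le h.m0 h.m1.summable (C := 1) (C' := 1) (fun u => ?_) (fun u => h.abs_one_sub u v) (fun u => ?_)
    · rw [abs_pow]; exact pow_le_one₀ (abs_nonneg _) (h.abs_one_sub u v)
    · nlinarith [h.t0 u v, h.t1 u v]
  refine ⟨fun v => (key v).trans (by nlinarith [h.w_le_one v]), ?_⟩
  have hb1 : ∀ v, |(∑' u, m u * t u v * D u) ^ 2| ≤ |C| ^ 2 := fun v => by
    rw [abs_pow]; exact pow_le_pow_left₀ (abs_nonneg _) ((h.abs_L hD v).trans (le_abs_self _)) 2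
  have hb2 : ∀ v, |h.w v * n| ≤ n := fun v => by
    rw [abs_of_nonneg (mul_nonneg (h.w_nonneg v) hn0)]; nlinarith [h.w_le_one v]
  have := stab_av_le h.m0' h.m1'.summable hb1 hb2 key
  have e : ∑' v, m' v * (h.w v * n) = (∑' v, m' v * h.w v) * n := by
    rw [← tsum_mul_right]; congr 1; ext v; ring
  rw [e] at this
  nlinarith [h.w_av]

end StabStep

/-- recentring -/
theorem stab_recentre {m : X → ℝ} (hm0 : ∀ u, 0 ≤ m u) (hm1 : HasSum m 1) {A q : X → ℝ} {C n : ℝ} (hA : ∀ u, |A u| ≤ C)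
    (hAn : ∀ u, A u ^ 2 ≤ n) (hAm : ∑' u, m u * A u ^ 2 ≤ n / 64) (hq0 : ∀ u, 0 ≤ q u) (hq2 : ∀ u, q u ≤ 2) (hq1 : ∑' u, m u * q u = 1)
    {a : ℝ} (ha : a = ∑' u, m u * A u) :
    ∑' u, m u * (A u - a * q u) = 0 ∧ (∀ u, (A u - a * q u) ^ 2 ≤ 4 * n) ∧ ∑' u, m u * (A u - a * q u) ^ 2 ≤ 9 / 64 * n := by
  have hqb : ∀ u, |q u| ≤ 2 := fun u => by rw [abs_of_nonneg (hq0 u)]; exact hq2 u
  have sA := stab_summable hm0 hm1.summable hA
  have sq := stab_summable hm0 hm1.summable hqb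
  have ha2 : a ^ 2 ≤ n / 64 := by
    have cs := stab_cs hm0 hm1.summable (f := A) (g := fun _ => (1:ℝ)) hA (fun _ => by simp : ∀ _ : X, |(1:ℝ)| ≤ 1)
    simp only [mul_one, one_pow] at cs
    rw [← ha, hm1.tsum_eq, mul_one] at cs
    exact cs.trans hAm
  have hn0 : 0 ≤ n := by nlinarith [sq_nonneg a]
  have pt : ∀ u, (A u - a * q u) ^ 2 ≤ 3 * A u ^ 2 + 3 / 2 * a ^ 2 * q u ^ 2 := fun u => by
    nlinarith [sq_nonneg (2 * A u + a * q u)]
  refine ⟨?_, ?_, ?_⟩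
  · have e : ∀ u, m u * (A u - a * q u) = m u * A u - a * (m u * q u) := fun u => by ring
    simp_rw [e]
    rw [Summable.tsum_sub sA (sq.mul_left a), tsum_mul_left, hq1, ← ha]; ring
  · intro u
    have h1 : q u ^ 2 ≤ 4 := by nlinarith [hq0 u, hq2 u]
    have h2 : a ^ 2 * q u ^ 2 ≤ n / 64 * 4 := mul_le_mul ha2 h1 (sq_nonneg _) (by linarith)
    nlinarith [pt u, hAn u]
  · have bA2 : ∀ u, |A u ^ 2| ≤ |C| ^ 2 := fun u => by
      rw [abs_pow]; exact pow_le_pow_left₀ (abs_nonneg _) ((hA u).trans (le_abs_self _)) 2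
    have bq2 : ∀ u, |q u ^ 2| ≤ 4 := fun u => by
      rw [abs_of_nonneg (sq_nonneg _)]; nlinarith [hq0 u, hq2 u]
    have sA2 := stab_summable hm0 hm1.summable bA2
    have sq2 := stab_summable hm0 hm1.summable bq2
    have hq2m : ∑' u, m u * q u ^ 2 ≤ 2 := by
      have b2q : ∀ u, |2 * q u| ≤ 4 := fun u => by rw [abs_of_nonneg (by linarith [hq0 u])]; linarith [hq2 u]
      have := stab_av_le hm0 hm1.summable bq2 b2q (fun u => by nlinarith [hq0 u, hq2 u])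
      have e : ∑' u, m u * (2 * q u) = 2 * ∑' u, m u * q u := by
        rw [← tsum_mul_left]; congr 1; ext u; ring
      rw [e, hq1] at this
      linarith
    have bl : ∀ u, |(A u - a * q u) ^ 2| ≤ 4 * n := fun u => by
      rw [abs_of_nonneg (sq_nonneg _)]
      have h1 : q u ^ 2 ≤ 4 := by nlinarith [hq0 u, hq2 u]
      have h2 : a ^ 2 * q u ^ 2 ≤ n / 64 * 4 := mul_le_mul ha2 h1 (sq_nonneg _) (by linarith)
      nlinarith [pt u, hAn u]
    have br : ∀ u, |3 * A u ^ 2 + 3 / 2 * a ^ 2 * q u ^ 2| ≤ 3 * |C| ^ 2 + 3 / 2 * a ^ 2 * 4 := fun u => by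
      rw [abs_of_nonneg (by positivity)]
      have h1 := (abs_le.1 (bA2 u)).2
      have h2 := (abs_le.1 (bq2 u)).2
      have h3 : a ^ 2 * q u ^ 2 ≤ a ^ 2 * 4 := mul_le_mul_of_nonneg_left h2 (sq_nonneg _)
      nlinarith
    have := stab_av_le hm0 hm1.summable bl br pt
    have e : ∑' u, m u * (3 * A u ^ 2 + 3 / 2 * a ^ 2 * q u ^ 2) = 3 * ∑' u, m u * A u ^ 2 + 3 / 2 * a ^ 2 * ∑' u, m u * q u ^ 2 := by
      have e1 : ∀ u, m u * (3 * A u ^ 2 + 3 / 2 * a ^ 2 * q u ^ 2) = 3 * (m u * A u ^ 2) + 3 / 2 * a ^ 2 * (m u * q u ^ 2) := fun u => by ring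
      simp_rw [e1]
      rw [Summable.tsum_add (sA2.mul_left _) (sq2.mul_left _), tsum_mul_left, tsum_mul_left]
    rw [e] at this
    have h3 : a ^ 2 * ∑' u, m u * q u ^ 2 ≤ n / 64 * 2 :=
      mul_le_mul ha2 hq2m (tsum_nonneg fun u => mul_nonneg (hm0 u) (sq_nonneg _)) (by linarith)
    nlinarith

end StabGen

section StabChain

variable {X : ℕ → Type} (m : ∀ i, X i → ℝ) (t : ∀ i, X i → X (i + 1) → ℝ)

/-- backward propagation of the constant `1` through `k` kernels, down to level `j` -/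
noncomputable def stabBack : ∀ (k j : ℕ), X j → ℝ
  | 0, _ => fun _ => 1
  | k + 1, j => fun u => ∑' v, m (j + 1) v * t j u v * stabBack k (j + 1) v

/-- the total mass at level `n` -/
noncomputable def stabMass (g : X 0 → ℝ) (n : ℕ) : ℝ := ∑' u, m n u * prop m t g n u

variable {m t}

theorem stab_prop_bd (hst : ∀ i, StabStep (m i) (m (i + 1)) (t i)) {g : X 0 → ℝ} (hg0 : ∀ u, 0 ≤ g u) (hg1 : ∀ u, g u ≤ 1) :
    ∀ i u, 0 ≤ prop m t g i u ∧ prop m t g i u ≤ 1 := by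
  intro i
  induction i with
  | zero => exact fun u => ⟨hg0 u, hg1 u⟩
  | succ i ih =>
    intro v
    have hb : ∀ u, |prop m t g i u| ≤ 1 := fun u => by rw [abs_of_nonneg (ih u).1]; exact (ih u).2
    refine ⟨tsum_nonneg fun u => mul_nonneg (mul_nonneg ((hst i).m0 u) ((hst i).t0 u v)) (ih u).1, ?_⟩
    exact (abs_le.1 ((hst i).abs_L hb v)).2

theorem stab_prop_abs (hst : ∀ i, StabStep (m i) (m (i + 1)) (t i)) {g : X 0 → ℝ} (hg0 : ∀ u, 0 ≤ g u) (hg1 : ∀ u, g u ≤ 1) (i : ℕ) (u : X i) :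
    |prop m t g i u| ≤ 1 := by
  rw [abs_of_nonneg (stab_prop_bd hst hg0 hg1 i u).1]; exact (stab_prop_bd hst hg0 hg1 i u).2

/-- forward propagation of `1` -/
theorem stab_Q (hst : ∀ i, StabStep (m i) (m (i + 1)) (t i)) :
    ∀ i, 0 < stabMass m t (fun _ => 1) i ∧ (∀ u, prop m t (fun _ => 1) i u ≤ 32 / 31 * stabMass m t (fun _ => 1) i) ∧
      (31 / 32 : ℝ) ^ i ≤ stabMass m t (fun _ => 1) i := by
  intro i
  induction i with
  | zero =>
    have h1 : stabMass m t (fun _ => 1) 0 = 1 := by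
      unfold stabMass
      simp only [prop, mul_one]
      exact (hst 0).m1.tsum_eq
    rw [h1]
    refine ⟨one_pos, fun u => ?_, by simp⟩
    simp only [prop]; norm_num
  | succ i ih =>
    obtain ⟨hpos, hle, hpow⟩ := ih
    have hQ0 : ∀ u, 0 ≤ prop m t (fun _ => 1) i u := fun u => (stab_prop_bd hst (fun _ => zero_le_one) (fun _ => le_refl _) i u).1
    obtain ⟨_, f2, f3⟩ := (hst i).fwd hQ0 (A := stabMass m t (fun _ => 1) i) rfl (fun u => (hle u).trans (by nlinarith))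
    have f3' : 31 / 32 * stabMass m t (fun _ => 1) i ≤ stabMass m t (fun _ => 1) (i + 1) := f3
    refine ⟨by nlinarith, fun v => ?_, ?_⟩
    · have : prop m t (fun _ => 1) (i + 1) v ≤ stabMass m t (fun _ => 1) i := f2 v
      nlinarith
    · rw [pow_succ]; nlinarith

/-- backward propagation of `1` -/
theorem stab_back (hst : ∀ i, StabStep (m i) (m (i + 1)) (t i)) :
    ∀ k j, (∀ u, 0 ≤ stabBack m t k j u) ∧ (∀ u, stabBack m t k j u ≤ 1) ∧ ∀ u, stabBack m t k j u ≤ 2 * ∑' u, m j u * stabBack m t k j u := by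
  intro k
  induction k with
  | zero =>
    intro j
    have hm1 : HasSum (m j) 1 := (hst j).m1
    refine ⟨fun _ => zero_le_one, fun _ => le_refl _, fun u => ?_⟩
    simp only [stabBack, mul_one]
    rw [hm1.tsum_eq]; norm_num
  | succ k ih =>
    intro j
    obtain ⟨b0, b1, b2⟩ := ih (j + 1)
    obtain ⟨f1, f2, f3⟩ := (hst j).swap.fwd b0 (A := ∑' v, m (j + 1) v * stabBack m t k (j + 1) v) rfl b2
    have hA1 : ∑' v, m (j + 1) v * stabBack m t k (j + 1) v ≤ 1 :=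
      stab_av_le_const (hst j).m0' (hst j).m1' (C' := 1) (fun v => by rw [abs_of_nonneg (b0 v)]; exact b1 v) b1
    have hA0 : 0 ≤ ∑' v, m (j + 1) v * stabBack m t k (j + 1) v := stab_av_nonneg (hst j).m0' b0
    refine ⟨fun u => f1 u, fun u => (f2 u).trans hA1, fun u => ?_⟩
    have h1 : stabBack m t (k + 1) j u ≤ ∑' v, m (j + 1) v * stabBack m t k (j + 1) v := f2 u
    have h2 : 31 / 32 * (∑' v, m (j + 1) v * stabBack m t k (j + 1) v) ≤ ∑' u, m j u * stabBack m t (k + 1) j u := f3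
    nlinarith

/-- duality along the chain -/
theorem stab_dual_chain (hst : ∀ i, StabStep (m i) (m (i + 1)) (t i)) {g : X 0 → ℝ} (hg0 : ∀ u, 0 ≤ g u) (hg1 : ∀ u, g u ≤ 1) :
    ∀ k i, ∑' u, m i u * (prop m t g i u * stabBack m t k i u) = stabMass m t g (i + k) := by
  intro k
  induction k with
  | zero => intro i; simp only [stabBack, mul_one]; rfl
  | succ k ih =>
    intro i
    have hb : ∀ v, |stabBack m t k (i + 1) v| ≤ 1 := fun v => by
      rw [abs_of_nonneg ((stab_back hst k (i + 1)).1 v)]; exact (stab_back hst k (i + 1)).2.1 v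
    have := (hst i).dual (stab_prop_abs hst hg0 hg1 i) hb
    have e : i + (k + 1) = i + 1 + k := by omega
    rw [e, ← ih (i + 1)]
    exact this

/-- the mass started from `g` is comparable with the mass started from `1` -/
theorem stab_mass_lower (hst : ∀ i, StabStep (m i) (m (i + 1)) (t i)) {g : X 0 → ℝ} (hg0 : ∀ u, 0 < g u) (hg1 : ∀ u, g u ≤ 1) :
    ∃ δ : ℝ, 0 < δ ∧ ∀ N, δ / 2 * stabMass m t (fun _ => 1) N ≤ stabMass m t g N := by
  have hm1 : HasSum (m 0) 1 := (hst 0).m1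
  have hm0 : ∀ u, 0 ≤ m 0 u := (hst 0).m0
  obtain ⟨S, hS⟩ : ∃ S : Finset (X 0), 3 / 4 < ∑ u ∈ S, m 0 u :=
    ((tendsto_order.1 hm1).1 (3 / 4) (by norm_num)).exists
  have hne : S.Nonempty := by
    rcases S.eq_empty_or_nonempty with h | h
    · rw [h] at hS; simp at hS; linarith
    · exact h
  obtain ⟨u0, _, hu0⟩ := Finset.exists_min_image S g hne
  refine ⟨g u0, hg0 u0, fun N => ?_⟩
  have d1 := stab_dual_chain hst (fun u => (hg0 u).le) hg1 N 0
  have d2 := stab_dual_chain hst (g := fun _ => 1) (fun _ => zero_le_one) (fun _ => le_refl _) N 0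
  rw [zero_add] at d1 d2
  rw [← d1, ← d2]
  simp only [prop, one_mul]
  obtain ⟨b0, b1, b2⟩ := stab_back hst N 0
  set B := stabBack m t N 0 with hB
  set A := ∑' u, m 0 u * B u with hA
  have hA0 : 0 ≤ A := stab_av_nonneg hm0 b0
  have bB : ∀ u, |B u| ≤ 1 := fun u => by rw [abs_of_nonneg (b0 u)]; exact b1 u
  have sB := stab_summable hm0 hm1.summable bB
  -- the part of the mass of `B` in `S`
  have h1 : A / 2 ≤ ∑ u ∈ S, m 0 u * B u := by
    have sh : Summable fun u => 2 * A * m 0 u - m 0 u * B u := (hm1.summable.mul_left _).sub sB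
    have hle : ∑ u ∈ S, (2 * A * m 0 u - m 0 u * B u) ≤ ∑' u, (2 * A * m 0 u - m 0 u * B u) :=
      sh.sum_le_tsum S (fun u _ => by nlinarith [hm0 u, b2 u])
    rw [Summable.tsum_sub (hm1.summable.mul_left _) sB, tsum_mul_left, hm1.tsum_eq, Finset.sum_sub_distrib, ← Finset.mul_sum] at hle
    nlinarith
  have bgB : ∀ u, |g u * B u| ≤ 1 := fun u => by
    rw [abs_of_nonneg (mul_nonneg (hg0 u).le (b0 u))]; nlinarith [hg0 u, hg1 u, b0 u, b1 u]
  have h2 : ∑ u ∈ S, m 0 u * (g u * B u) ≤ ∑' u, m 0 u * (g u * B u) :=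
    (stab_summable hm0 hm1.summable bgB).sum_le_tsum S (fun u _ => mul_nonneg (hm0 u) (mul_nonneg (hg0 u).le (b0 u)))
  have h3 : g u0 * ∑ u ∈ S, m 0 u * B u ≤ ∑ u ∈ S, m 0 u * (g u * B u) := by
    rw [Finset.mul_sum]
    refine Finset.sum_le_sum fun u hu => ?_
    have := hu0 u hu
    have h4 : 0 ≤ m 0 u * B u := mul_nonneg (hm0 u) (b0 u)
    nlinarith
  have := hg0 u0
  nlinarith

/-- one step for the centred remainder -/
theorem stab_D_step (hst : ∀ i, StabStep (m i) (m (i + 1)) (t i)) {g : X 0 → ℝ} (hg0 : ∀ u, 0 ≤ g u) (hg1 : ∀ u, g u ≤ 1) (i : ℕ) :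
    let κ : ℕ → ℝ := fun j => stabMass m t g j / stabMass m t (fun _ => 1) j
    let n : ℕ → ℝ := fun j => ∑' u, m j u * (prop m t g j u - κ j * prop m t (fun _ => 1) j u) ^ 2
    (∀ v, (prop m t g (i + 1) v - κ (i + 1) * prop m t (fun _ => 1) (i + 1) v) ^ 2 ≤ 4 * n i) ∧ n (i + 1) ≤ 9 / 64 * n i := by
  intro κ n
  set F := prop m t g with hF
  set Q := prop m t (fun _ => 1) with hQ
  have hQi := stab_Q hst i
  have hQi1 := stab_Q hst (i + 1)
  have bF : ∀ j u, |F j u| ≤ 1 := fun j u => stab_prop_abs hst hg0 hg1 j u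
  have bQ : ∀ j u, |Q j u| ≤ 1 := fun j u => stab_prop_abs hst (fun _ => zero_le_one) (fun _ => le_refl _) j u
  have hm0 := (hst i).m0
  have hm1 := (hst i).m1
  have bD : ∀ u, |F i u - κ i * Q i u| ≤ 1 + |κ i| := fun u => by
    calc |F i u - κ i * Q i u| ≤ |F i u| + |κ i * Q i u| := abs_sub _ _
      _ ≤ 1 + |κ i| * 1 := by
        rw [abs_mul]
        exact add_le_add (bF i u) (mul_le_mul_of_nonneg_left (bQ i u) (abs_nonneg _))
      _ = 1 + |κ i| := by ring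
  have sF := stab_summable hm0 hm1.summable (bF i)
  have sQ := stab_summable hm0 hm1.summable (bQ i)
  have hz : ∑' u, m i u * (F i u - κ i * Q i u) = 0 := by
    have e : ∀ u, m i u * (F i u - κ i * Q i u) = m i u * F i u - κ i * (m i u * Q i u) := fun u => by ring
    simp_rw [e]
    rw [Summable.tsum_sub sF (sQ.mul_left _), tsum_mul_left]
    show stabMass m t g i - stabMass m t g i / stabMass m t (fun _ => 1) i * stabMass m t (fun _ => 1) i = 0
    rw [div_mul_cancel₀ _ hQi.1.ne']; ring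
  obtain ⟨c1, c2⟩ := (hst i).contr bD hz (n := n i) rfl
  -- the transported remainder
  have hlin : ∀ v, ∑' u, m i u * t i u v * (F i u - κ i * Q i u) = F (i + 1) v - κ i * Q (i + 1) v := by
    intro v
    have e : ∀ u, m i u * t i u v * (F i u - κ i * Q i u) = m i u * t i u v * F i u - κ i * (m i u * t i u v * Q i u) := fun u => by ring
    simp_rw [e]
    rw [Summable.tsum_sub ((hst i).summ (bF i) v) (((hst i).summ (bQ i) v).mul_left _), tsum_mul_left]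
    rfl
  simp_rw [hlin] at c1 c2
  have bA : ∀ v, |F (i + 1) v - κ i * Q (i + 1) v| ≤ 1 + |κ i| := fun v => by
    calc |F (i + 1) v - κ i * Q (i + 1) v| ≤ |F (i + 1) v| + |κ i * Q (i + 1) v| := abs_sub _ _
      _ ≤ 1 + |κ i| * 1 := by
        rw [abs_mul]
        exact add_le_add (bF _ v) (mul_le_mul_of_nonneg_left (bQ _ v) (abs_nonneg _))
      _ = 1 + |κ i| := by ring
  set aQ := stabMass m t (fun _ => 1) (i + 1) with haQ
  have haQ0 : 0 < aQ := hQi1.1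
  have hm0' := (hst i).m0'
  have hm1' := (hst i).m1'
  have sF' := stab_summable hm0' hm1'.summable (bF (i + 1))
  have sQ' := stab_summable hm0' hm1'.summable (bQ (i + 1))
  have hq0 : ∀ v, 0 ≤ Q (i + 1) v / aQ := fun v =>
    div_nonneg (stab_prop_bd hst (fun _ => zero_le_one) (fun _ => le_refl _) (i + 1) v).1 haQ0.le
  have hq2 : ∀ v, Q (i + 1) v / aQ ≤ 2 := fun v => by
    rw [div_le_iff₀ haQ0]
    have := hQi1.2.1 v
    nlinarith
  have hq1 : ∑' v, m (i + 1) v * (Q (i + 1) v / aQ) = 1 := by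
    have e : ∀ v, m (i + 1) v * (Q (i + 1) v / aQ) = (m (i + 1) v * Q (i + 1) v) / aQ := fun v => by ring
    simp_rw [e]
    rw [tsum_div_const]
    exact div_self haQ0.ne'
  have ha : stabMass m t g (i + 1) - κ i * aQ = ∑' v, m (i + 1) v * (F (i + 1) v - κ i * Q (i + 1) v) := by
    have e : ∀ v, m (i + 1) v * (F (i + 1) v - κ i * Q (i + 1) v) = m (i + 1) v * F (i + 1) v - κ i * (m (i + 1) v * Q (i + 1) v) := fun v => by ring
    simp_rw [e]
    rw [Summable.tsum_sub sF' (sQ'.mul_left _), tsum_mul_left]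
    rfl
  obtain ⟨_, r2, r3⟩ := stab_recentre hm0' hm1' bA c1 c2 hq0 hq2 hq1 ha
  have hid : ∀ v, F (i + 1) v - κ i * Q (i + 1) v - (stabMass m t g (i + 1) - κ i * aQ) * (Q (i + 1) v / aQ)
      = F (i + 1) v - κ (i + 1) * Q (i + 1) v := by
    intro v
    show _ = F (i + 1) v - stabMass m t g (i + 1) / aQ * Q (i + 1) v
    field_simp
    ring
  simp_rw [hid] at r2 r3
  exact ⟨r2, r3⟩

end StabChain

/-- **[S]L5.4.**  The last marginal has density at most `2`, for all large `N`. -/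
theorem stability {X : ℕ → Type} (m : ∀ i, X i → ℝ) (t : ∀ i, X i → X (i + 1) → ℝ) (g : X 0 → ℝ) (ξ : ℝ) (hξ : ξ < 1 / 64)
    (hm0 : ∀ i u, 0 ≤ m i u) (hm1 : ∀ i, HasSum (m i) 1)
    (ht0 : ∀ i u v, 0 ≤ t i u v) (ht1 : ∀ i u v, t i u v ≤ 1)
    (hloss : ∀ i, ∑' u, ∑' v, m i u * m (i + 1) v * (1 - t i u v) ≤ ξ)
    (hg0 : ∀ u, 0 < g u) (hg1 : ∀ u, g u ≤ 1) :
    ∃ N0, ∀ N ≥ N0, ∀ v, prop m t g N v ≤ 2 * ∑' u, m N u * prop m t g N u := by
  have hst : ∀ i, StabStep (m i) (m (i + 1)) (t i) := fun i =>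
    ⟨hm0 i, hm1 i, hm0 (i + 1), hm1 (i + 1), ht0 i, ht1 i, (hloss i).trans hξ.le⟩
  obtain ⟨δ, hδ, hlow⟩ := stab_mass_lower hst hg0 hg1
  have hg0' : ∀ u, 0 ≤ g u := fun u => (hg0 u).le
  set κ : ℕ → ℝ := fun j => stabMass m t g j / stabMass m t (fun _ => 1) j with hκ
  set n : ℕ → ℝ := fun j => ∑' u, m j u * (prop m t g j u - κ j * prop m t (fun _ => 1) j u) ^ 2 with hn
  have hstep : ∀ i, (∀ v, (prop m t g (i + 1) v - κ (i + 1) * prop m t (fun _ => 1) (i + 1) v) ^ 2 ≤ 4 * n i) ∧ n (i + 1) ≤ 9 / 64 * n i :=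
    fun i => stab_D_step hst hg0' hg1 i
  have hn0 : ∀ i, 0 ≤ n i := fun i => tsum_nonneg fun u => mul_nonneg (hm0 i u) (sq_nonneg _)
  have hnpow : ∀ i, n i ≤ (9 / 64) ^ i * n 0 := by
    intro i
    induction i with
    | zero => simp
    | succ i ih => rw [pow_succ]; nlinarith [(hstep i).2]
  set c : ℝ := 30 / 31 * (δ / 2) * (31 / 32) with hc
  have hc0 : 0 < c := by positivity
  obtain ⟨N0, hN0⟩ := exists_pow_lt_of_lt_one (show 0 < c ^ 2 / (4 * n 0 + 1) by have := hn0 0; positivity) (show (1 / 4 : ℝ) < 1 by norm_num)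
  refine ⟨N0 + 1, fun N hN v => ?_⟩
  obtain ⟨i, rfl⟩ : ∃ i, N = i + 1 := ⟨N - 1, by omega⟩
  have hi : N0 ≤ i := by omega
  have hQ := stab_Q hst (i + 1)
  set aQ := stabMass m t (fun _ => 1) (i + 1) with haQ
  set aF := stabMass m t g (i + 1) with haF
  have haF' : aF = ∑' u, m (i + 1) u * prop m t g (i + 1) u := rfl
  rw [← haF']
  have hFQ : δ / 2 * aQ ≤ aF := hlow (i + 1)
  have haF0 : 0 < aF := lt_of_lt_of_le (by have := hQ.1; positivity) hFQ
  have hκ1 : κ (i + 1) * aQ = aF := div_mul_cancel₀ _ hQ.1.ne'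
  have hκ0 : 0 ≤ κ (i + 1) := div_nonneg haF0.le hQ.1.le
  -- the main term
  have h1 : κ (i + 1) * prop m t (fun _ => 1) (i + 1) v ≤ 32 / 31 * aF := by
    have := mul_le_mul_of_nonneg_left (hQ.2.1 v) hκ0
    calc κ (i + 1) * prop m t (fun _ => 1) (i + 1) v ≤ κ (i + 1) * (32 / 31 * aQ) := this
      _ = 32 / 31 * (κ (i + 1) * aQ) := by ring
      _ = 32 / 31 * aF := by rw [hκ1]
  -- the remainder
  have h2 : (prop m t g (i + 1) v - κ (i + 1) * prop m t (fun _ => 1) (i + 1) v) ^ 2 ≤ (30 / 31 * aF) ^ 2 := by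
    have e1 : (prop m t g (i + 1) v - κ (i + 1) * prop m t (fun _ => 1) (i + 1) v) ^ 2 ≤ 4 * ((9 / 64) ^ i * n 0) :=
      ((hstep i).1 v).trans (by nlinarith [hnpow i])
    have e2 : (1 / 4 : ℝ) ^ i ≤ (1 / 4) ^ N0 := pow_le_pow_of_le_one (by norm_num) (by norm_num) hi
    have e3 : (1 / 4 : ℝ) ^ i * (4 * n 0 + 1) ≤ c ^ 2 := by
      have h4 : (1 / 4 : ℝ) ^ i < c ^ 2 / (4 * n 0 + 1) := lt_of_le_of_lt e2 hN0
      rw [lt_div_iff₀ (by have := hn0 0; positivity)] at h4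
      exact h4.le
    have e4 : (9 / 64 : ℝ) ^ i = (9 / 16) ^ i * (1 / 4) ^ i := by rw [← mul_pow]; norm_num
    have e5 : (9 / 16 : ℝ) ^ i ≤ ((31 / 32) ^ i) ^ 2 := by
      rw [← pow_mul, mul_comm, pow_mul]
      exact pow_le_pow_left₀ (by norm_num) (by norm_num) i
    have e6 : c * (31 / 32) ^ i ≤ 30 / 31 * aF := by
      have h5 : (31 / 32 : ℝ) ^ (i + 1) ≤ aQ := hQ.2.2
      rw [pow_succ] at h5
      have h6 : δ / 2 * ((31 / 32) ^ i * (31 / 32)) ≤ aF := (mul_le_mul_of_nonneg_left h5 (by positivity)).trans hFQ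
      rw [hc]; nlinarith
    have e7 : (c * (31 / 32) ^ i) ^ 2 ≤ (30 / 31 * aF) ^ 2 := pow_le_pow_left₀ (by positivity) e6 2
    have e8 : 4 * ((9 / 64) ^ i * n 0) ≤ (c * (31 / 32) ^ i) ^ 2 := by
      rw [e4, mul_pow]
      have h7 : (0:ℝ) ≤ (9 / 16) ^ i := by positivity
      have h8 : (1 / 4 : ℝ) ^ i * (4 * n 0) ≤ c ^ 2 := by
        have : (0:ℝ) ≤ (1 / 4) ^ i := by positivity
        nlinarith
      calc 4 * ((9 / 16) ^ i * (1 / 4) ^ i * n 0) = (9 / 16) ^ i * ((1 / 4) ^ i * (4 * n 0)) := by ring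
        _ ≤ (9 / 16) ^ i * c ^ 2 := mul_le_mul_of_nonneg_left h8 h7
        _ ≤ ((31 / 32) ^ i) ^ 2 * c ^ 2 := mul_le_mul_of_nonneg_right e5 (sq_nonneg _)
        _ = c ^ 2 * ((31 / 32) ^ i) ^ 2 := by ring
    exact e1.trans (e8.trans e7)
  have h3 : prop m t g (i + 1) v - κ (i + 1) * prop m t (fun _ => 1) (i + 1) v ≤ 30 / 31 * aF :=
    (abs_le_of_sq_le_sq' h2 (by positivity)).2
  linarith

end Claimed.Agent.R285.S46
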