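import Claimed.Agent.R285.S46.ZD
import Claimed.Agent.R285.S46.Geom
import Claimed.Agent.R285.S46.Stab

/-!
# ROW 285, layer S46: [S]L5.2 (marginal recursion) and C5.5 (last guard law).
MERGED FILE (file budget of 15:22Z): sections = the former files `NestRec`, `Nest` of `R285/S46/`; every section keeps its header (leaf name, plan).  ALL PROVED (helper173), no open leaf in this file.
-/

set_option autoImplicit false

namespace Claimed.Agent.R285.S46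

open Filter Topology
open scoped Classical

/-!
# ROW 285, S46 leaf L-S46-NESTREC (PROVED, helper173): the marginal recursion of a nest and the loss identity ([S]L5.2 + first line of the proof of P5.3).
Notation at the scale `s`: `A = ann M l s`, `A' = ann M l (λ s)`, `U = ann2 M l s`, `p, p'` the guards, `N = stair M (λ s)` (everything inside the outer wall of `A`), `N' = stair M (λ λ s)`, `W = seam2 M l s`.
`Tk b M l s τ u v` = the interface kernel `Z_res(u,v)/Z_cut(u,v)` on `U`.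
* `nest_step`: `ZD N' ∅ {p'} v = ZD A' ∅ {p'} v * ∑_u ZD N ∅ {p} u * Tk u v`:
   `ZD_total` (new guard `p` in `N'`, family `{p'}`), then for fixed `(u,v)`: `kernel_local` twice (`D = N'`, `In = sq (√λ ρ) ∩ N'`, and `D = U`, `In = sq (√λ ρ) ∩ U`; both give `D \ In = N' \ sq (√λ ρ)`, cuts `∅` and `W`)
   and `ZD_prod` (`N' = N ∪ A'` isolated by `W`), `ZD_congr`, `ZD_congr_set` (a datum / a guard outside a block is invisible).
* `loss_identity`: `ZD_total` twice on `U` (cuts `∅` and `W`) + `ZD_prod`.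
-/

noncomputable section

/-- the bonds touching a square stay in the next square -/
theorem touch_sq (n : ℕ) (e : Bond) (he : e ∈ touch (↑(sq n) : Set (ℤ × ℤ))) : e.1 ∈ sq (n + 1) ∧ e.snd ∈ sq (n + 1) := by
  obtain ⟨⟨x, y⟩, d⟩ := e
  have hcast : ((n + 1 : ℕ) : ℤ) = (n : ℤ) + 1 := by push_cast; ring
  cases d <;> rcases he with h | h <;>
    · have h' := mem_sq.1 (Finset.mem_coe.1 h)
      simp only [Bond.snd, if_true, if_false, Bool.false_eq_true] at h' ⊢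
      rw [mem_sq, mem_sq, hcast]
      simp only at h' ⊢
      omega

/-- the inner square of the guard (and the bonds touching it) lie well inside the outer wall -/
theorem sq_succ_subset_stair (M l s : ℕ) (hM : 4 ≤ M) (hl : 4 ≤ l) (hs : 1 ≤ s) : sq (2 ^ l * (M * s) + 1) ⊆ stair M (4 ^ l * s) := by
  have h4 : (4 : ℕ) ^ l = 2 ^ l * 2 ^ l := by rw [← mul_pow]; norm_num
  have h16 : 16 ≤ 2 ^ l := by
    calc 16 = 2 ^ 4 := by norm_num
      _ ≤ 2 ^ l := Nat.pow_le_pow_right (by norm_num) hl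
  refine sq_subset_stair M (4 ^ l * s) _ (Nat.mul_pos (by positivity) hs) ?_
  rw [h4]
  set μ := 2 ^ l with hμ
  -- `2 (μ M s + 1 + μ² s)² ≤ (M μ² s)²`
  have a1 : 16 * (μ * (M * s)) ≤ M * (μ * μ * s) := by nlinarith [Nat.zero_le (μ * (M * s)), Nat.mul_le_mul_right (μ * (M * s)) h16]
  have a2 : 4 * (μ * μ * s) ≤ M * (μ * μ * s) := Nat.mul_le_mul_right _ hM
  have a3 : 16 * 1 ≤ M * (μ * μ * s) := by
    have : 1 ≤ μ * μ * s := Nat.mul_pos (Nat.mul_pos (by omega) (by omega)) hs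
    have h5 : 16 ≤ μ * μ * s := by nlinarith
    nlinarith
  have a4 : 2 * (μ * (M * s) + 1 + μ * μ * s) ≤ M * (μ * μ * s) := by omega
  nlinarith [Nat.mul_le_mul a4 a4]

theorem domBonds_bdry_of_subset {D : Finset (ℤ × ℤ)} {X : Set (ℤ × ℤ)} (h : (↑D : Set (ℤ × ℤ)) ⊆ X) : domBonds D (bdry X) = domBonds D ∅ := by
  ext e
  simp only [mem_domBonds, Set.mem_empty_iff_false, not_false_eq_true, and_true]
  constructor
  · rintro ⟨h1, h2, _⟩; exact ⟨h1, h2⟩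
  · rintro ⟨h1, h2⟩
    refine ⟨h1, h2, ?_⟩
    rintro (⟨_, c⟩ | ⟨c, _⟩)
    · exact c (h (Finset.mem_coe.2 h2))
    · exact c (h (Finset.mem_coe.2 h1))

theorem domBonds_bdry_of_disjoint {D : Finset (ℤ × ℤ)} {X : Set (ℤ × ℤ)} (h : Disjoint (↑D : Set (ℤ × ℤ)) X) : domBonds D (bdry X) = domBonds D ∅ := by
  ext e
  simp only [mem_domBonds, Set.mem_empty_iff_false, not_false_eq_true, and_true]
  constructor
  · rintro ⟨h1, h2, _⟩; exact ⟨h1, h2⟩
  · rintro ⟨h1, h2⟩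
    refine ⟨h1, h2, ?_⟩
    rintro (⟨c, _⟩ | ⟨_, c⟩)
    · exact Set.disjoint_left.1 h (Finset.mem_coe.2 h1) c
    · exact Set.disjoint_left.1 h (Finset.mem_coe.2 h2) c

/-- a guard and a datum outside the block are invisible -/
theorem ZD_restrict (b : ℝ) (D : Finset (ℤ × ℤ)) (cut : Set Bond) (q q' : Set (ℤ × ℤ)) (u v : ℤ × ℤ → ℤ) (τ : Bond → ℤ)
    (hc : domBonds D cut = domBonds D ∅) (hq' : Disjoint q' (↑D : Set (ℤ × ℤ))) (hv : ∀ x ∈ D, v x = 0) :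
    ZD b D cut ∅ {q, q'} (u + v) τ = ZD b D ∅ ∅ {q} u τ := by
  have hL : admL D ∅ {q, q'} = admL D ∅ {q} := by
    ext h
    constructor
    · rintro ⟨h1, h2⟩
      exact ⟨h1, fun F hF => h2 F (by rw [Set.mem_singleton_iff] at hF; rw [hF]; exact Set.mem_insert _ _)⟩
    · rintro ⟨h1, h2⟩
      refine ⟨h1, fun F hF x hx y hy hxD hyD => ?_⟩
      rcases hF with rfl | hF
      · exact h2 _ rfl x hx y hy hxD hyD
      · rw [Set.mem_singleton_iff] at hF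
        subst hF
        exact absurd (Finset.mem_coe.2 hxD) (Set.disjoint_left.1 hq' hx)
  rw [ZD_congr_set b D cut ∅ ∅ ∅ {q, q'} {q} (u + v) τ hc hL]
  refine ZD_congr b D ∅ ∅ {q} _ _ _ _ fun e he => ?_
  have h1 := hv _ (mem_domBonds.1 he).1
  have h2 := hv _ (mem_domBonds.1 he).2.1
  simp only [grad, Pi.add_apply, h1, h2, add_zero]


/-- the interface kernel `T(u,v) = Z_res(u,v)/Z_cut(u,v)` between the annuli at the scales `s`, `λ s` -/
def Tk (b : ℝ) (M l s : ℕ) (τ : Bond → ℤ) (u v : ℤ × ℤ → ℤ) : ℝ :=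
  ZD b (ann2 M l s) ∅ ∅ (guards2 M l s) (u + v) τ / ZD b (ann2 M l s) (seam2 M l s) ∅ (guards2 M l s) (u + v) τ

theorem ann_subset_stair (M l s : ℕ) : ann M l s ⊆ stair M (4 ^ l * s) := Finset.sdiff_subset

theorem ann_next_disjoint_stair (M l s : ℕ) : Disjoint (↑(ann M l (4 ^ l * s)) : Set (ℤ × ℤ)) (↑(stair M (4 ^ l * s)) : Set (ℤ × ℤ)) := by
  rw [Set.disjoint_left]
  intro x hx hx'
  exact (Finset.mem_sdiff.1 (Finset.mem_coe.1 hx)).2 (Finset.mem_coe.1 hx')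

theorem guard_next_disjoint_stair (M l s : ℕ) (hM : 4 ≤ M) (hl : 4 ≤ l) (hs : 1 ≤ s) :
    Disjoint (↑(guard M l (4 ^ l * s)) : Set (ℤ × ℤ)) (↑(stair M (4 ^ l * s)) : Set (ℤ × ℤ)) := by
  have hs' : 1 ≤ 4 ^ l * s := Nat.mul_pos (by positivity) hs
  exact (ann_next_disjoint_stair M l s).mono_left (Finset.coe_subset.2 (guard_subset_ann M l _ hM hl hs'))

theorem guard_disjoint_ann_next (M l s : ℕ) (hM : 4 ≤ M) (hl : 4 ≤ l) (hs : 1 ≤ s) :
    Disjoint (↑(guard M l s) : Set (ℤ × ℤ)) (↑(ann M l (4 ^ l * s)) : Set (ℤ × ℤ)) :=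
  ((ann_next_disjoint_stair M l s).mono_right (Finset.coe_subset.2 ((guard_subset_ann M l s hM hl hs).trans (ann_subset_stair M l s)))).symm

theorem Dat_zero_of_disjoint {F O : Set (ℤ × ℤ)} (u : Dat F O) {D : Finset (ℤ × ℤ)} (h : Disjoint F (↑D : Set (ℤ × ℤ))) : ∀ x ∈ D, u.1 x = 0 :=
  fun x hx => u.2 x (Or.inl fun hF => Set.disjoint_left.1 h hF (Finset.mem_coe.2 hx))

/-- the cut sum on `X ∪ A'` (`X ⊆ stair M (λ s)` containing the guard) with both data is the product of the block sums -/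
theorem cut_data_prod_gen (b : ℝ) (hb : 0 < b) (M l s : ℕ) (hM : 4 ≤ M) (hl : 4 ≤ l) (hs : 1 ≤ s) (τ : Bond → ℤ) (X : Finset (ℤ × ℤ)) (hX : X ⊆ stair M (4 ^ l * s))
    (u : Dat ↑(guard M l s) {gbase M l s}) (v : Dat ↑(guard M l (4 ^ l * s)) {gbase M l (4 ^ l * s)}) :
    ZD b (X ∪ ann M l (4 ^ l * s)) (seam2 M l s) ∅ (guards2 M l s) (u.1 + v.1) τ
      = ZD b X ∅ ∅ {↑(guard M l s)} u.1 τ * ZD b (ann M l (4 ^ l * s)) ∅ ∅ {↑(guard M l (4 ^ l * s))} v.1 τ := by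
  have hXc : (↑X : Set (ℤ × ℤ)) ⊆ ↑(stair M (4 ^ l * s)) := Finset.coe_subset.2 hX
  have hd : Disjoint X (ann M l (4 ^ l * s)) := by
    rw [← Finset.disjoint_coe]
    exact ((ann_next_disjoint_stair M l s).mono_right hXc).symm
  have hpX : Disjoint (↑(guard M l (4 ^ l * s)) : Set (ℤ × ℤ)) (↑X : Set (ℤ × ℤ)) := (guard_next_disjoint_stair M l s hM hl hs).mono_right hXc
  rw [ZD_prod b hb X (ann M l (4 ^ l * s)) (seam2 M l s) ∅ (guards2 M l s) (u.1 + v.1) τ hd ?_ ?_]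
  · congr 1
    · exact ZD_restrict b X _ _ _ u.1 v.1 τ (domBonds_bdry_of_subset hXc) hpX (Dat_zero_of_disjoint v hpX)
    · unfold guards2
      rw [Set.pair_comm, add_comm]
      exact ZD_restrict b _ _ _ _ v.1 u.1 τ (domBonds_bdry_of_disjoint (ann_next_disjoint_stair M l s)) (guard_disjoint_ann_next M l s hM hl hs)
        (Dat_zero_of_disjoint u (guard_disjoint_ann_next M l s hM hl hs))
  · intro e he h1 h2
    have key : ∀ x, x ∈ X ∪ ann M l (4 ^ l * s) → x ∉ (↑X : Set (ℤ × ℤ)) → x ∉ (↑(stair M (4 ^ l * s)) : Set (ℤ × ℤ)) := by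
      intro x hx hxX
      rcases Finset.mem_union.1 hx with c | c
      · exact absurd (Finset.mem_coe.2 c) hxX
      · exact fun c' => (Finset.mem_sdiff.1 c).2 (Finset.mem_coe.1 c')
    rcases he with ⟨a, a'⟩ | ⟨a, a'⟩
    · exact Or.inl ⟨hXc a, key _ h2 a'⟩
    · exact Or.inr ⟨key _ h1 a, hXc a'⟩
  · intro F hF
    rcases hF with rfl | hF
    · exact Or.inr (guard_disjoint_ann_next M l s hM hl hs)
    · rw [Set.mem_singleton_iff] at hF
      subst hF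
      exact Or.inl hpX

/-- the cut sum with both data is the product of the block sums -/
theorem cut_data_prod (b : ℝ) (hb : 0 < b) (M l s : ℕ) (hM : 4 ≤ M) (hl : 4 ≤ l) (hs : 1 ≤ s) (τ : Bond → ℤ)
    (u : Dat ↑(guard M l s) {gbase M l s}) (v : Dat ↑(guard M l (4 ^ l * s)) {gbase M l (4 ^ l * s)}) :
    ZD b (ann2 M l s) (seam2 M l s) ∅ (guards2 M l s) (u.1 + v.1) τ
      = ZD b (ann M l s) ∅ ∅ {↑(guard M l s)} u.1 τ * ZD b (ann M l (4 ^ l * s)) ∅ ∅ {↑(guard M l (4 ^ l * s))} v.1 τ := by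
  rw [ann2_eq_union M l s hM (by omega) hs]
  exact cut_data_prod_gen b hb M l s hM hl hs τ _ (ann_subset_stair M l s) u v


/-- the restored/cut ratio with both guard data does not see what is inside the inner guard -/
theorem ratio_local (b : ℝ) (hb : 0 < b) (M l s : ℕ) (hM : 4 ≤ M) (hl : 4 ≤ l) (hs : 1 ≤ s) (τ : Bond → ℤ) (D : Finset (ℤ × ℤ)) (x : ℤ × ℤ → ℤ) :
    ZD b D ∅ ∅ (guards2 M l s) x τ * ZD b (D \ sq (2 ^ l * (M * s))) (seam2 M l s) ∅ (guards2 M l s) x τ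
      = ZD b D (seam2 M l s) ∅ (guards2 M l s) x τ * ZD b (D \ sq (2 ^ l * (M * s))) ∅ ∅ (guards2 M l s) x τ := by
  have h := kernel_local b hb D ∅ (seam2 M l s) ∅ (ι := Unit) (fun _ => sq (2 ^ l * (M * s))) (fun _ => ↑(guard M l s)) (guards2 M l s) x τ
    (fun _ => Set.mem_insert _ _) (fun a a' haa => absurd (Subsingleton.elim a a') haa) (fun _ => Set.empty_disjoint _) ?_ ?_ ?_
  · have hU : (Finset.univ : Finset Unit).biUnion (fun _ => sq (2 ^ l * (M * s))) = sq (2 ^ l * (M * s)) := by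
      ext v; simp
    rw [hU] at h
    exact h
  · intro _ F hF
    rcases hF with rfl | hF
    · rw [Set.disjoint_left]
      intro v hv hv'
      exact (Finset.mem_sdiff.1 (Finset.mem_coe.1 hv)).2 (Finset.mem_coe.1 hv')
    · rw [Set.mem_singleton_iff] at hF
      subst hF
      rw [Set.disjoint_left]
      intro v hv hv'
      refine (Finset.mem_sdiff.1 (Finset.mem_coe.1 hv)).2 (sq_mono ?_ (Finset.mem_coe.1 hv'))
      have h4 : 1 ≤ 4 ^ l := Nat.one_le_pow _ _ (by norm_num)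
      exact Nat.mul_le_mul_left _ (Nat.mul_le_mul_left _ (Nat.le_mul_of_pos_left _ h4))
  · intro _ e he _ _
    exact Or.inr (guard_separates M l s hM hs e he)
  · intro _ e he
    have h2 := touch_sq _ e he
    have h3 := sq_succ_subset_stair M l s hM hl hs
    constructor
    · intro c; exact absurd c (Set.notMem_empty _)
    · rintro (⟨_, c⟩ | ⟨c, _⟩)
      · exact absurd (Finset.mem_coe.2 (h3 h2.2)) c
      · exact absurd (Finset.mem_coe.2 (h3 h2.1)) c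

theorem nest_sdiff_eq (M l s : ℕ) : ann2 M l s \ sq (2 ^ l * (M * s)) = stair M (4 ^ l * (4 ^ l * s)) \ sq (2 ^ l * (M * s)) := by
  ext v
  simp only [ann2, Finset.mem_sdiff]
  constructor
  · rintro ⟨⟨h1, _⟩, h3⟩; exact ⟨h1, h3⟩
  · rintro ⟨h1, h3⟩
    refine ⟨⟨h1, fun h2 => h3 (sq_mono ?_ (stair_subset_sq M s h2))⟩, h3⟩
    exact Nat.le_mul_of_pos_left _ (by positivity)

/-- the full nest sum with both data -/
theorem nest_both (b : ℝ) (hb : 0 < b) (M l s : ℕ) (hM : 4 ≤ M) (hl : 4 ≤ l) (hs : 1 ≤ s) (τ : Bond → ℤ)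
    (u : Dat ↑(guard M l s) {gbase M l s}) (v : Dat ↑(guard M l (4 ^ l * s)) {gbase M l (4 ^ l * s)}) :
    ZD b (stair M (4 ^ l * (4 ^ l * s))) ∅ ∅ (guards2 M l s) (u.1 + v.1) τ
      = ZD b (ann M l (4 ^ l * s)) ∅ ∅ {↑(guard M l (4 ^ l * s))} v.1 τ * (ZD b (stair M (4 ^ l * s)) ∅ ∅ {↑(guard M l s)} u.1 τ * Tk b M l s τ u.1 v.1) := by
  have hs' : 1 ≤ 4 ^ l * s := Nat.mul_pos (by positivity) hs
  have h1 := ratio_local b hb M l s hM hl hs τ (stair M (4 ^ l * (4 ^ l * s))) (u.1 + v.1)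
  have h2 := ratio_local b hb M l s hM hl hs τ (ann2 M l s) (u.1 + v.1)
  rw [nest_sdiff_eq] at h2
  have h3 := cut_data_prod_gen b hb M l s hM hl hs τ (stair M (4 ^ l * s)) subset_rfl u v
  rw [← stair_eq_union M l (4 ^ l * s) hM (by omega) hs'] at h3
  rw [h3] at h1
  have p1 := ZD_pos b hb (stair M (4 ^ l * (4 ^ l * s)) \ sq (2 ^ l * (M * s))) (seam2 M l s) ∅ (guards2 M l s) (u.1 + v.1) τ
  have p2 := ZD_pos b hb (stair M (4 ^ l * (4 ^ l * s)) \ sq (2 ^ l * (M * s))) ∅ ∅ (guards2 M l s) (u.1 + v.1) τ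
  have p3 := ZD_pos b hb (ann2 M l s) (seam2 M l s) ∅ (guards2 M l s) (u.1 + v.1) τ
  unfold Tk
  set a := ZD b (stair M (4 ^ l * (4 ^ l * s))) ∅ ∅ (guards2 M l s) (u.1 + v.1) τ
  set c1 := ZD b (stair M (4 ^ l * (4 ^ l * s)) \ sq (2 ^ l * (M * s))) (seam2 M l s) ∅ (guards2 M l s) (u.1 + v.1) τ
  set c2 := ZD b (stair M (4 ^ l * (4 ^ l * s)) \ sq (2 ^ l * (M * s))) ∅ ∅ (guards2 M l s) (u.1 + v.1) τ
  set d1 := ZD b (ann2 M l s) (seam2 M l s) ∅ (guards2 M l s) (u.1 + v.1) τ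
  set d2 := ZD b (ann2 M l s) ∅ ∅ (guards2 M l s) (u.1 + v.1) τ
  set zN := ZD b (stair M (4 ^ l * s)) ∅ ∅ {↑(guard M l s)} u.1 τ
  set zA := ZD b (ann M l (4 ^ l * s)) ∅ ∅ {↑(guard M l (4 ^ l * s))} v.1 τ
  -- h1 : a * c1 = zN * zA * c2 ; h2 : d2 * c1 = d1 * c2
  have e1 : a = zN * zA * c2 / c1 := by rw [eq_div_iff p1.ne']; exact h1
  have e2 : d2 / d1 = c2 / c1 := by rw [div_eq_div_iff p3.ne' p1.ne', h2]; ring
  rw [e1, e2]; ring

/-- the marginal recursion -/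
theorem nest_step (b : ℝ) (hb : 0 < b) (M l s : ℕ) (hM : 4 ≤ M) (hl : 4 ≤ l) (hs : 1 ≤ s) (τ : Bond → ℤ)
    (v : Dat ↑(guard M l (4 ^ l * s)) {gbase M l (4 ^ l * s)}) :
    HasSum (fun u : Dat ↑(guard M l s) {gbase M l s} =>
        ZD b (ann M l (4 ^ l * s)) ∅ ∅ {↑(guard M l (4 ^ l * s))} v.1 τ * (ZD b (stair M (4 ^ l * s)) ∅ ∅ {↑(guard M l s)} u.1 τ * Tk b M l s τ u.1 v.1))
      (ZD b (stair M (4 ^ l * (4 ^ l * s))) ∅ ∅ {↑(guard M l (4 ^ l * s))} v.1 τ) := by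
  have hs' : 1 ≤ 4 ^ l * s := Nat.mul_pos (by positivity) hs
  have hsub : guard M l s ⊆ stair M (4 ^ l * (4 ^ l * s)) :=
    ((guard_subset_ann M l s hM hl hs).trans (ann_subset_stair M l s)).trans (stair_subset_stair M l _ hM (by omega) hs')
  have h := ZD_total b hb (stair M (4 ^ l * (4 ^ l * s))) ∅ ∅ {↑(guard M l (4 ^ l * s))} v.1 τ ↑(guard M l s) (gbase M l s)
    (Finset.mem_coe.2 (gbase_mem_guard M l s hM hs)) (Finset.coe_subset.2 hsub)
    ((guard_oneComp M l s hM hs).mono (fun e he => by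
      rw [mem_domBonds] at he ⊢
      exact ⟨hsub he.1, hsub he.2.1, he.2.2⟩) subset_rfl)
    (Set.disjoint_empty _) (fun F hF => by
      rw [Set.mem_singleton_iff] at hF
      subst hF
      exact (guard_disjoint_ann_next M l s hM hl hs).mono_right (Finset.coe_subset.2 (guard_subset_ann M l _ hM hl hs')))
  convert h using 2 with u
  rw [← nest_both b hb M l s hM hl hs τ u v, add_comm]
  rfl


theorem guard_oneComp_of_subset (M l s : ℕ) (hM : 4 ≤ M) (hs : 1 ≤ s) (D : Finset (ℤ × ℤ)) (hsub : guard M l s ⊆ D) : OneComp D ∅ ↑(guard M l s) :=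
  (guard_oneComp M l s hM hs).mono (fun e he => by
      rw [mem_domBonds] at he ⊢
      exact ⟨hsub he.1, hsub he.2.1, he.2.2⟩) subset_rfl

/-- guard data at the scale `s` -/
abbrev GX (M l s : ℕ) : Type := Dat (↑(guard M l s) : Set (ℤ × ℤ)) {gbase M l s}

theorem loss_inner (b : ℝ) (hb : 0 < b) (M l s : ℕ) (hM : 4 ≤ M) (hl : 4 ≤ l) (hs : 1 ≤ s) (τ : Bond → ℤ) (u : GX M l s) :
    HasSum (fun v : GX M l (4 ^ l * s) =>
        ZD b (ann M l s) ∅ ∅ {↑(guard M l s)} u.1 τ * ZD b (ann M l (4 ^ l * s)) ∅ ∅ {↑(guard M l (4 ^ l * s))} v.1 τ * Tk b M l s τ u.1 v.1)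
      (ZD b (ann2 M l s) ∅ ∅ {↑(guard M l s)} u.1 τ) := by
  have hs' : 1 ≤ 4 ^ l * s := Nat.mul_pos (by positivity) hs
  have hU := ann2_eq_union M l s hM (by omega) hs
  have hsub' : guard M l (4 ^ l * s) ⊆ ann2 M l s := by
    rw [hU]; exact (guard_subset_ann M l _ hM hl hs').trans Finset.subset_union_right
  have hdis : Disjoint (↑(guard M l s) : Set (ℤ × ℤ)) (↑(guard M l (4 ^ l * s)) : Set (ℤ × ℤ)) :=
    (guard_disjoint_ann_next M l s hM hl hs).mono_right (Finset.coe_subset.2 (guard_subset_ann M l _ hM hl hs'))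
  have hterm : ∀ (v : GX M l (4 ^ l * s)),
      ZD b (ann M l s) ∅ ∅ {↑(guard M l s)} u.1 τ * ZD b (ann M l (4 ^ l * s)) ∅ ∅ {↑(guard M l (4 ^ l * s))} v.1 τ * Tk b M l s τ u.1 v.1
        = ZD b (ann2 M l s) ∅ ∅ (insert ↑(guard M l (4 ^ l * s)) {↑(guard M l s)}) (u.1 + v.1) τ := by
    intro v
    rw [← cut_data_prod b hb M l s hM hl hs τ u v]
    unfold Tk
    rw [mul_div_cancel₀ _ (ZD_pos b hb _ _ _ _ _ _).ne', Set.pair_comm]
    rfl
  simp_rw [hterm]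
  exact ZD_total b hb (ann2 M l s) ∅ ∅ {↑(guard M l s)} u.1 τ ↑(guard M l (4 ^ l * s)) (gbase M l (4 ^ l * s))
      (Finset.mem_coe.2 (gbase_mem_guard M l _ hM hs')) (Finset.coe_subset.2 hsub') (guard_oneComp_of_subset M l _ hM hs' _ hsub')
      (Set.disjoint_empty _) (fun F hF => by
        rw [Set.mem_singleton_iff] at hF
        subst hF
        exact hdis.symm)

/-- total probability over the data of one guard, no other constraint -/
theorem guard_total (b : ℝ) (hb : 0 < b) (M l s : ℕ) (hM : 4 ≤ M) (hs : 1 ≤ s) (τ : Bond → ℤ) (D : Finset (ℤ × ℤ)) (hsub : guard M l s ⊆ D) :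
    HasSum (fun u : GX M l s => ZD b D ∅ ∅ {↑(guard M l s)} u.1 τ) (ZD b D ∅ ∅ ∅ 0 τ) := by
  have h2 := ZD_total b hb D ∅ ∅ ∅ 0 τ ↑(guard M l s) (gbase M l s)
      (Finset.mem_coe.2 (gbase_mem_guard M l _ hM hs)) (Finset.coe_subset.2 hsub) (guard_oneComp_of_subset M l _ hM hs _ hsub)
      (Set.disjoint_empty _) (fun F hF => absurd hF (Set.notMem_empty _))
  convert h2 using 2 with u
  rw [zero_add, insert_empty_eq]


/-- `∑_u ∑_v Z_A(u) Z_{A'}(v) T(u,v) = Z_res`, `∑_u Z_A(u) = Z_A` -/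
theorem loss_identity (b : ℝ) (hb : 0 < b) (M l s : ℕ) (hM : 4 ≤ M) (hl : 4 ≤ l) (hs : 1 ≤ s) (τ : Bond → ℤ) :
    (∑' u : Dat ↑(guard M l s) {gbase M l s}, ∑' v : Dat ↑(guard M l (4 ^ l * s)) {gbase M l (4 ^ l * s)},
        ZD b (ann M l s) ∅ ∅ {↑(guard M l s)} u.1 τ * ZD b (ann M l (4 ^ l * s)) ∅ ∅ {↑(guard M l (4 ^ l * s))} v.1 τ * Tk b M l s τ u.1 v.1)
      = ZD b (ann2 M l s) ∅ ∅ ∅ 0 τ ∧
    ZD b (ann2 M l s) (seam2 M l s) ∅ ∅ 0 τ = ZD b (ann M l s) ∅ ∅ ∅ 0 τ * ZD b (ann M l (4 ^ l * s)) ∅ ∅ ∅ 0 τ := by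
  have hU := ann2_eq_union M l s hM (by omega) hs
  have hsub : guard M l s ⊆ ann2 M l s := by
    rw [hU]; exact (guard_subset_ann M l s hM hl hs).trans Finset.subset_union_left
  constructor
  · simp_rw [fun u => (loss_inner b hb M l s hM hl hs τ u).tsum_eq]
    exact (guard_total b hb M l s hM hs τ (ann2 M l s) hsub).tsum_eq
  · rw [hU, ZD_prod b hb (ann M l s) (ann M l (4 ^ l * s)) (seam2 M l s) ∅ ∅ 0 τ (ann_disjoint M l s) ?_ (fun F hF => absurd hF (Set.notMem_empty _))]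
    · congr 1
      · exact ZD_congr_set b _ _ _ _ _ _ _ _ _ (domBonds_bdry_of_subset (Finset.coe_subset.2 (ann_subset_stair M l s))) rfl
      · exact ZD_congr_set b _ _ _ _ _ _ _ _ _ (domBonds_bdry_of_disjoint (ann_next_disjoint_stair M l s)) rfl
    · intro e he h1 h2
      have hXc : (↑(ann M l s) : Set (ℤ × ℤ)) ⊆ ↑(stair M (4 ^ l * s)) := Finset.coe_subset.2 (ann_subset_stair M l s)
      have key : ∀ x, x ∈ ann M l s ∪ ann M l (4 ^ l * s) → x ∉ (↑(ann M l s) : Set (ℤ × ℤ)) → x ∉ (↑(stair M (4 ^ l * s)) : Set (ℤ × ℤ)) := by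
        intro x hx hxX
        rcases Finset.mem_union.1 hx with c | c
        · exact absurd (Finset.mem_coe.2 c) hxX
        · exact fun c' => (Finset.mem_sdiff.1 c).2 (Finset.mem_coe.1 c')
      rcases he with ⟨a, a'⟩ | ⟨a, a'⟩
      · exact Or.inl ⟨hXc a, key _ h2 a'⟩
      · exact Or.inr ⟨key _ h1 a, hXc a'⟩


/-!
# ROW 285, S46 leaf L-S46-NEST (PROVED, helper173): [S]C5.5 (the last guard law).   Assembly of `stability`, `nest_step`, `loss_identity`, `cut_data_prod`, `kernel_upper`, `ZD_total`, `ZD_pos`.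
`s_i = 4^(l i) s0`, `X i = Dat (guard M l s_i) {gbase M l s_i}`, `τ = q • ray`,
`m i u = ZD (ann s_i) {p_i} u τ / ZD (ann s_i) ∅ 0 τ` (`HasSum 1` by `ZD_total`),  `d_i = Tk .. 0 0 0` (centred: `τ = 0`),  `t i u v = Tk b M l s_i τ u v / d_i ∈ (0,1]` (`kernel_upper`),
`g u = [ZD (stair M (λ s0)) ∅ {p_0} u τ / ZD (stair M (λ s0)) (bdry (stair M s0)) {p_0} u τ] / (the same at u = 0, τ = 0) ∈ (0,1]`.
Then `prop m t g i u = κ_i * ZD (stair M (λ s_i)) ∅ {p_i} u τ / ZD (ann s_i) ∅ {p_i} u τ` with constants `κ_i > 0` (induction, `nest_step`; `i = 0`: `ZD_prod` core × annulus),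
`∑ m (i) m (i+1) (1 - t i) = 1 - avgK` (`loss_identity`), and the conclusion of `stability` is the claim for `x ∈ X N`.  General `x`: `x = u + (x - u)` with `u ∈ X N`, `x - u` constant on the guard... use `ZD_congr` on the guard bonds +
`ZD_reindex` (both sides depend only on the relative data of `x` on the guard: `x - u ∈ admL` where `u := (x - x (gbase)) 1_guard`).
-/

/-- the scales `s_i = λ^i s₀`, recursively (so that `scl l s0 (i+1)` is `4^l * scl l s0 i` by definition) -/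
def scl (l s0 : ℕ) : ℕ → ℕ
  | 0 => s0
  | i + 1 => 4 ^ l * scl l s0 i

theorem scl_eq (l s0 i : ℕ) : scl l s0 i = 4 ^ (l * i) * s0 := by
  induction i with
  | zero => simp [scl]
  | succ i ih => rw [scl, ih, Nat.mul_succ, pow_add]; ring

theorem scl_pos (l s0 : ℕ) (hs : 1 ≤ s0) (i : ℕ) : 1 ≤ scl l s0 i := by
  rw [scl_eq]; exact Nat.mul_pos (by positivity) hs

/-- reference law of the guard data in one annulus -/
def nM (b : ℝ) (M l s : ℕ) (τ : Bond → ℤ) (u : GX M l s) : ℝ :=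
  ZD b (ann M l s) ∅ ∅ {↑(guard M l s)} u.1 τ / ZD b (ann M l s) ∅ ∅ ∅ 0 τ

/-- normalised kernel -/
def nT (b : ℝ) (M l s : ℕ) (τ : Bond → ℤ) (u : GX M l s) (v : GX M l (4 ^ l * s)) : ℝ :=
  Tk b M l s τ u.1 v.1 / Tk b M l s 0 0 0

/-- normalised core weight -/
def nG (b : ℝ) (M l s : ℕ) (τ : Bond → ℤ) (u : GX M l s) : ℝ :=
  (ZD b (stair M (4 ^ l * s)) ∅ ∅ {↑(guard M l s)} u.1 τ / ZD b (stair M (4 ^ l * s)) (bdry ↑(stair M s)) ∅ {↑(guard M l s)} u.1 τ) /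
    (ZD b (stair M (4 ^ l * s)) ∅ ∅ {↑(guard M l s)} 0 0 / ZD b (stair M (4 ^ l * s)) (bdry ↑(stair M s)) ∅ {↑(guard M l s)} 0 0)

theorem nM_pos (b : ℝ) (hb : 0 < b) (M l s : ℕ) (τ : Bond → ℤ) (u : GX M l s) : 0 < nM b M l s τ u :=
  div_pos (ZD_pos b hb _ _ _ _ _ _) (ZD_pos b hb _ _ _ _ _ _)

theorem nM_hasSum (b : ℝ) (hb : 0 < b) (M l s : ℕ) (hM : 4 ≤ M) (hl : 4 ≤ l) (hs : 1 ≤ s) (τ : Bond → ℤ) : HasSum (nM b M l s τ) 1 := by
  have h := (guard_total b hb M l s hM hs τ (ann M l s) (guard_subset_ann M l s hM hl hs)).div_const (ZD b (ann M l s) ∅ ∅ ∅ 0 τ)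
  rw [div_self (ZD_pos b hb _ _ _ _ _ _).ne'] at h
  exact h

theorem Tk_pos (b : ℝ) (hb : 0 < b) (M l s : ℕ) (τ : Bond → ℤ) (u v : ℤ × ℤ → ℤ) : 0 < Tk b M l s τ u v :=
  div_pos (ZD_pos b hb _ _ _ _ _ _) (ZD_pos b hb _ _ _ _ _ _)

theorem nT_pos (b : ℝ) (hb : 0 < b) (M l s : ℕ) (τ : Bond → ℤ) (u : GX M l s) (v : GX M l (4 ^ l * s)) : 0 < nT b M l s τ u v :=
  div_pos (Tk_pos b hb _ _ _ _ _ _) (Tk_pos b hb _ _ _ _ _ _)

/-- ratio form of `kernel_upper` -/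
theorem ratio_upper (b : ℝ) (hb : 0 < b) (D : Finset (ℤ × ℤ)) (seam : Set Bond) (𝓕 : Set (Set (ℤ × ℤ))) (x : ℤ × ℤ → ℤ) (τ : Bond → ℤ) :
    (ZD b D ∅ ∅ 𝓕 x τ / ZD b D seam ∅ 𝓕 x τ) / (ZD b D ∅ ∅ 𝓕 0 0 / ZD b D seam ∅ 𝓕 0 0) ≤ 1 := by
  have h := kernel_upper b hb D ∅ seam ∅ 𝓕 x τ
  rw [Set.empty_union] at h
  have p1 := ZD_pos b hb D ∅ ∅ 𝓕 x τ
  have p2 := ZD_pos b hb D seam ∅ 𝓕 x τ
  have p3 := ZD_pos b hb D ∅ ∅ 𝓕 0 0
  have p4 := ZD_pos b hb D seam ∅ 𝓕 0 0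
  rw [div_le_div_iff₀ p3 p4] at h
  rw [div_le_one (div_pos p3 p4), div_le_div_iff₀ p2 p4]
  linarith

theorem nT_le_one (b : ℝ) (hb : 0 < b) (M l s : ℕ) (τ : Bond → ℤ) (u : GX M l s) (v : GX M l (4 ^ l * s)) : nT b M l s τ u v ≤ 1 := by
  have h := ratio_upper b hb (ann2 M l s) (seam2 M l s) (guards2 M l s) (u.1 + v.1) τ
  unfold nT Tk
  rw [add_zero]
  exact h

theorem nG_pos (b : ℝ) (hb : 0 < b) (M l s : ℕ) (τ : Bond → ℤ) (u : GX M l s) : 0 < nG b M l s τ u :=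
  div_pos (div_pos (ZD_pos b hb _ _ _ _ _ _) (ZD_pos b hb _ _ _ _ _ _)) (div_pos (ZD_pos b hb _ _ _ _ _ _) (ZD_pos b hb _ _ _ _ _ _))

theorem nG_le_one (b : ℝ) (hb : 0 < b) (M l s : ℕ) (τ : Bond → ℤ) (u : GX M l s) : nG b M l s τ u ≤ 1 :=
  ratio_upper b hb _ _ _ _ _

/-- the average loss -/
theorem nloss (b : ℝ) (hb : 0 < b) (M l s : ℕ) (hM : 4 ≤ M) (hl : 4 ≤ l) (hs : 1 ≤ s) (q : ℤ) :
    ∑' u, ∑' v, nM b M l s (q • ray) u * nM b M l (4 ^ l * s) (q • ray) v * (1 - nT b M l s (q • ray) u v) = 1 - avgK b M l s q := by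
  have hs' : 1 ≤ 4 ^ l * s := Nat.mul_pos (by positivity) hs
  set τ : Bond → ℤ := q • ray with hτ
  set zA := ZD b (ann M l s) ∅ ∅ ∅ 0 τ with hzA
  set zA' := ZD b (ann M l (4 ^ l * s)) ∅ ∅ ∅ 0 τ with hzA'
  set d := Tk b M l s 0 0 0 with hd
  have pA : 0 < zA := ZD_pos b hb _ _ _ _ _ _
  have pA' : 0 < zA' := ZD_pos b hb _ _ _ _ _ _
  have pd : 0 < d := Tk_pos b hb _ _ _ _ _ _
  have hsub : guard M l s ⊆ ann2 M l s := by
    rw [ann2_eq_union M l s hM (by omega) hs]; exact (guard_subset_ann M l s hM hl hs).trans Finset.subset_union_left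
  have h1 : ∀ u : GX M l s, HasSum (fun v : GX M l (4 ^ l * s) => nM b M l s τ u * nM b M l (4 ^ l * s) τ v * (1 - nT b M l s τ u v))
      (nM b M l s τ u - ZD b (ann2 M l s) ∅ ∅ {↑(guard M l s)} u.1 τ / (zA * zA' * d)) := by
    intro u
    have a1 := ((nM_hasSum b hb M l _ hM hl hs' τ).mul_left (nM b M l s τ u))
    rw [mul_one] at a1
    have a2 := (loss_inner b hb M l s hM hl hs τ u).div_const (zA * zA' * d)
    have e : (fun v : GX M l (4 ^ l * s) => nM b M l s τ u * nM b M l (4 ^ l * s) τ v * (1 - nT b M l s τ u v))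
        = fun v : GX M l (4 ^ l * s) => nM b M l s τ u * nM b M l (4 ^ l * s) τ v
          - ZD b (ann M l s) ∅ ∅ {↑(guard M l s)} u.1 τ * ZD b (ann M l (4 ^ l * s)) ∅ ∅ {↑(guard M l (4 ^ l * s))} v.1 τ * Tk b M l s τ u.1 v.1 / (zA * zA' * d) := by
      funext v
      unfold nM nT
      rw [← hzA, ← hzA', ← hd]
      field_simp
    rw [e]
    exact a1.sub a2
  simp_rw [fun u => (h1 u).tsum_eq]
  have h2 := (nM_hasSum b hb M l s hM hl hs τ).sub ((guard_total b hb M l s hM hs τ (ann2 M l s) hsub).div_const (zA * zA' * d))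
  rw [h2.tsum_eq]
  congr 1
  unfold avgK
  rw [(loss_identity b hb M l s hM hl hs τ).2, div_div]
  have hd' : d = ZD b (ann2 M l s) ∅ ∅ (guards2 M l s) 0 0 / ZD b (ann2 M l s) (seam2 M l s) ∅ (guards2 M l s) 0 0 := by
    rw [hd]
    unfold Tk
    rw [add_zero]
  rw [← hd']


theorem guard_disjoint_stair (M l s : ℕ) (hM : 4 ≤ M) (hl : 4 ≤ l) (hs : 1 ≤ s) : Disjoint (↑(guard M l s) : Set (ℤ × ℤ)) (↑(stair M s) : Set (ℤ × ℤ)) := by
  rw [Set.disjoint_left]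
  intro x hx hx'
  exact (Finset.mem_sdiff.1 (guard_subset_ann M l s hM hl hs (Finset.mem_coe.1 hx))).2 (Finset.mem_coe.1 hx')

/-- core × first annulus -/
theorem core_prod (b : ℝ) (hb : 0 < b) (M l s : ℕ) (hM : 4 ≤ M) (hl : 4 ≤ l) (hs : 1 ≤ s) (τ : Bond → ℤ) (u : GX M l s) :
    ZD b (stair M (4 ^ l * s)) (bdry ↑(stair M s)) ∅ {↑(guard M l s)} u.1 τ
      = ZD b (stair M s) ∅ ∅ ∅ 0 τ * ZD b (ann M l s) ∅ ∅ {↑(guard M l s)} u.1 τ := by
  have hg := guard_disjoint_stair M l s hM hl hs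
  have hd : Disjoint (stair M s) (ann M l s) := Finset.disjoint_sdiff
  rw [stair_eq_union M l s hM (by omega) hs,
    ZD_prod b hb (stair M s) (ann M l s) (bdry ↑(stair M s)) ∅ {↑(guard M l s)} u.1 τ hd (fun e he _ _ => he) ?_]
  · congr 1
    · have hL : admL (stair M s) ∅ {↑(guard M l s)} = admL (stair M s) ∅ ∅ := by
        ext h
        constructor
        · rintro ⟨h1, _⟩
          exact ⟨h1, fun F hF => absurd hF (Set.notMem_empty _)⟩
        · rintro ⟨h1, _⟩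
          refine ⟨h1, fun F hF x hx y hy hxD hyD => ?_⟩
          rw [Set.mem_singleton_iff] at hF
          subst hF
          exact absurd (Finset.mem_coe.2 hxD) (Set.disjoint_left.1 hg hx)
      rw [ZD_congr_set b (stair M s) _ ∅ ∅ ∅ _ ∅ u.1 τ (domBonds_bdry_of_subset subset_rfl) hL]
      refine ZD_congr b _ ∅ ∅ ∅ _ _ _ _ fun e he => ?_
      have h1 := Dat_zero_of_disjoint u hg _ (mem_domBonds.1 he).1
      have h2 := Dat_zero_of_disjoint u hg _ (mem_domBonds.1 he).2.1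
      simp only [grad, h1, h2, Pi.zero_apply]
    · refine ZD_congr_set b _ _ _ _ _ _ _ _ _ (domBonds_bdry_of_disjoint ?_) rfl
      rw [Finset.disjoint_coe]
      exact hd.symm
  · intro F hF
    rw [Set.mem_singleton_iff] at hF
    subst hF
    exact Or.inl hg

section Chain

variable (b : ℝ) (M l s0 : ℕ) (τ : Bond → ℤ)

/-- the constants of the propagation formula -/
def nK : ℕ → ℝ
  | 0 => (ZD b (stair M s0) ∅ ∅ ∅ 0 τ * (ZD b (stair M (4 ^ l * s0)) ∅ ∅ {↑(guard M l s0)} 0 0 / ZD b (stair M (4 ^ l * s0)) (bdry ↑(stair M s0)) ∅ {↑(guard M l s0)} 0 0))⁻¹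
  | i + 1 => nK i / (ZD b (ann M l (scl l s0 i)) ∅ ∅ ∅ 0 τ * Tk b M l (scl l s0 i) 0 0 0)

theorem nK_pos (hb : 0 < b) (i : ℕ) : 0 < nK b M l s0 τ i := by
  induction i with
  | zero => exact inv_pos.2 (mul_pos (ZD_pos b hb _ _ _ _ _ _) (div_pos (ZD_pos b hb _ _ _ _ _ _) (ZD_pos b hb _ _ _ _ _ _)))
  | succ i ih => exact div_pos ih (mul_pos (ZD_pos b hb _ _ _ _ _ _) (Tk_pos b hb _ _ _ _ _ _))

/-- the propagated weight is the nest-to-annulus ratio of the guard data -/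
theorem prop_formula (hb : 0 < b) (hM : 4 ≤ M) (hl : 4 ≤ l) (hs : 1 ≤ s0) (i : ℕ) (u : GX M l (scl l s0 i)) :
    prop (X := fun i => GX M l (scl l s0 i)) (fun i => nM b M l (scl l s0 i) τ) (fun i => nT b M l (scl l s0 i) τ) (nG b M l s0 τ) i u
      = nK b M l s0 τ i * (ZD b (stair M (4 ^ l * scl l s0 i)) ∅ ∅ {↑(guard M l (scl l s0 i))} u.1 τ / ZD b (ann M l (scl l s0 i)) ∅ ∅ {↑(guard M l (scl l s0 i))} u.1 τ) := by
  induction i with
  | zero =>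
    show nG b M l s0 τ u = _
    unfold nG nK
    have h := core_prod b hb M l s0 hM hl hs τ u
    simp only [scl]
    rw [h]
    have p1 := ZD_pos b hb (stair M s0) ∅ ∅ ∅ 0 τ
    have p2 := ZD_pos b hb (ann M l s0) ∅ ∅ {↑(guard M l s0)} u.1 τ
    have p3 := ZD_pos b hb (stair M (4 ^ l * s0)) ∅ ∅ {↑(guard M l s0)} 0 0
    have p4 := ZD_pos b hb (stair M (4 ^ l * s0)) (bdry ↑(stair M s0)) ∅ {↑(guard M l s0)} 0 0
    field_simp
  | succ i ih =>
    show (∑' w : GX M l (scl l s0 i), nM b M l (scl l s0 i) τ w * nT b M l (scl l s0 i) τ w u * prop (X := fun i => GX M l (scl l s0 i)) (fun i => nM b M l (scl l s0 i) τ) (fun i => nT b M l (scl l s0 i) τ) (nG b M l s0 τ) i w) = _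
    simp_rw [ih]
    have h := (nest_step b hb M l (scl l s0 i) hM hl (scl_pos l s0 hs i) τ u).mul_left
      (nK b M l s0 τ (i + 1) / ZD b (ann M l (4 ^ l * scl l s0 i)) ∅ ∅ {↑(guard M l (4 ^ l * scl l s0 i))} u.1 τ)
    have e : (fun w : GX M l (scl l s0 i) => nM b M l (scl l s0 i) τ w * nT b M l (scl l s0 i) τ w u *
          (nK b M l s0 τ i * (ZD b (stair M (4 ^ l * scl l s0 i)) ∅ ∅ {↑(guard M l (scl l s0 i))} w.1 τ / ZD b (ann M l (scl l s0 i)) ∅ ∅ {↑(guard M l (scl l s0 i))} w.1 τ)))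
        = fun w : GX M l (scl l s0 i) => nK b M l s0 τ (i + 1) / ZD b (ann M l (4 ^ l * scl l s0 i)) ∅ ∅ {↑(guard M l (4 ^ l * scl l s0 i))} u.1 τ *
          (ZD b (ann M l (4 ^ l * scl l s0 i)) ∅ ∅ {↑(guard M l (4 ^ l * scl l s0 i))} u.1 τ * (ZD b (stair M (4 ^ l * scl l s0 i)) ∅ ∅ {↑(guard M l (scl l s0 i))} w.1 τ * Tk b M l (scl l s0 i) τ w.1 u.1)) := by
      funext w
      have p1 := ZD_pos b hb (ann M l (4 ^ l * scl l s0 i)) ∅ ∅ {↑(guard M l (4 ^ l * scl l s0 i))} u.1 τ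
      have p2 := ZD_pos b hb (ann M l (scl l s0 i)) ∅ ∅ {↑(guard M l (scl l s0 i))} w.1 τ
      have p3 := ZD_pos b hb (ann M l (scl l s0 i)) ∅ ∅ ∅ 0 τ
      have p4 := Tk_pos b hb M l (scl l s0 i) 0 0 0
      unfold nM nT
      rw [nK]
      field_simp
    rw [e, h.tsum_eq]
    rw [mul_comm_div]
    rfl

end Chain


/-- the relative datum of `x` on the guard -/
def relDat (M l s : ℕ) (x : ℤ × ℤ → ℤ) : GX M l s :=
  ⟨fun w => if w ∈ guard M l s then x w - x (gbase M l s) else 0, by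
    rintro v (hv | hv)
    · exact if_neg (fun c => hv (Finset.mem_coe.2 c))
    · rw [Set.mem_singleton_iff] at hv
      subst hv
      show (if _ then _ else _) = _
      split_ifs <;> simp⟩

theorem ZD_relDat (b : ℝ) (M l s : ℕ) (D : Finset (ℤ × ℤ)) (x : ℤ × ℤ → ℤ) (τ : Bond → ℤ) :
    ZD b D ∅ ∅ {↑(guard M l s)} x τ = ZD b D ∅ ∅ {↑(guard M l s)} (relDat M l s x).1 τ := by
  have h := ZD_reindex b D ∅ ∅ {↑(guard M l s)} (relDat M l s x).1 (x - (relDat M l s x).1) τ ?_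
  · rw [← h, add_sub_cancel]
  · refine ⟨fun v hv => absurd hv (Set.notMem_empty _), fun F hF a ha c hc _ _ => ?_⟩
    rw [Set.mem_singleton_iff] at hF
    subst hF
    simp only [relDat, Pi.sub_apply, if_pos (Finset.mem_coe.1 ha), if_pos (Finset.mem_coe.1 hc)]
    ring

/-- **(K2) = [S]C5.5.**  Nest = core `stair M s₀` + annuli at the scales `s₀ λ^i`, `i ≤ N`; the law of the relative data on the last guard has density at most `2` with respect to its law in the last annulus alone.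
Conditional on the average loss: no limit theorem inside.  (Translates: `ZD_shift`; other connections with the same source: `ZD_gauge`, `ZD_reindex`.) -/
theorem last_guard (b : ℝ) (hb : 0 < b) (M l s0 : ℕ) (hM : 4 ≤ M) (hl : 4 ≤ l) (hs : 1 ≤ s0) (ξ : ℝ) (hξ : ξ < 1 / 64) (q : ℤ)
    (hloss : ∀ i : ℕ, 1 - avgK b M l (4 ^ (l * i) * s0) q ≤ ξ) :
    ∃ N0, ∀ N ≥ N0, ∀ x : ℤ × ℤ → ℤ,
      ZD b (stair M (4 ^ (l * (N + 1)) * s0)) ∅ ∅ {↑(guard M l (4 ^ (l * N) * s0))} x (q • ray) / ZD b (stair M (4 ^ (l * (N + 1)) * s0)) ∅ ∅ ∅ 0 (q • ray)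
        ≤ 2 * (ZD b (ann M l (4 ^ (l * N) * s0)) ∅ ∅ {↑(guard M l (4 ^ (l * N) * s0))} x (q • ray) / ZD b (ann M l (4 ^ (l * N) * s0)) ∅ ∅ ∅ 0 (q • ray)) := by
  obtain ⟨N0, hN0⟩ := stability (X := fun i => GX M l (scl l s0 i)) (fun i => nM b M l (scl l s0 i) (q • ray)) (fun i => nT b M l (scl l s0 i) (q • ray))
    (nG b M l s0 (q • ray)) ξ hξ (fun i u => (nM_pos b hb _ _ _ _ u).le) (fun i => nM_hasSum b hb M l _ hM hl (scl_pos l s0 hs i) _)
    (fun i u v => (nT_pos b hb _ _ _ _ u v).le) (fun i u v => nT_le_one b hb _ _ _ _ u v)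
    (fun i => by
      have h := nloss b hb M l (scl l s0 i) hM hl (scl_pos l s0 hs i) q
      have h2 := hloss i
      rw [← scl_eq] at h2
      exact h.le.trans h2)
    (fun u => nG_pos b hb _ _ _ _ u) (fun u => nG_le_one b hb _ _ _ _ u)
  refine ⟨N0, fun N hN x => ?_⟩
  have hsN := scl_pos l s0 hs N
  have h := hN0 N hN (relDat M l (scl l s0 N) x)
  simp_rw [prop_formula b M l s0 (q • ray) hb hM hl hs] at h
  have e1 : 4 ^ (l * (N + 1)) * s0 = 4 ^ l * scl l s0 N := by rw [← scl_eq]; rfl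
  rw [e1, ← scl_eq, ZD_relDat b M l (scl l s0 N) (stair M _) x, ZD_relDat b M l (scl l s0 N) (ann M l _) x]
  set u := relDat M l (scl l s0 N) x with hu
  set τ : Bond → ℤ := q • ray with hτ
  have hsum : HasSum (fun w : GX M l (scl l s0 N) => nM b M l (scl l s0 N) τ w * (nK b M l s0 τ N *
      (ZD b (stair M (4 ^ l * scl l s0 N)) ∅ ∅ {↑(guard M l (scl l s0 N))} w.1 τ / ZD b (ann M l (scl l s0 N)) ∅ ∅ {↑(guard M l (scl l s0 N))} w.1 τ)))
      (nK b M l s0 τ N / ZD b (ann M l (scl l s0 N)) ∅ ∅ ∅ 0 τ * ZD b (stair M (4 ^ l * scl l s0 N)) ∅ ∅ ∅ 0 τ) := by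
    have h3 := (guard_total b hb M l (scl l s0 N) hM hsN τ (stair M (4 ^ l * scl l s0 N))
      ((guard_subset_ann M l _ hM hl hsN).trans (ann_subset_stair M l _))).mul_left (nK b M l s0 τ N / ZD b (ann M l (scl l s0 N)) ∅ ∅ ∅ 0 τ)
    have e : (fun w : GX M l (scl l s0 N) => nM b M l (scl l s0 N) τ w * (nK b M l s0 τ N *
        (ZD b (stair M (4 ^ l * scl l s0 N)) ∅ ∅ {↑(guard M l (scl l s0 N))} w.1 τ / ZD b (ann M l (scl l s0 N)) ∅ ∅ {↑(guard M l (scl l s0 N))} w.1 τ)))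
        = fun w : GX M l (scl l s0 N) => nK b M l s0 τ N / ZD b (ann M l (scl l s0 N)) ∅ ∅ ∅ 0 τ * ZD b (stair M (4 ^ l * scl l s0 N)) ∅ ∅ {↑(guard M l (scl l s0 N))} w.1 τ := by
      funext w
      have p2 := ZD_pos b hb (ann M l (scl l s0 N)) ∅ ∅ {↑(guard M l (scl l s0 N))} w.1 τ
      have p3 := ZD_pos b hb (ann M l (scl l s0 N)) ∅ ∅ ∅ 0 τ
      unfold nM
      field_simp
    rw [e]
    exact h3
  rw [hsum.tsum_eq] at h
  have pK := nK_pos b M l s0 τ hb N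
  have p1 := ZD_pos b hb (ann M l (scl l s0 N)) ∅ ∅ {↑(guard M l (scl l s0 N))} u.1 τ
  have p2 := ZD_pos b hb (ann M l (scl l s0 N)) ∅ ∅ ∅ 0 τ
  have p3 := ZD_pos b hb (stair M (4 ^ l * scl l s0 N)) ∅ ∅ ∅ 0 τ
  have p4 := ZD_pos b hb (stair M (4 ^ l * scl l s0 N)) ∅ ∅ {↑(guard M l (scl l s0 N))} u.1 τ
  set K := nK b M l s0 τ N
  set a1 := ZD b (ann M l (scl l s0 N)) ∅ ∅ {↑(guard M l (scl l s0 N))} u.1 τ
  set a2 := ZD b (ann M l (scl l s0 N)) ∅ ∅ ∅ 0 τ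
  set a3 := ZD b (stair M (4 ^ l * scl l s0 N)) ∅ ∅ ∅ 0 τ
  set a4 := ZD b (stair M (4 ^ l * scl l s0 N)) ∅ ∅ {↑(guard M l (scl l s0 N))} u.1 τ
  -- h : K * (a4 / a1) ≤ 2 * (K / a2 * a3)
  have h5 : a4 / a1 ≤ 2 * (a3 / a2) := by
    have : K * (a4 / a1) ≤ K * (2 * (a3 / a2)) := by
      calc K * (a4 / a1) ≤ 2 * (K / a2 * a3) := h
        _ = K * (2 * (a3 / a2)) := by ring
    exact le_of_mul_le_mul_left this pK
  rw [div_le_iff₀ p1] at h5
  rw [div_le_iff₀ p3]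
  calc a4 ≤ 2 * (a3 / a2) * a1 := h5
    _ = 2 * (a1 / a2) * a3 := by ring

end

end Claimed.Agent.R285.S46
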