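import Claimed.Agent.R285.S46.Defs

/-!
# ROW 285, layer S46: calculus of the partition sums `ZD` (global form, gauge, total probability, products, Markov property, [S](8), [S](9)).   ALL PROVED.
MERGED FILE (file budget of 15:22Z): sections = the former files `Glob`, `Calc`, `Total`, `Prod`, `Local`, `Upper`, `Lower`, `Fam` of `R285/S46/`; every section keeps its header (leaf name, plan).  Provers: replace the sorry IN PLACE, helper lemmas just above.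
-/

set_option autoImplicit false

namespace Claimed.Agent.R285.S46

open Filter Topology
open scoped Classical

/-!
# ROW 285, S46 leaf L-S46-GLOB: lattice sums of Bessel weights in global form.   PROVED (helper173, no sorry).   Paper-free, elementary (only `Rsd/Bes.lean`: `bes_pos`, `bes_neg`, `bes_hasSum_exp` at `t = 0`).

`ZL b E Λ σ = ∑_{z ∈ Λ} ∏_{e ∈ E} p_b(z_e + σ_e)` for a subgroup `Λ` of `Bond → ℤ` SUPPORTED on the finite set `E`.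
* summability: `z ↦ (z_e)_{e ∈ E}` is injective on `Λ`; compare with `∏_e ∑_k p_b(k) = 1` (`Summable` of a finite product over `E → ℤ`, then `Summable.comp_injective`).
* `ZL_mul`: `Λ₁ × Λ₂ ≃ Λ₁ ⊔ Λ₂`, `(z₁,z₂) ↦ z₁ + z₂` (injective by the disjoint supports), `Finset.prod_union`, `Summable.tsum_mul_tsum`.
* `ZL_coset`: `R × Λ' ≃ Λ`, `(ρ, z) ↦ z + r ρ`; `HasSum.sigma`/`Equiv.hasSum_iff` + `Summable.prod_factor`.
* `ZD_eq_ZG`: the equivalence between `((dlaw D cut P 𝓕).sys b).L` and `latG D cut P 𝓕` (extension by zero); `Finset.prod_coe_sort`; the Gaussian factor is `exp 0`.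
-/

theorem glob_bes_hasSum (b : ℝ) (c : ℤ) : HasSum (fun k : ℤ => bes b (k + c)) 1 := by
  have h : HasSum (fun k : ℤ => bes b k) 1 := by
    have := bes_hasSum_exp b 0
    simpa using this
  exact (Equiv.addRight c).hasSum_iff.2 h

theorem glob_bes_sum_le (b : ℝ) (hb : 0 < b) (T : Finset ℤ) (c : ℤ) : ∑ j ∈ T, bes b (j + c) ≤ 1 :=
  sum_le_hasSum T (fun j _ => (bes_pos b hb _).le) (glob_bes_hasSum b c)

theorem ZL_summable (b : ℝ) (hb : 0 < b) (E : Finset Bond) (Λ : AddSubgroup (Bond → ℤ)) (hΛ : ∀ z ∈ Λ, ∀ e, e ∉ E → z e = 0) (σ : Bond → ℤ) :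
    Summable fun z : Λ => ∏ e ∈ E, bes b ((z : Bond → ℤ) e + σ e) := by
  refine summable_of_sum_le (c := 1) (fun z => Finset.prod_nonneg fun e _ => (bes_pos b hb _).le) ?_
  intro s
  let T : ↥E → Finset ℤ := fun e => s.image (fun z : Λ => z.1 e.1)
  let φ : Λ → (↥E → ℤ) := fun z e => z.1 e.1
  have hφ : Function.Injective φ := by
    intro z z' h
    apply Subtype.ext
    funext e
    by_cases he : e ∈ E
    · exact congrFun h ⟨e, he⟩
    · rw [hΛ z z.2 e he, hΛ z' z'.2 e he]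
  calc ∑ z ∈ s, ∏ e ∈ E, bes b ((z : Bond → ℤ) e + σ e) = ∑ z ∈ s, ∏ e : ↥E, bes b (φ z e + σ e) := by
        refine Finset.sum_congr rfl fun z _ => ?_
        exact (Finset.prod_coe_sort E fun e => bes b ((z : Bond → ℤ) e + σ e)).symm
    _ = ∑ k ∈ s.image φ, ∏ e : ↥E, bes b (k e + σ e) :=
        (Finset.sum_image (f := fun k : ↥E → ℤ => ∏ e : ↥E, bes b (k e + σ e)) (g := φ) (s := s) (fun _ _ _ _ h => hφ h)).symm
    _ ≤ ∑ k ∈ Fintype.piFinset T, ∏ e : ↥E, bes b (k e + σ e) := by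
        refine Finset.sum_le_sum_of_subset_of_nonneg ?_ (fun k _ _ => Finset.prod_nonneg fun e _ => (bes_pos b hb _).le)
        intro k hk
        obtain ⟨z, hz, rfl⟩ := Finset.mem_image.1 hk
        exact Fintype.mem_piFinset.2 fun e => Finset.mem_image.2 ⟨z, hz, rfl⟩
    _ = ∏ e : ↥E, ∑ j ∈ T e, bes b (j + σ e) := (Finset.prod_univ_sum T fun e j => bes b (j + σ e)).symm
    _ ≤ 1 := Finset.prod_le_one (fun e _ => Finset.sum_nonneg fun j _ => (bes_pos b hb _).le) (fun e _ => glob_bes_sum_le b hb _ _)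

theorem ZL_pos (b : ℝ) (hb : 0 < b) (E : Finset Bond) (Λ : AddSubgroup (Bond → ℤ)) (hΛ : ∀ z ∈ Λ, ∀ e, e ∉ E → z e = 0) (σ : Bond → ℤ) :
    0 < ZL b E Λ σ :=
  (ZL_summable b hb E Λ hΛ σ).tsum_pos (fun z => Finset.prod_nonneg fun e _ => (bes_pos b hb _).le) 0
    (Finset.prod_pos fun e _ => bes_pos b hb _)

theorem ZL_congr (b : ℝ) (E : Finset Bond) (Λ : AddSubgroup (Bond → ℤ)) (σ σ' : Bond → ℤ) (h : ∀ e ∈ E, σ e = σ' e) :
    ZL b E Λ σ = ZL b E Λ σ' := by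
  unfold ZL
  congr 1; funext z
  exact Finset.prod_congr rfl fun e he => by rw [h e he]

theorem ZL_translate (b : ℝ) (E : Finset Bond) (Λ : AddSubgroup (Bond → ℤ)) (σ g : Bond → ℤ) (hg : g ∈ Λ) :
    ZL b E Λ (σ + g) = ZL b E Λ σ := by
  unfold ZL
  rw [← (Equiv.addRight (⟨g, hg⟩ : Λ)).tsum_eq fun z : Λ => ∏ e ∈ E, bes b ((z : Bond → ℤ) e + σ e)]
  congr 1; funext z
  refine Finset.prod_congr rfl fun e _ => ?_
  congr 1
  simp only [Equiv.coe_addRight, AddSubgroup.coe_add, Pi.add_apply]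
  ring

theorem ZL_neg (b : ℝ) (E : Finset Bond) (Λ : AddSubgroup (Bond → ℤ)) (σ : Bond → ℤ) : ZL b E Λ (-σ) = ZL b E Λ σ := by
  unfold ZL
  rw [← (Equiv.neg Λ).tsum_eq fun z : Λ => ∏ e ∈ E, bes b ((z : Bond → ℤ) e + σ e)]
  congr 1; funext z
  refine Finset.prod_congr rfl fun e _ => ?_
  rw [← bes_neg]
  congr 1
  simp only [Equiv.neg_apply, AddSubgroup.coe_neg, Pi.neg_apply]
  ring

/-- product of two lattices with disjoint supports -/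
theorem ZL_mul (b : ℝ) (hb : 0 < b) (E₁ E₂ : Finset Bond) (hE : Disjoint E₁ E₂) (Λ₁ Λ₂ : AddSubgroup (Bond → ℤ))
    (h₁ : ∀ z ∈ Λ₁, ∀ e, e ∉ E₁ → z e = 0) (h₂ : ∀ z ∈ Λ₂, ∀ e, e ∉ E₂ → z e = 0) (σ : Bond → ℤ) :
    ZL b (E₁ ∪ E₂) (Λ₁ ⊔ Λ₂) σ = ZL b E₁ Λ₁ σ * ZL b E₂ Λ₂ σ := by
  have s₁ := ZL_summable b hb E₁ Λ₁ h₁ σ
  have s₂ := ZL_summable b hb E₂ Λ₂ h₂ σ
  have n₁ : ∀ z : Λ₁, 0 ≤ ∏ e ∈ E₁, bes b ((z : Bond → ℤ) e + σ e) := fun z => Finset.prod_nonneg fun e _ => (bes_pos b hb _).le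
  have n₂ : ∀ z : Λ₂, 0 ≤ ∏ e ∈ E₂, bes b ((z : Bond → ℤ) e + σ e) := fun z => Finset.prod_nonneg fun e _ => (bes_pos b hb _).le
  have d12 : ∀ e, e ∈ E₁ → e ∉ E₂ := fun e he he' => (Finset.disjoint_left.1 hE) he he'
  have d21 : ∀ e, e ∈ E₂ → e ∉ E₁ := fun e he he' => (Finset.disjoint_left.1 hE) he' he
  let ψ : Λ₁ × Λ₂ → ↥(Λ₁ ⊔ Λ₂) := fun p => ⟨(p.1 : Bond → ℤ) + (p.2 : Bond → ℤ), AddSubgroup.add_mem_sup p.1.2 p.2.2⟩
  have hψ : Function.Bijective ψ := by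
    constructor
    · rintro ⟨z₁, z₂⟩ ⟨w₁, w₂⟩ h
      have h' : ∀ e, (z₁ : Bond → ℤ) e + (z₂ : Bond → ℤ) e = (w₁ : Bond → ℤ) e + (w₂ : Bond → ℤ) e := fun e => congrFun (congrArg Subtype.val h) e
      have e1 : z₁ = w₁ := by
        apply Subtype.ext; funext e
        by_cases he : e ∈ E₁
        · have := h' e
          rwa [h₂ z₂ z₂.2 e (d12 e he), h₂ w₂ w₂.2 e (d12 e he), add_zero, add_zero] at this
        · rw [h₁ z₁ z₁.2 e he, h₁ w₁ w₁.2 e he]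
      have e2 : z₂ = w₂ := by
        apply Subtype.ext; funext e
        have := h' e
        rw [e1] at this
        exact add_left_cancel this
      rw [e1, e2]
    · rintro ⟨z, hz⟩
      obtain ⟨y, hy, w, hw, rfl⟩ := AddSubgroup.mem_sup.1 hz
      exact ⟨(⟨y, hy⟩, ⟨w, hw⟩), rfl⟩
  unfold ZL
  rw [s₁.tsum_mul_tsum s₂ (s₁.mul_of_nonneg s₂ n₁ n₂), ← (Equiv.ofBijective ψ hψ).tsum_eq]
  congr 1; funext p
  rw [Finset.prod_union hE]
  congr 1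
  · refine Finset.prod_congr rfl fun e he => ?_
    show bes b ((p.1 : Bond → ℤ) e + (p.2 : Bond → ℤ) e + σ e) = _
    rw [h₂ p.2 p.2.2 e (d12 e he), add_zero]
  · refine Finset.prod_congr rfl fun e he => ?_
    show bes b ((p.1 : Bond → ℤ) e + (p.2 : Bond → ℤ) e + σ e) = _
    rw [h₁ p.1 p.1.2 e (d21 e he), zero_add]

/-- decomposition into cosets of a sublattice, with an explicit system of representatives `r` -/
theorem ZL_coset (b : ℝ) (hb : 0 < b) (E : Finset Bond) (Λ Λ' : AddSubgroup (Bond → ℤ)) (hΛ : ∀ z ∈ Λ, ∀ e, e ∉ E → z e = 0) (hle : Λ' ≤ Λ)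
    {R : Type} (r : R → Bond → ℤ) (hr : ∀ ρ, r ρ ∈ Λ) (huniq : ∀ z ∈ Λ, ∃! ρ, z - r ρ ∈ Λ') (σ : Bond → ℤ) :
    HasSum (fun ρ => ZL b E Λ' (σ + r ρ)) (ZL b E Λ σ) := by
  let Θ : R × Λ' → Λ := fun p => ⟨(p.2 : Bond → ℤ) + r p.1, Λ.add_mem (hle p.2.2) (hr p.1)⟩
  have hΘ : Function.Bijective Θ := by
    constructor
    · rintro ⟨ρ, z⟩ ⟨ρ', z'⟩ h
      have h' : (z : Bond → ℤ) + r ρ = (z' : Bond → ℤ) + r ρ' := congrArg Subtype.val h
      obtain ⟨ρ₀, _, hu⟩ := huniq ((z : Bond → ℤ) + r ρ) (Λ.add_mem (hle z.2) (hr ρ))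
      have a1 : ρ = ρ₀ := hu ρ (by simp)
      have a2 : ρ' = ρ₀ := hu ρ' (by rw [h']; simp)
      have e1 : ρ = ρ' := a1.trans a2.symm
      subst e1
      have e2 : z = z' := Subtype.ext (add_right_cancel h')
      rw [e2]
    · rintro ⟨w, hw⟩
      obtain ⟨ρ, hρ, _⟩ := huniq w hw
      exact ⟨(ρ, ⟨w - r ρ, hρ⟩), Subtype.ext (by simp [Θ])⟩
  have hs := (ZL_summable b hb E Λ hΛ σ).hasSum
  have hs' := (Equiv.ofBijective Θ hΘ).hasSum_iff.2 hs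
  refine hs'.prod_fiberwise fun ρ => ?_
  have h3 := (ZL_summable b hb E Λ' (fun z hz => hΛ z (hle hz)) (σ + r ρ)).hasSum
  have h4 : HasSum (fun z : Λ' => ∏ e ∈ E, bes b ((z : Bond → ℤ) e + (σ + r ρ) e)) (ZL b E Λ' (σ + r ρ)) := h3
  convert h4 using 1
  funext z
  refine Finset.prod_congr rfl fun e _ => ?_
  congr 1
  show (z : Bond → ℤ) e + r ρ e + σ e = (z : Bond → ℤ) e + (σ e + r ρ e)
  ring

theorem latG_supp (D : Finset (ℤ × ℤ)) (cut : Set Bond) (P : Set (ℤ × ℤ)) (𝓕 : Set (Set (ℤ × ℤ))) :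
    ∀ z ∈ latG D cut P 𝓕, ∀ e, e ∉ domBonds D cut → z e = 0 := by
  intro z hz e he
  obtain ⟨h, _, rfl⟩ := AddSubgroup.mem_map.1 hz
  simp [gradD, he]

/-- extension by zero of a function on the bonds of the graph -/
noncomputable def globExt (D : Finset (ℤ × ℤ)) (cut : Set Bond) (z : (domG D cut).E → ℤ) : Bond → ℤ :=
  fun e => if he : e ∈ domBonds D cut then z ⟨e, he⟩ else 0

theorem globExt_range (b : ℝ) (D : Finset (ℤ × ℤ)) (cut : Set Bond) (P : Set (ℤ × ℤ)) (𝓕 : Set (Set (ℤ × ℤ))) :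
    Set.range (fun z : ((dlaw D cut P 𝓕).sys b).L => globExt D cut z.1.1) = ↑(latG D cut P 𝓕) := by
  ext y
  constructor
  · rintro ⟨⟨z, hz⟩, rfl⟩
    obtain ⟨h, hh, rfl⟩ := AddSubgroup.mem_map.1 hz
    refine AddSubgroup.mem_map.2 ⟨fun v => if hv : v ∈ D then h ⟨v, hv⟩ else 0, ⟨?_, ?_⟩, ?_⟩
    · intro v hvP hvD
      simp only [hvD, dif_pos]
      exact hh.1 ⟨v, hvD⟩ hvP
    · intro F hF x hx y hy hxD hyD
      simp only [hxD, hyD, dif_pos]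
      exact hh.2 (domSet F) ⟨F, hF, rfl⟩ ⟨x, hxD⟩ hx ⟨y, hyD⟩ hy
    · funext e
      by_cases he : e ∈ domBonds D cut
      · simp only [gradD, AddMonoidHom.coe_mk, ZeroHom.coe_mk, he, if_true, globExt, dif_pos, domBonds_fst he, domBonds_snd he]
        rfl
      · simp [gradD, globExt, he]
  · intro hy
    obtain ⟨h, hh, rfl⟩ := AddSubgroup.mem_map.1 hy
    refine ⟨⟨(dlaw D cut P 𝓕).coord (fun v => h v.1), AddSubgroup.mem_map.2 ⟨fun v => h v.1, ⟨?_, ?_⟩, rfl⟩⟩, ?_⟩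
    · intro v hv
      exact hh.1 v.1 hv v.2
    · rintro _ ⟨F, hF, rfl⟩ x hx y hy
      exact hh.2 F hF x.1 hx y.1 hy x.2 y.2
    · funext e
      by_cases he : e ∈ domBonds D cut
      · simp only [gradD, AddMonoidHom.coe_mk, ZeroHom.coe_mk, he, if_true, globExt, dif_pos]
        rfl
      · simp [gradD, globExt, he]

/-- **bridge**: the partition sum in global form -/
theorem ZD_eq_ZG (b : ℝ) (D : Finset (ℤ × ℤ)) (cut : Set Bond) (P : Set (ℤ × ℤ)) (𝓕 : Set (Set (ℤ × ℤ))) (x : ℤ × ℤ → ℤ) (τ : Bond → ℤ) :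
    ZD b D cut P 𝓕 x τ = ZG b D cut P 𝓕 (grad x + τ) := by
  set Φ : ((dlaw D cut P 𝓕).sys b).L → (Bond → ℤ) := fun z => globExt D cut z.1.1 with hΦ
  have hinj : Function.Injective Φ := by
    intro z z' h
    apply Subtype.ext
    apply Prod.ext
    · funext e
      have he : (Subtype.val (p := fun e => e ∈ domBonds D cut) e) ∈ domBonds D cut := Subtype.property (p := fun e => e ∈ domBonds D cut) e
      have := congrFun h (Subtype.val (p := fun e => e ∈ domBonds D cut) e)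
      simp only [Φ, globExt, he, dif_pos] at this
      exact this
    · funext o
      exact o.elim
  set F : (Bond → ℤ) → ℝ := fun y => ∏ e ∈ domBonds D cut, bes b (y e + (grad x + τ) e) with hF
  have h1 : ZD b D cut P 𝓕 x τ = ∑' z : ((dlaw D cut P 𝓕).sys b).L, F (Φ z) := by
    unfold ZD LSys.w LSys.Zf
    congr 1; funext z
    rw [one_mul]
    unfold LSys.W
    have e0 : (∑ o : ((dlaw D cut P 𝓕).sys b).O, (((z : ((dlaw D cut P 𝓕).sys b).Amb) + HLaw.Aff.amb (H := dlaw D cut P 𝓕) ⟨domFn x, domFnE τ, fun o => o.elim⟩ b).2 o) ^ 2) = 0 :=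
      Finset.sum_eq_zero fun o _ => o.elim
    rw [e0]
    simp only [neg_zero, zero_div, Real.exp_zero, mul_one]
    rw [hF]
    simp only
    have e1 : ∏ e ∈ domBonds D cut, bes b (Φ z e + (grad x + τ) e) = ∏ e : {e // e ∈ domBonds D cut}, bes b (Φ z e.1 + (grad x + τ) e.1) :=
      (Finset.prod_coe_sort (domBonds D cut) fun e => bes b (Φ z e + (grad x + τ) e)).symm
    rw [e1]
    refine Finset.prod_congr (Finset.ext fun a => ⟨fun _ => Finset.mem_univ _, fun _ => Finset.mem_univ _⟩) ?_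
    intro e _
    have he : (Subtype.val (p := fun e => e ∈ domBonds D cut) e) ∈ domBonds D cut := Subtype.property (p := fun e => e ∈ domBonds D cut) e
    show bes b _ = _
    congr 1
    simp only [Φ, globExt, he, dif_pos]
    rfl
  have h2 : ∑' z : ((dlaw D cut P 𝓕).sys b).L, F (Φ z) = ∑' y : Set.range Φ, F y :=
    (Equiv.ofInjective Φ hinj).tsum_eq (fun y : Set.range Φ => F y)
  have h3 : ∑' y : Set.range Φ, F y = ∑' y : (↑(latG D cut P 𝓕) : Set (Bond → ℤ)), F y :=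
    tsum_congr_set_coe F (globExt_range b D cut P 𝓕)
  rw [h1, h2, h3]
  rfl

/-!
# ROW 285, S46 leaf L-S46-CALC: elementary calculus of `ZD` (positivity, gauge, reindexing, inversion, congruence, translation).   PROVED (helper173, no sorry).   All from `Glob.lean` (`ZD_eq_ZG`, `ZL_*`).
`ZD_shift`: the translation `z ↦ (e ↦ z (e.1 - c, e.2))` is an equivalence of the two lattices; `domBonds (D + c) (cut + c) = (domBonds D cut) + c`; `Finset.prod_image` / `Finset.prod_bij`.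
-/

theorem ZD_pos (b : ℝ) (hb : 0 < b) (D : Finset (ℤ × ℤ)) (cut : Set Bond) (P : Set (ℤ × ℤ)) (𝓕 : Set (Set (ℤ × ℤ)))
    (x : ℤ × ℤ → ℤ) (τ : Bond → ℤ) : 0 < ZD b D cut P 𝓕 x τ := by
  rw [ZD_eq_ZG]
  exact ZL_pos b hb _ _ (latG_supp D cut P 𝓕) _

/-- only `∇x + τ` on the bonds of `(D, cut)` matters -/
theorem ZD_congr (b : ℝ) (D : Finset (ℤ × ℤ)) (cut : Set Bond) (P : Set (ℤ × ℤ)) (𝓕 : Set (Set (ℤ × ℤ)))
    (x x' : ℤ × ℤ → ℤ) (τ τ' : Bond → ℤ) (h : ∀ e ∈ domBonds D cut, grad x e + τ e = grad x' e + τ' e) :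
    ZD b D cut P 𝓕 x τ = ZD b D cut P 𝓕 x' τ' := by
  rw [ZD_eq_ZG, ZD_eq_ZG]
  exact ZL_congr b _ _ _ _ h

theorem ZD_gauge (b : ℝ) (D : Finset (ℤ × ℤ)) (cut : Set Bond) (P : Set (ℤ × ℤ)) (𝓕 : Set (Set (ℤ × ℤ)))
    (x g : ℤ × ℤ → ℤ) (τ : Bond → ℤ) : ZD b D cut P 𝓕 (x + g) τ = ZD b D cut P 𝓕 x (τ + grad g) := by
  refine ZD_congr b D cut P 𝓕 _ _ _ _ fun e _ => ?_
  simp only [grad, Pi.add_apply]; ring

theorem mem_domBonds {D : Finset (ℤ × ℤ)} {cut : Set Bond} {e : Bond} : e ∈ domBonds D cut ↔ e.1 ∈ D ∧ e.snd ∈ D ∧ e ∉ cut := by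
  unfold domBonds
  simp only [Finset.mem_filter, Finset.mem_product, Finset.mem_univ, and_true]

theorem gradD_apply (D : Finset (ℤ × ℤ)) (cut : Set Bond) (h : ℤ × ℤ → ℤ) {e : Bond} (he : e ∈ domBonds D cut) :
    gradD D cut h e = h e.snd - h e.1 := by
  simp [gradD, he]

theorem gradD_eq_zero_iff (D : Finset (ℤ × ℤ)) (cut : Set Bond) (h : ℤ × ℤ → ℤ) :
    gradD D cut h = 0 ↔ ∀ e ∈ domBonds D cut, h e.snd = h e.1 := by
  constructor
  · intro h0 e he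
    have := congrFun h0 e
    rw [gradD_apply D cut h he] at this
    exact sub_eq_zero.1 this
  · intro h0
    funext e
    by_cases he : e ∈ domBonds D cut
    · rw [gradD_apply D cut h he, h0 e he]; simp
    · simp [gradD, he]

theorem gradD_congr {D : Finset (ℤ × ℤ)} {cut cut' : Set Bond} (hc : domBonds D cut = domBonds D cut') : gradD D cut = gradD D cut' := by
  ext h e
  simp [gradD, hc]

/-- only the constraints inside `D` and the uncut bonds of `D` matter -/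
theorem ZD_congr_set (b : ℝ) (D : Finset (ℤ × ℤ)) (cut cut' : Set Bond) (P P' : Set (ℤ × ℤ)) (𝓕 𝓕' : Set (Set (ℤ × ℤ)))
    (x : ℤ × ℤ → ℤ) (τ : Bond → ℤ) (hc : domBonds D cut = domBonds D cut') (hL : admL D P 𝓕 = admL D P' 𝓕') :
    ZD b D cut P 𝓕 x τ = ZD b D cut' P' 𝓕' x τ := by
  rw [ZD_eq_ZG, ZD_eq_ZG]
  unfold ZG latG
  rw [hc, hL, gradD_congr hc]

/-- data in the constraint lattice can be removed -/
theorem ZD_reindex (b : ℝ) (D : Finset (ℤ × ℤ)) (cut : Set Bond) (P : Set (ℤ × ℤ)) (𝓕 : Set (Set (ℤ × ℤ)))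
    (x g : ℤ × ℤ → ℤ) (τ : Bond → ℤ) (hg : g ∈ admL D P 𝓕) :
    ZD b D cut P 𝓕 (x + g) τ = ZD b D cut P 𝓕 x τ := by
  rw [ZD_eq_ZG, ZD_eq_ZG]
  unfold ZG
  rw [← ZL_translate b _ (latG D cut P 𝓕) (grad x + τ) (gradD D cut g) (AddSubgroup.mem_map.2 ⟨g, hg, rfl⟩)]
  refine ZL_congr b _ _ _ _ fun e he => ?_
  simp only [grad, gradD, Pi.add_apply, AddMonoidHom.coe_mk, ZeroHom.coe_mk, he, if_true]; ring

/-- inversion -/
theorem ZD_neg (b : ℝ) (D : Finset (ℤ × ℤ)) (cut : Set Bond) (P : Set (ℤ × ℤ)) (𝓕 : Set (Set (ℤ × ℤ)))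
    (x : ℤ × ℤ → ℤ) (τ : Bond → ℤ) : ZD b D cut P 𝓕 (-x) (-τ) = ZD b D cut P 𝓕 x τ := by
  rw [ZD_eq_ZG, ZD_eq_ZG]
  unfold ZG
  rw [← ZL_neg b _ _ (grad x + τ)]
  refine ZL_congr b _ _ _ _ fun e _ => ?_
  simp only [grad, Pi.add_apply, Pi.neg_apply]; ring

/-- precomposition with a map of the bonds -/
def preHom (π : Bond → Bond) : (Bond → ℤ) →+ (Bond → ℤ) where
  toFun z := z ∘ π
  map_zero' := rfl
  map_add' _ _ := rfl

/-- relabelling of the bonds -/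
theorem ZL_relabel (b : ℝ) (E : Finset Bond) (Λ : AddSubgroup (Bond → ℤ)) (σ : Bond → ℤ) (π : Bond ≃ Bond) :
    ZL b (E.image π.symm) (Λ.map (preHom π)) (σ ∘ π) = ZL b E Λ σ := by
  have hκ : Function.Injective (preHom π) := by
    intro z z' h
    funext e
    have := congrFun h (π.symm e)
    simpa [preHom] using this
  unfold ZL
  rw [← (Λ.equivMapOfInjective (preHom π) hκ).toEquiv.tsum_eq]
  congr 1; funext z
  rw [Finset.prod_image (fun _ _ _ _ h => π.symm.injective h)]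
  refine Finset.prod_congr rfl fun e _ => ?_
  have e1 : ((Λ.equivMapOfInjective (preHom π) hκ).toEquiv z : Bond → ℤ) = preHom π z := rfl
  rw [e1]
  simp [preHom]

/-- the translation of the bonds -/
def shiftB (c : ℤ × ℤ) : Bond ≃ Bond where
  toFun e := (e.1 - c, e.2)
  invFun e := (e.1 + c, e.2)
  left_inv e := by simp
  right_inv e := by simp

theorem shiftB_snd (c : ℤ × ℤ) (e : Bond) : (shiftB c e).snd = e.snd - c := by
  obtain ⟨⟨x, y⟩, d⟩ := e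
  obtain ⟨c1, c2⟩ := c
  cases d <;> simp [shiftB, Bond.snd] <;> ring

theorem mem_image_add (D : Finset (ℤ × ℤ)) (c v : ℤ × ℤ) : v ∈ D.image (fun v => v + c) ↔ v - c ∈ D := by
  constructor
  · intro h
    obtain ⟨w, hw, rfl⟩ := Finset.mem_image.1 h
    simpa using hw
  · intro h
    exact Finset.mem_image.2 ⟨v - c, h, by simp⟩

theorem domBonds_shift (D : Finset (ℤ × ℤ)) (cut : Set Bond) (c : ℤ × ℤ) (e : Bond) :
    e ∈ domBonds (D.image fun v => v + c) {e | ((e.1 - c, e.2) : Bond) ∈ cut} ↔ shiftB c e ∈ domBonds D cut := by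
  unfold domBonds
  simp only [Finset.mem_filter, Finset.mem_product, Finset.mem_univ, and_true, mem_image_add, Set.mem_ofPred_eq, shiftB_snd]
  rfl

/-- translation invariance -/
theorem ZD_shift (b : ℝ) (D : Finset (ℤ × ℤ)) (cut : Set Bond) (P : Set (ℤ × ℤ)) (𝓕 : Set (Set (ℤ × ℤ)))
    (x : ℤ × ℤ → ℤ) (τ : Bond → ℤ) (c : ℤ × ℤ) :
    ZD b (D.image fun v => v + c) {e | ((e.1 - c, e.2) : Bond) ∈ cut} {v | v - c ∈ P} ((fun F => {v | v - c ∈ F}) '' 𝓕)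
      (fun v => x (v - c)) (fun e => τ (e.1 - c, e.2)) = ZD b D cut P 𝓕 x τ := by
  rw [ZD_eq_ZG, ZD_eq_ZG]
  unfold ZG
  rw [← ZL_relabel b (domBonds D cut) (latG D cut P 𝓕) (grad x + τ) (shiftB c)]
  have hE : domBonds (D.image fun v => v + c) {e | ((e.1 - c, e.2) : Bond) ∈ cut} = (domBonds D cut).image (shiftB c).symm := by
    ext e
    rw [domBonds_shift, Finset.mem_image]
    constructor
    · intro h; exact ⟨shiftB c e, h, by simp⟩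
    · rintro ⟨e', h, rfl⟩; simpa using h
  have hσ : (grad (fun v => x (v - c)) + fun e : Bond => τ (e.1 - c, e.2)) = (grad x + τ) ∘ shiftB c := by
    funext e
    simp only [grad, Pi.add_apply, Function.comp, shiftB_snd]
    rfl
  have hΛ : latG (D.image fun v => v + c) {e | ((e.1 - c, e.2) : Bond) ∈ cut} {v | v - c ∈ P} ((fun F => {v | v - c ∈ F}) '' 𝓕)
      = (latG D cut P 𝓕).map (preHom (shiftB c)) := by
    have key : ∀ h : ℤ × ℤ → ℤ, gradD (D.image fun v => v + c) {e | ((e.1 - c, e.2) : Bond) ∈ cut} (fun v => h (v - c))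
        = preHom (shiftB c) (gradD D cut h) := by
      intro h
      funext e
      by_cases he : shiftB c e ∈ domBonds D cut
      · have he' := (domBonds_shift D cut c e).2 he
        simp only [gradD, preHom, AddMonoidHom.coe_mk, ZeroHom.coe_mk, Function.comp, he, he', if_true, shiftB_snd]
        rfl
      · have he' : e ∉ domBonds (D.image fun v => v + c) {e | ((e.1 - c, e.2) : Bond) ∈ cut} := fun h' => he ((domBonds_shift D cut c e).1 h')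
        simp only [gradD, preHom, AddMonoidHom.coe_mk, ZeroHom.coe_mk, Function.comp, he, he', if_false]
    ext z
    unfold latG
    simp only [AddSubgroup.mem_map]
    constructor
    · rintro ⟨h, ⟨h1, h2⟩, rfl⟩
      refine ⟨gradD D cut (fun v => h (v + c)), ⟨fun v => h (v + c), ⟨?_, ?_⟩, rfl⟩, ?_⟩
      · intro v hv hvD
        exact h1 (v + c) (by simpa using hv) ((mem_image_add D c _).2 (by simpa using hvD))
      · intro F hF u hu w hw huD hwD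
        exact h2 _ ⟨F, hF, rfl⟩ (u + c) (by simpa using hu) (w + c) (by simpa using hw)
          ((mem_image_add D c _).2 (by simpa using huD)) ((mem_image_add D c _).2 (by simpa using hwD))
      · rw [← key]
        congr 1
        funext v
        simp
    · rintro ⟨_, ⟨h, ⟨h1, h2⟩, rfl⟩, rfl⟩
      refine ⟨fun v => h (v - c), ⟨?_, ?_⟩, key h⟩
      · intro v hv hvD
        exact h1 (v - c) hv ((mem_image_add D c _).1 hvD)
      · rintro _ ⟨F, hF, rfl⟩ u hu w hw huD hwD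
        exact h2 F hF (u - c) hu (w - c) hw ((mem_image_add D c _).1 huD) ((mem_image_add D c _).1 hwD)
  rw [hE, hσ, hΛ]

/-!
# ROW 285, S46 leaf L-S46-TOTAL: total probability over the relative data on a new guard.   PROVED (helper173, no sorry).   From `ZL_coset`.
`Λ = latG D cut P 𝓕`, `Λ' = latG D cut P (insert p 𝓕)`, `R = Dat p {o}`, `r u = gradD D cut u`.
* `r u ∈ Λ`: `u` vanishes off `p`, and `p` is disjoint from `P` and from the members of `𝓕`.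
* existence: for `z = gradD h`, `u := (h - h o)` on `p`, `0` elsewhere; `h - u` is constant on `p`.
* uniqueness: `gradD (u - u') = gradD k`, `k` flat on `p`; `u - u' - k` is locally constant, hence constant on `p` (`OneComp`); so `u - u'` is constant on `p`, zero at `o`.
-/

/-- total probability: summation over the relative data on a new guard `p` lying in one component -/
theorem ZD_total (b : ℝ) (hb : 0 < b) (D : Finset (ℤ × ℤ)) (cut : Set Bond) (P : Set (ℤ × ℤ)) (𝓕 : Set (Set (ℤ × ℤ)))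
    (x : ℤ × ℤ → ℤ) (τ : Bond → ℤ) (p : Set (ℤ × ℤ)) (o : ℤ × ℤ) (ho : o ∈ p) (hpD : p ⊆ ↑D) (hc : OneComp D cut p)
    (hpP : Disjoint p P) (hpF : ∀ F ∈ 𝓕, Disjoint p F) :
    HasSum (fun u : Dat p {o} => ZD b D cut P (insert p 𝓕) (x + u.1) τ) (ZD b D cut P 𝓕 x τ) := by
  have hnP : ∀ v ∈ P, v ∉ p := fun v hv hvp => (Set.disjoint_left.1 hpP) hvp hv
  have hnF : ∀ F ∈ 𝓕, ∀ v ∈ F, v ∉ p := fun F hF v hv hvp => (Set.disjoint_left.1 (hpF F hF)) hvp hv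
  have hle : latG D cut P (insert p 𝓕) ≤ latG D cut P 𝓕 := by
    refine AddSubgroup.map_mono ?_
    rintro h ⟨h1, h2⟩
    exact ⟨h1, fun F hF => h2 F (Set.mem_insert_of_mem _ hF)⟩
  have hu : ∀ u : Dat p {o}, u.1 ∈ admL D P 𝓕 := fun u =>
    ⟨fun v hv _ => u.2 v (Or.inl (hnP v hv)), fun F hF a ha c hc' _ _ => by
      rw [u.2 a (Or.inl (hnF F hF a ha)), u.2 c (Or.inl (hnF F hF c hc'))]⟩
  have key := ZL_coset b hb (domBonds D cut) (latG D cut P 𝓕) (latG D cut P (insert p 𝓕)) (latG_supp D cut P 𝓕) hle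
    (R := Dat p {o}) (fun u => gradD D cut u.1) (fun u => AddSubgroup.mem_map.2 ⟨u.1, hu u, rfl⟩) ?_ (grad x + τ)
  · rw [ZD_eq_ZG]
    have key' : HasSum (fun ρ : Dat p {o} => ZL b (domBonds D cut) (latG D cut P (insert p 𝓕)) (grad x + τ + (gradD D cut) ρ.1))
      (ZG b D cut P 𝓕 (grad x + τ)) := key
    convert key' using 1
    funext u
    rw [ZD_eq_ZG]
    refine ZL_congr b _ _ _ _ fun e he => ?_
    simp only [Pi.add_apply, gradD_apply D cut u.1 he, grad]; ring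
  · intro z hz
    obtain ⟨h, hh, rfl⟩ := AddSubgroup.mem_map.1 hz
    refine ⟨⟨fun v => if v ∈ p then h v - h o else 0, ?_⟩, ?_, ?_⟩
    · rintro v (hv | hv)
      · simp [hv]
      · have : v = o := hv
        subst this
        simp
    · show gradD D cut h - gradD D cut (fun v => if v ∈ p then h v - h o else 0) ∈ latG D cut P (insert p 𝓕)
      rw [← map_sub]
      refine AddSubgroup.mem_map.2 ⟨_, ⟨?_, ?_⟩, rfl⟩
      · intro v hv hvD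
        simp [hnP v hv, hh.1 v hv hvD]
      · intro F hF a ha c hc' haD hcD
        rcases Set.mem_insert_iff.1 hF with rfl | hF
        · simp [ha, hc']
        · simp [hnF F hF a ha, hnF F hF c hc', hh.2 F hF a ha c hc' haD hcD]
    · intro u' hu'
      -- uniqueness
      set u0 : ℤ × ℤ → ℤ := fun v => if v ∈ p then h v - h o else 0 with hu0
      have h0 : gradD D cut h - gradD D cut u0 ∈ latG D cut P (insert p 𝓕) := by
        rw [← map_sub]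
        refine AddSubgroup.mem_map.2 ⟨_, ⟨?_, ?_⟩, rfl⟩
        · intro v hv hvD
          simp [hu0, hnP v hv, hh.1 v hv hvD]
        · intro F hF a ha c hc' haD hcD
          rcases Set.mem_insert_iff.1 hF with rfl | hF
          · simp [hu0, ha, hc']
          · simp [hu0, hnF F hF a ha, hnF F hF c hc', hh.2 F hF a ha c hc' haD hcD]
      obtain ⟨k, hk, hk'⟩ := AddSubgroup.mem_map.1 ((latG D cut P (insert p 𝓕)).sub_mem h0 hu')
      -- `gradD k = gradD (u' - u0)`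
      have e1 : gradD D cut (k - (u'.1 - u0)) = 0 := by
        rw [map_sub, map_sub, hk']; abel
      have e2 := hc _ ((gradD_eq_zero_iff D cut _).1 e1)
      apply Subtype.ext
      funext v
      by_cases hv : v ∈ p
      · have e3 := e2 v hv o ho
        have e4 := hk.2 p (Set.mem_insert _ _) v hv o ho (hpD hv) (hpD ho)
        have e5 : u'.1 o = 0 := u'.2 o (Or.inr rfl)
        have e6 : u0 o = 0 := by simp [hu0]
        simp only [Pi.sub_apply] at e3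
        show u'.1 v = u0 v
        linarith
      · show u'.1 v = u0 v
        rw [u'.2 v (Or.inl hv)]; simp [hu0, hv]

/-!
# ROW 285, S46 leaf L-S46-PROD: product over isolated blocks.   PROVED (helper173, no sorry).   From `ZL_mul`.
`domBonds (D₁ ∪ D₂) cut = domBonds D₁ cut ∪ domBonds D₂ cut` (disjoint), `latG (D₁ ∪ D₂) cut P 𝓕 = latG D₁ cut P 𝓕 ⊔ latG D₂ cut P 𝓕`
(`⊇`: for `h ∈ admL D₁ P 𝓕` the function `h 1_{D₁}` is admissible for `D₁ ∪ D₂`... only if every `F ∈ 𝓕` misses `D₁` or `D₂`: if `F` meets `D₁` it misses `D₂`, fine; if `F` misses `D₁`, `h 1_{D₁} = 0` on `F ∩ D₂`).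
-/

/-- product over two isolated blocks -/
theorem ZD_prod (b : ℝ) (hb : 0 < b) (D₁ D₂ : Finset (ℤ × ℤ)) (cut : Set Bond) (P : Set (ℤ × ℤ)) (𝓕 : Set (Set (ℤ × ℤ)))
    (x : ℤ × ℤ → ℤ) (τ : Bond → ℤ) (hd : Disjoint D₁ D₂)
    (hcut : ∀ e ∈ bdry (↑D₁ : Set (ℤ × ℤ)), e.1 ∈ D₁ ∪ D₂ → e.snd ∈ D₁ ∪ D₂ → e ∈ cut)
    (hF : ∀ F ∈ 𝓕, Disjoint F ↑D₁ ∨ Disjoint F ↑D₂) :
    ZD b (D₁ ∪ D₂) cut P 𝓕 x τ = ZD b D₁ cut P 𝓕 x τ * ZD b D₂ cut P 𝓕 x τ := by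
  have d12 : ∀ v, v ∈ D₁ → v ∉ D₂ := fun v h h' => (Finset.disjoint_left.1 hd) h h'
  have hE : Disjoint (domBonds D₁ cut) (domBonds D₂ cut) := by
    rw [Finset.disjoint_left]
    intro e h1 h2
    exact d12 _ (mem_domBonds.1 h1).1 (mem_domBonds.1 h2).1
  have hU : domBonds (D₁ ∪ D₂) cut = domBonds D₁ cut ∪ domBonds D₂ cut := by
    ext e
    simp only [Finset.mem_union, mem_domBonds]
    constructor
    · rintro ⟨h1, h2, h3⟩
      by_cases a1 : e.1 ∈ D₁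
      · by_cases a2 : e.snd ∈ D₁
        · exact Or.inl ⟨a1, a2, h3⟩
        · exact absurd (hcut e (Or.inl ⟨a1, a2⟩) (Finset.mem_union.2 h1) (Finset.mem_union.2 h2)) h3
      · by_cases a2 : e.snd ∈ D₁
        · exact absurd (hcut e (Or.inr ⟨a1, a2⟩) (Finset.mem_union.2 h1) (Finset.mem_union.2 h2)) h3
        · exact Or.inr ⟨h1.resolve_left a1, h2.resolve_left a2, h3⟩
    · rintro (⟨h1, h2, h3⟩ | ⟨h1, h2, h3⟩)
      · exact ⟨Or.inl h1, Or.inl h2, h3⟩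
      · exact ⟨Or.inr h1, Or.inr h2, h3⟩
  have hsplit : ∀ h : ℤ × ℤ → ℤ, gradD (D₁ ∪ D₂) cut h = gradD D₁ cut h + gradD D₂ cut h := by
    intro h
    funext e
    by_cases e1 : e ∈ domBonds D₁ cut
    · have e2 : e ∉ domBonds D₂ cut := fun h' => (Finset.disjoint_left.1 hE) e1 h'
      have e3 : e ∈ domBonds (D₁ ∪ D₂) cut := by rw [hU]; exact Finset.mem_union_left _ e1
      simp [gradD, e1, e2, e3]
    · by_cases e2 : e ∈ domBonds D₂ cut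
      · have e3 : e ∈ domBonds (D₁ ∪ D₂) cut := by rw [hU]; exact Finset.mem_union_right _ e2
        simp [gradD, e1, e2, e3]
      · have e3 : e ∉ domBonds (D₁ ∪ D₂) cut := by rw [hU, Finset.mem_union]; tauto
        simp [gradD, e1, e2, e3]
  -- a function supported in one block
  have hone : ∀ (A B : Finset (ℤ × ℤ)), Disjoint A B → (∀ h : ℤ × ℤ → ℤ, gradD (D₁ ∪ D₂) cut h = gradD A cut h + gradD B cut h) →
      (∀ v, v ∈ D₁ ∪ D₂ ↔ v ∈ A ∨ v ∈ B) → (∀ F ∈ 𝓕, Disjoint F ↑A ∨ Disjoint F ↑B) → latG A cut P 𝓕 ≤ latG (D₁ ∪ D₂) cut P 𝓕 := by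
    intro A B hAB hs hmem hFF z hz
    obtain ⟨h, hh, rfl⟩ := AddSubgroup.mem_map.1 hz
    refine AddSubgroup.mem_map.2 ⟨fun v => if v ∈ A then h v else 0, ⟨?_, ?_⟩, ?_⟩
    · intro v hv _
      by_cases hA : v ∈ A
      · simp [hA, hh.1 v hv hA]
      · simp [hA]
    · intro F hF' a ha c hc haD hcD
      rcases hFF F hF' with h1 | h1
      · have a1 : a ∉ A := fun h' => (Set.disjoint_left.1 h1) ha h'
        have c1 : c ∉ A := fun h' => (Set.disjoint_left.1 h1) hc h'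
        simp [a1, c1]
      · have a1 : a ∈ A := ((hmem a).1 haD).resolve_right fun h' => (Set.disjoint_left.1 h1) ha h'
        have c1 : c ∈ A := ((hmem c).1 hcD).resolve_right fun h' => (Set.disjoint_left.1 h1) hc h'
        simp [a1, c1, hh.2 F hF' a ha c hc a1 c1]
    · rw [hs]
      have z2 : gradD B cut (fun v => if v ∈ A then h v else 0) = 0 := by
        rw [gradD_eq_zero_iff]
        intro e he
        have b1 : e.1 ∉ A := fun h' => (Finset.disjoint_left.1 hAB) h' (mem_domBonds.1 he).1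
        have b2 : e.snd ∉ A := fun h' => (Finset.disjoint_left.1 hAB) h' (mem_domBonds.1 he).2.1
        simp [b1, b2]
      rw [z2, add_zero]
      funext e
      by_cases he : e ∈ domBonds A cut
      · rw [gradD_apply A cut _ he, gradD_apply A cut _ he]
        simp [(mem_domBonds.1 he).1, (mem_domBonds.1 he).2.1]
      · simp [gradD, he]
  have hΛ : latG (D₁ ∪ D₂) cut P 𝓕 = latG D₁ cut P 𝓕 ⊔ latG D₂ cut P 𝓕 := by
    apply le_antisymm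
    · intro z hz
      obtain ⟨h, hh, rfl⟩ := AddSubgroup.mem_map.1 hz
      rw [hsplit]
      refine AddSubgroup.add_mem_sup (AddSubgroup.mem_map.2 ⟨h, ⟨?_, ?_⟩, rfl⟩) (AddSubgroup.mem_map.2 ⟨h, ⟨?_, ?_⟩, rfl⟩)
      · exact fun v hv hD => hh.1 v hv (Finset.mem_union_left _ hD)
      · exact fun F hF' a ha c hc haD hcD => hh.2 F hF' a ha c hc (Finset.mem_union_left _ haD) (Finset.mem_union_left _ hcD)
      · exact fun v hv hD => hh.1 v hv (Finset.mem_union_right _ hD)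
      · exact fun F hF' a ha c hc haD hcD => hh.2 F hF' a ha c hc (Finset.mem_union_right _ haD) (Finset.mem_union_right _ hcD)
    · refine sup_le (hone D₁ D₂ hd hsplit (fun v => Finset.mem_union) hF) ?_
      exact hone D₂ D₁ hd.symm (fun h => by rw [hsplit, add_comm]) (fun v => by rw [Finset.mem_union, or_comm]) (fun F hF' => (hF F hF').symm)
  rw [ZD_eq_ZG, ZD_eq_ZG, ZD_eq_ZG]
  unfold ZG
  rw [hU, hΛ]
  exact ZL_mul b hb _ _ hE _ _ (latG_supp D₁ cut P 𝓕) (latG_supp D₂ cut P 𝓕) _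

/-!
# ROW 285, S46 leaf L-S46-LOCAL: the Markov property (content of [S]L5.2).   PROVED (helper173, no sorry).   From `ZL_mul`.
`I = ⋃ In ℓ`, `E_I` = bonds of `(D,cut)` touching `I`, `E_R = domBonds (D \ I) cut`.  `domBonds D cut = E_I ∪ E_R` (disjoint).
`Λ_I := {gradD D cut g : g supported on I}`.  Claim `latG D cut P 𝓕 = Λ_I ⊔ latG (D \ I) cut P 𝓕`:
 for admissible `h` let `k ℓ` be its value on `p ℓ ∩ D` (`0` if empty), `g := (h - k ℓ)` on `In ℓ`, `0` elsewhere; then `gradD D cut h = gradD D cut g + gradD (D \ I) cut h`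
 (a bond touching `In ℓ` is inside `In ℓ` or joins it to `p ℓ`, where `h = k ℓ`); conversely `g + h` with `h := h + k ℓ` on `In ℓ`.
So `ZD b D cut .. = ZL b E_I Λ_I σ * ZD b (D \ I) cut ..` and `E_I`, `Λ_I` are the same for `cut'`.
-/

/-- integer functions supported on `I` -/
def suppL (I : Finset (ℤ × ℤ)) : AddSubgroup (ℤ × ℤ → ℤ) where
  carrier := {g | ∀ v, v ∉ I → g v = 0}
  zero_mem' := fun _ _ => rfl
  add_mem' := by
    intro g g' h h' v hv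
    simp [h v hv, h' v hv]
  neg_mem' := by
    intro g h v hv
    simp [h v hv]

/-- the bonds of `(D, cut)` touching `I` -/
noncomputable def touchE (D : Finset (ℤ × ℤ)) (cut : Set Bond) (I : Finset (ℤ × ℤ)) : Finset Bond :=
  (domBonds D cut).filter fun e => e.1 ∈ I ∨ e.snd ∈ I

/-- fill the insides with the value on the guard -/
noncomputable def fillF {ι : Type} (D : Finset (ℤ × ℤ)) (In : ι → Finset (ℤ × ℤ)) (p : ι → Set (ℤ × ℤ)) (h : ℤ × ℤ → ℤ) : ℤ × ℤ → ℤ :=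
  fun v => if hv : ∃ ℓ, v ∈ In ℓ then (if hne : (p hv.choose ∩ ↑D).Nonempty then h hne.some else 0) else h v

section

variable {ι : Type} [Fintype ι] {D : Finset (ℤ × ℤ)} {cut : Set Bond} {P : Set (ℤ × ℤ)} {In : ι → Finset (ℤ × ℤ)} {p : ι → Set (ℤ × ℤ)}
  {𝓕 : Set (Set (ℤ × ℤ))}

theorem mem_bI {v : ℤ × ℤ} : v ∈ Finset.univ.biUnion In ↔ ∃ ℓ, v ∈ In ℓ := by simp

theorem fillF_off (h : ℤ × ℤ → ℤ) {v : ℤ × ℤ} (hv : v ∉ Finset.univ.biUnion In) : fillF D In p h v = h v := by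
  have : ¬ ∃ ℓ, v ∈ In ℓ := fun h' => hv (mem_bI.2 h')
  simp [fillF, this]

omit [Fintype ι] in
theorem In_unique (hdis : ∀ ℓ ℓ', ℓ ≠ ℓ' → Disjoint (In ℓ) (In ℓ')) {v : ℤ × ℤ} {ℓ ℓ' : ι} (h : v ∈ In ℓ) (h' : v ∈ In ℓ') : ℓ = ℓ' := by
  by_contra hne
  exact (Finset.disjoint_left.1 (hdis ℓ ℓ' hne)) h h'

theorem fillF_in (hdis : ∀ ℓ ℓ', ℓ ≠ ℓ' → Disjoint (In ℓ) (In ℓ')) (h : ℤ × ℤ → ℤ) {v : ℤ × ℤ} {ℓ : ι} (hv : v ∈ In ℓ) :
    fillF D In p h v = if hne : (p ℓ ∩ ↑D).Nonempty then h hne.some else 0 := by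
  have hex : ∃ ℓ, v ∈ In ℓ := ⟨ℓ, hv⟩
  have e : hex.choose = ℓ := In_unique hdis hex.choose_spec hv
  simp only [fillF, hex, dif_pos]
  rw [e]

/-- the gradient of the filled function vanishes on the bonds touching the insides -/
theorem fillF_grad (hp : ∀ ℓ, p ℓ ∈ 𝓕) (hdis : ∀ ℓ ℓ', ℓ ≠ ℓ' → Disjoint (In ℓ) (In ℓ')) (hInF : ∀ ℓ, ∀ F ∈ 𝓕, Disjoint F ↑(In ℓ))
    (hsep : ∀ ℓ, ∀ e ∈ bdry (↑(In ℓ) : Set (ℤ × ℤ)), e.1 ∈ D → e.snd ∈ D → e ∈ cut ∨ e.1 ∈ p ℓ ∨ e.snd ∈ p ℓ)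
    {h : ℤ × ℤ → ℤ} (hh : h ∈ admL (D \ Finset.univ.biUnion In) P 𝓕) :
    gradD D cut (fillF D In p h) = gradD (D \ Finset.univ.biUnion In) cut h := by
  have hpI : ∀ ℓ v, v ∈ p ℓ → v ∉ Finset.univ.biUnion In := by
    intro ℓ v hv hI
    obtain ⟨ℓ', hℓ'⟩ := mem_bI.1 hI
    exact (Set.disjoint_left.1 (hInF ℓ' (p ℓ) (hp ℓ))) hv hℓ'
  -- value of the filled function at `v ∈ In ℓ` against a guard point
  have hval : ∀ ℓ v w, v ∈ In ℓ → w ∈ p ℓ → w ∈ D → fillF D In p h v = h w := by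
    intro ℓ v w hv hw hwD
    rw [fillF_in hdis h hv]
    have hne : (p ℓ ∩ ↑D).Nonempty := ⟨w, hw, hwD⟩
    rw [dif_pos hne]
    have s1 := hne.some_mem
    exact hh.2 (p ℓ) (hp ℓ) _ s1.1 w hw (Finset.mem_sdiff.2 ⟨s1.2, hpI ℓ _ s1.1⟩) (Finset.mem_sdiff.2 ⟨hwD, hpI ℓ w hw⟩)
  funext e
  by_cases he : e ∈ domBonds D cut
  · obtain ⟨h1, h2, h3⟩ := mem_domBonds.1 he
    rw [gradD_apply D cut _ he]
    by_cases a1 : e.1 ∈ Finset.univ.biUnion In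
    · have he' : e ∉ domBonds (D \ Finset.univ.biUnion In) cut := fun h' => (Finset.mem_sdiff.1 (mem_domBonds.1 h').1).2 a1
      obtain ⟨ℓ, hℓ⟩ := mem_bI.1 a1
      have : fillF D In p h e.snd = fillF D In p h e.1 := by
        by_cases a2 : e.snd ∈ In ℓ
        · rw [fillF_in hdis h a2, fillF_in hdis h hℓ]
        · rcases hsep ℓ e (Or.inl ⟨hℓ, a2⟩) h1 h2 with c | c | c
          · exact absurd c h3
          · exact absurd a1 (hpI ℓ _ c)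
          · rw [hval ℓ e.1 e.snd hℓ c h2, fillF_off h (hpI ℓ _ c)]
      simp [gradD, he', this]
    · by_cases a2 : e.snd ∈ Finset.univ.biUnion In
      · have he' : e ∉ domBonds (D \ Finset.univ.biUnion In) cut := fun h' => (Finset.mem_sdiff.1 (mem_domBonds.1 h').2.1).2 a2
        obtain ⟨ℓ, hℓ⟩ := mem_bI.1 a2
        have a1' : e.1 ∉ In ℓ := fun h' => a1 (mem_bI.2 ⟨ℓ, h'⟩)
        have : fillF D In p h e.snd = fillF D In p h e.1 := by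
          rcases hsep ℓ e (Or.inr ⟨a1', hℓ⟩) h1 h2 with c | c | c
          · exact absurd c h3
          · rw [hval ℓ e.snd e.1 hℓ c h1, fillF_off h (hpI ℓ _ c)]
          · exact absurd a2 (hpI ℓ _ c)
        simp [gradD, he', this]
      · have he' : e ∈ domBonds (D \ Finset.univ.biUnion In) cut :=
          mem_domBonds.2 ⟨Finset.mem_sdiff.2 ⟨h1, a1⟩, Finset.mem_sdiff.2 ⟨h2, a2⟩, h3⟩
        rw [gradD_apply _ cut _ he', fillF_off h a1, fillF_off h a2]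
  · have he' : e ∉ domBonds (D \ Finset.univ.biUnion In) cut := fun h' =>
      he (mem_domBonds.2 ⟨(Finset.mem_sdiff.1 (mem_domBonds.1 h').1).1, (Finset.mem_sdiff.1 (mem_domBonds.1 h').2.1).1, (mem_domBonds.1 h').2.2⟩)
    simp [gradD, he, he']

theorem fillF_adm (hInP : ∀ ℓ, Disjoint P ↑(In ℓ)) (hInF : ∀ ℓ, ∀ F ∈ 𝓕, Disjoint F ↑(In ℓ))
    {h : ℤ × ℤ → ℤ} (hh : h ∈ admL (D \ Finset.univ.biUnion In) P 𝓕) : fillF D In p h ∈ admL D P 𝓕 := by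
  have hPI : ∀ v, v ∈ P → v ∉ Finset.univ.biUnion In := by
    intro v hv hI
    obtain ⟨ℓ', hℓ'⟩ := mem_bI.1 hI
    exact (Set.disjoint_left.1 (hInP ℓ')) hv hℓ'
  have hFI : ∀ F ∈ 𝓕, ∀ v, v ∈ F → v ∉ Finset.univ.biUnion In := by
    intro F hF v hv hI
    obtain ⟨ℓ', hℓ'⟩ := mem_bI.1 hI
    exact (Set.disjoint_left.1 (hInF ℓ' F hF)) hv hℓ'
  refine ⟨fun v hv hD => ?_, fun F hF a ha c hc haD hcD => ?_⟩
  · rw [fillF_off h (hPI v hv)]
    exact hh.1 v hv (Finset.mem_sdiff.2 ⟨hD, hPI v hv⟩)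
  · rw [fillF_off h (hFI F hF a ha), fillF_off h (hFI F hF c hc)]
    exact hh.2 F hF a ha c hc (Finset.mem_sdiff.2 ⟨haD, hFI F hF a ha⟩) (Finset.mem_sdiff.2 ⟨hcD, hFI F hF c hc⟩)

/-- factorisation: insides of the guards × the rest -/
theorem local_factor (b : ℝ) (hb : 0 < b) (σ : Bond → ℤ)
    (hp : ∀ ℓ, p ℓ ∈ 𝓕) (hdis : ∀ ℓ ℓ', ℓ ≠ ℓ' → Disjoint (In ℓ) (In ℓ')) (hInP : ∀ ℓ, Disjoint P ↑(In ℓ)) (hInF : ∀ ℓ, ∀ F ∈ 𝓕, Disjoint F ↑(In ℓ))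
    (hsep : ∀ ℓ, ∀ e ∈ bdry (↑(In ℓ) : Set (ℤ × ℤ)), e.1 ∈ D → e.snd ∈ D → e ∈ cut ∨ e.1 ∈ p ℓ ∨ e.snd ∈ p ℓ) :
    ZG b D cut P 𝓕 σ = ZL b (touchE D cut (Finset.univ.biUnion In)) ((suppL (Finset.univ.biUnion In)).map (gradD D cut)) σ
      * ZG b (D \ Finset.univ.biUnion In) cut P 𝓕 σ := by
  set I := Finset.univ.biUnion In with hI
  have hE : Disjoint (touchE D cut I) (domBonds (D \ I) cut) := by
    rw [Finset.disjoint_left]
    intro e h1 h2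
    rcases (Finset.mem_filter.1 h1).2 with c | c
    · exact (Finset.mem_sdiff.1 (mem_domBonds.1 h2).1).2 c
    · exact (Finset.mem_sdiff.1 (mem_domBonds.1 h2).2.1).2 c
  have hU : domBonds D cut = touchE D cut I ∪ domBonds (D \ I) cut := by
    ext e
    simp only [Finset.mem_union, touchE, Finset.mem_filter, mem_domBonds, Finset.mem_sdiff]
    tauto
  have hs1 : ∀ z ∈ (suppL I).map (gradD D cut), ∀ e, e ∉ touchE D cut I → z e = 0 := by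
    intro z hz e he
    obtain ⟨g, hg, rfl⟩ := AddSubgroup.mem_map.1 hz
    by_cases h1 : e ∈ domBonds D cut
    · have h2 : ¬ (e.1 ∈ I ∨ e.snd ∈ I) := fun h' => he (Finset.mem_filter.2 ⟨h1, h'⟩)
      rw [gradD_apply D cut g h1, hg e.1 (fun h' => h2 (Or.inl h')), hg e.snd (fun h' => h2 (Or.inr h'))]; simp
    · simp [gradD, h1]
  have hres : ∀ h, h ∈ admL D P 𝓕 → h ∈ admL (D \ I) P 𝓕 := fun h hh =>
    ⟨fun v hv hD => hh.1 v hv (Finset.mem_sdiff.1 hD).1,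
      fun F hF a ha c hc haD hcD => hh.2 F hF a ha c hc (Finset.mem_sdiff.1 haD).1 (Finset.mem_sdiff.1 hcD).1⟩
  have hΛ : latG D cut P 𝓕 = (suppL I).map (gradD D cut) ⊔ latG (D \ I) cut P 𝓕 := by
    apply le_antisymm
    · intro z hz
      obtain ⟨h, hh, rfl⟩ := AddSubgroup.mem_map.1 hz
      have e1 : gradD D cut h = gradD D cut (h - fillF D In p h) + gradD (D \ I) cut h := by
        rw [← fillF_grad hp hdis hInF hsep (hres h hh), ← map_add]; congr 1; abel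
      rw [e1]
      refine AddSubgroup.add_mem_sup (AddSubgroup.mem_map.2 ⟨_, ?_, rfl⟩) (AddSubgroup.mem_map.2 ⟨h, hres h hh, rfl⟩)
      intro v hv
      simp [fillF_off h hv]
    · refine sup_le ?_ ?_
      · intro z hz
        obtain ⟨g, hg, rfl⟩ := AddSubgroup.mem_map.1 hz
        refine AddSubgroup.mem_map.2 ⟨g, ⟨fun v hv _ => hg v ?_, fun F hF a ha c hc _ _ => ?_⟩, rfl⟩
        · intro h'
          obtain ⟨ℓ', hℓ'⟩ := mem_bI.1 h'
          exact (Set.disjoint_left.1 (hInP ℓ')) hv hℓ'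
        · have n1 : ∀ v, v ∈ F → v ∉ I := by
            intro v hv h'
            obtain ⟨ℓ', hℓ'⟩ := mem_bI.1 h'
            exact (Set.disjoint_left.1 (hInF ℓ' F hF)) hv hℓ'
          rw [hg a (n1 a ha), hg c (n1 c hc)]
      · intro z hz
        obtain ⟨h, hh, rfl⟩ := AddSubgroup.mem_map.1 hz
        exact AddSubgroup.mem_map.2 ⟨fillF D In p h, fillF_adm hInP hInF hh, fillF_grad hp hdis hInF hsep hh⟩
  unfold ZG
  rw [hΛ]
  conv_lhs => rw [hU]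
  exact ZL_mul b hb _ _ hE _ _ hs1 (latG_supp (D \ I) cut P 𝓕) _

end

/-- **Markov property = the content of [S]L5.2**: the restored/cut ratio with prescribed guard data does not see the insides of the guards.
`In ℓ` communicates with the rest of `D` only through the guard `p ℓ`; the two cuts agree on the bonds touching `⋃ In ℓ`. -/
theorem kernel_local (b : ℝ) (hb : 0 < b) (D : Finset (ℤ × ℤ)) (cut cut' : Set Bond) (P : Set (ℤ × ℤ))
    {ι : Type} [Fintype ι] (In : ι → Finset (ℤ × ℤ)) (p : ι → Set (ℤ × ℤ)) (𝓕 : Set (Set (ℤ × ℤ)))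
    (x : ℤ × ℤ → ℤ) (τ : Bond → ℤ)
    (hp : ∀ ℓ, p ℓ ∈ 𝓕)
    (hdis : ∀ ℓ ℓ', ℓ ≠ ℓ' → Disjoint (In ℓ) (In ℓ')) (hInP : ∀ ℓ, Disjoint P ↑(In ℓ)) (hInF : ∀ ℓ, ∀ F ∈ 𝓕, Disjoint F ↑(In ℓ))
    (hsep : ∀ ℓ, ∀ e ∈ bdry (↑(In ℓ) : Set (ℤ × ℤ)), e.1 ∈ D → e.snd ∈ D → e ∈ cut ∨ e.1 ∈ p ℓ ∨ e.snd ∈ p ℓ)
    (hcut : ∀ ℓ, ∀ e ∈ touch (↑(In ℓ) : Set (ℤ × ℤ)), (e ∈ cut ↔ e ∈ cut')) :
    ZD b D cut P 𝓕 x τ * ZD b (D \ Finset.univ.biUnion In) cut' P 𝓕 x τ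
      = ZD b D cut' P 𝓕 x τ * ZD b (D \ Finset.univ.biUnion In) cut P 𝓕 x τ := by
  have hsep' : ∀ ℓ, ∀ e ∈ bdry (↑(In ℓ) : Set (ℤ × ℤ)), e.1 ∈ D → e.snd ∈ D → e ∈ cut' ∨ e.1 ∈ p ℓ ∨ e.snd ∈ p ℓ := by
    intro ℓ e he h1 h2
    have ht : e ∈ touch (↑(In ℓ) : Set (ℤ × ℤ)) := by
      rcases he with ⟨a, _⟩ | ⟨_, a⟩
      · exact Or.inl a
      · exact Or.inr a
    rcases hsep ℓ e he h1 h2 with c | c
    · exact Or.inl ((hcut ℓ e ht).1 c)
    · exact Or.inr c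
  have hcI : ∀ e : Bond, (e.1 ∈ Finset.univ.biUnion In ∨ e.snd ∈ Finset.univ.biUnion In) → (e ∈ cut ↔ e ∈ cut') := by
    rintro e (h | h)
    · obtain ⟨ℓ, hℓ⟩ := mem_bI.1 h
      exact hcut ℓ e (Or.inl hℓ)
    · obtain ⟨ℓ, hℓ⟩ := mem_bI.1 h
      exact hcut ℓ e (Or.inr hℓ)
  have hT : touchE D cut (Finset.univ.biUnion In) = touchE D cut' (Finset.univ.biUnion In) := by
    ext e
    simp only [touchE, Finset.mem_filter, mem_domBonds]
    constructor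
    · rintro ⟨⟨h1, h2, h3⟩, h4⟩
      exact ⟨⟨h1, h2, fun h' => h3 ((hcI e h4).2 h')⟩, h4⟩
    · rintro ⟨⟨h1, h2, h3⟩, h4⟩
      exact ⟨⟨h1, h2, fun h' => h3 ((hcI e h4).1 h')⟩, h4⟩
  have hL : (suppL (Finset.univ.biUnion In)).map (gradD D cut) = (suppL (Finset.univ.biUnion In)).map (gradD D cut') := by
    have key : ∀ g ∈ suppL (Finset.univ.biUnion In), gradD D cut g = gradD D cut' g := by
      intro g hg
      funext e
      by_cases ht : e.1 ∈ Finset.univ.biUnion In ∨ e.snd ∈ Finset.univ.biUnion In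
      · have : e ∈ domBonds D cut ↔ e ∈ domBonds D cut' := by
          simp only [mem_domBonds, hcI e ht]
        by_cases he : e ∈ domBonds D cut
        · rw [gradD_apply D cut g he, gradD_apply D cut' g (this.1 he)]
        · have he' : e ∉ domBonds D cut' := fun h' => he (this.2 h')
          simp [gradD, he, he']
      · have z1 : g e.1 = 0 := hg e.1 fun h' => ht (Or.inl h')
        have z2 : g e.snd = 0 := hg e.snd fun h' => ht (Or.inr h')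
        simp [gradD, z1, z2]
    ext z
    simp only [AddSubgroup.mem_map]
    constructor
    · rintro ⟨g, hg, rfl⟩; exact ⟨g, hg, (key g hg).symm⟩
    · rintro ⟨g, hg, rfl⟩; exact ⟨g, hg, key g hg⟩
  rw [ZD_eq_ZG, ZD_eq_ZG, ZD_eq_ZG, ZD_eq_ZG, local_factor b hb _ hp hdis hInP hInF hsep, local_factor (cut := cut') b hb _ hp hdis hInP hInF hsep', hT, hL]
  ring

/-!
# ROW 285, S46 leaf L-S46-UPPER: [S](8) and the positive association of flat pins.   PROVED (helper173, no sorry).   From `lsys_ratio_mono`, `lsys_event_mono` (Base/Height), `HLaw.ok_of_isEmpty`.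
* `kernel_upper`: `LSys.Ref ((dlaw D (cut ∪ seam) P 𝓕).sys b) ((dlaw D cut P 𝓕).sys b)`: `iE` = inclusion `domBonds D (cut ∪ seam) ⊆ domBonds D cut`, `iO = id`; `res (amb) = amb`; `Y = 0` (`wT α 0 = w α`).
* `flat_assoc`: `S = (dlaw D cut P 𝓑).sys b`, `S' = (dlaw D cut P (𝓑 ∪ 𝓖)).sys b` (identity coordinates), `M = ((dlaw D cut P (𝓑 ∪ 𝓕)).sys b).L`.
   `S.L ⊓ M = M`;  `S'.L ⊓ M = ((dlaw D cut P (𝓑 ∪ 𝓕 ∪ 𝓖)).sys b).L`: if `∇h = ∇h'`, `h` flat on `𝓕`, `h'` flat on `𝓖`, then `h' - h` is locally constant, hence constant on every `F ∈ 𝓕` (`OneComp`), so `h'` is flat on `𝓕` too.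
   WARNING: false without `OneComp` (two disjoint edges `1-2`, `3-4`, `H = {1,3}`, `p = {2,4}`: in image form `P[H] = P[p] = 1 > P[H,p]`).
-/

/-- the system on the graph `domG D cut` with an arbitrary lattice -/
noncomputable def sysL (b : ℝ) (D : Finset (ℤ × ℤ)) (cut : Set Bond) (L : AddSubgroup (((domG D cut).E → ℤ) × (Empty → ℝ))) : LSys :=
  { E := (domG D cut).E, O := Empty, b := fun _ => b, L := L }

/-- extension by zero as a homomorphism -/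
noncomputable def extHom (D : Finset (ℤ × ℤ)) (cut : Set Bond) : (((domG D cut).E → ℤ) × (Empty → ℝ)) →+ (Bond → ℤ) where
  toFun z := globExt D cut z.1
  map_zero' := by
    funext e
    by_cases he : e ∈ domBonds D cut
    · simp only [globExt, he, dif_pos]; rfl
    · simp [globExt, he]
  map_add' z z' := by
    funext e
    by_cases he : e ∈ domBonds D cut
    · simp only [globExt, he, dif_pos, Pi.add_apply]; rfl
    · simp [globExt, he]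

theorem extHom_injective (D : Finset (ℤ × ℤ)) (cut : Set Bond) : Function.Injective (extHom D cut) := by
  intro z z' h
  apply Prod.ext
  · funext e
    have he : (Subtype.val (p := fun e => e ∈ domBonds D cut) e) ∈ domBonds D cut := Subtype.property (p := fun e => e ∈ domBonds D cut) e
    have := congrFun h (Subtype.val (p := fun e => e ∈ domBonds D cut) e)
    simp only [extHom, AddMonoidHom.coe_mk, ZeroHom.coe_mk, globExt, he, dif_pos] at this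
    exact this
  · funext o
    exact o.elim

/-- general bridge: `LSys.w` on the graph with an arbitrary lattice, in global form -/
theorem sysL_w (b : ℝ) (D : Finset (ℤ × ℤ)) (cut : Set Bond) (L : AddSubgroup (((domG D cut).E → ℤ) × (Empty → ℝ)))
    (α : (sysL b D cut L).Amb) :
    (sysL b D cut L).w α = ZL b (domBonds D cut) (L.map (extHom D cut)) (extHom D cut α) := by
  unfold ZL
  rw [← (L.equivMapOfInjective (extHom D cut) (extHom_injective D cut)).toEquiv.tsum_eq]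
  unfold LSys.w LSys.Zf
  refine tsum_congr fun z => ?_
  rw [one_mul]
  unfold LSys.W
  have e0 : (∑ o : (sysL b D cut L).O, (((z : (sysL b D cut L).Amb) + α).2 o) ^ 2) = 0 := Finset.sum_eq_zero fun o _ => o.elim
  rw [e0]
  simp only [neg_zero, zero_div, Real.exp_zero, mul_one]
  have e1 : ((L.equivMapOfInjective (extHom D cut) (extHom_injective D cut)).toEquiv z : Bond → ℤ) = extHom D cut z.1 := rfl
  rw [e1, ← Finset.prod_coe_sort (domBonds D cut)]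
  refine Finset.prod_congr (Finset.ext fun a => ⟨fun _ => Finset.mem_univ _, fun _ => Finset.mem_univ _⟩) ?_
  intro e _
  have he : (Subtype.val (p := fun e => e ∈ domBonds D cut) e) ∈ domBonds D cut := Subtype.property (p := fun e => e ∈ domBonds D cut) e
  show bes b _ = _
  congr 1
  simp only [extHom, AddMonoidHom.coe_mk, ZeroHom.coe_mk, globExt, he, dif_pos]
  rfl

theorem sysL_w0 (b : ℝ) (D : Finset (ℤ × ℤ)) (cut : Set Bond) (L : AddSubgroup (((domG D cut).E → ℤ) × (Empty → ℝ))) :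
    (sysL b D cut L).w 0 = ZL b (domBonds D cut) (L.map (extHom D cut)) 0 := by
  have := sysL_w b D cut L 0
  have e : extHom D cut (0 : (sysL b D cut L).Amb) = 0 := (extHom D cut).map_zero
  rw [e] at this
  exact this

theorem dlaw_map_ext (b : ℝ) (D : Finset (ℤ × ℤ)) (cut : Set Bond) (P : Set (ℤ × ℤ)) (𝓕 : Set (Set (ℤ × ℤ))) :
    AddSubgroup.map (extHom D cut) ((dlaw D cut P 𝓕).sys b).L = latG D cut P 𝓕 := by
  apply SetLike.coe_injective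
  rw [← globExt_range b D cut P 𝓕]
  ext y
  simp only [Set.mem_range, SetLike.mem_coe]
  constructor
  · rintro ⟨z, hz, rfl⟩; exact ⟨⟨z, hz⟩, rfl⟩
  · rintro ⟨⟨z, hz⟩, rfl⟩; exact ⟨z, hz, rfl⟩

theorem dlaw_ok (b : ℝ) (hb : 0 < b) (D : Finset (ℤ × ℤ)) (cut : Set Bond) (P : Set (ℤ × ℤ)) (𝓕 : Set (Set (ℤ × ℤ))) :
    ((dlaw D cut P 𝓕).sys b).Ok := by
  have : IsEmpty (dlaw D cut P 𝓕).O := inferInstanceAs (IsEmpty Empty)
  exact HLaw.ok_of_isEmpty _ b hb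

theorem ZD_zero (b : ℝ) (D : Finset (ℤ × ℤ)) (cut : Set Bond) (P : Set (ℤ × ℤ)) (𝓕 : Set (Set (ℤ × ℤ))) :
    ZD b D cut P 𝓕 0 0 = ((dlaw D cut P 𝓕).sys b).w 0 := by
  unfold ZD
  congr 1
  apply Prod.ext
  · funext e
    show (0 : ℤ) - 0 + 0 = 0
    simp
  · funext o
    exact o.elim

/-- a shifted sum is at most the centred one -/
theorem ZD_le_centred (b : ℝ) (hb : 0 < b) (D : Finset (ℤ × ℤ)) (cut : Set Bond) (P : Set (ℤ × ℤ)) (𝓕 : Set (Set (ℤ × ℤ)))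
    (x : ℤ × ℤ → ℤ) (τ : Bond → ℤ) : ZD b D cut P 𝓕 x τ ≤ ZD b D cut P 𝓕 0 0 := by
  rw [ZD_zero]
  exact lsys_le_centred _ (dlaw_ok b hb D cut P 𝓕) _

theorem admL_anti (D : Finset (ℤ × ℤ)) (P : Set (ℤ × ℤ)) {𝓕 𝓖 : Set (Set (ℤ × ℤ))} (h : 𝓕 ⊆ 𝓖) : admL D P 𝓖 ≤ admL D P 𝓕 :=
  fun _ hh => ⟨hh.1, fun F hF => hh.2 F (h hF)⟩

theorem latG_anti (D : Finset (ℤ × ℤ)) (cut : Set Bond) (P : Set (ℤ × ℤ)) {𝓕 𝓖 : Set (Set (ℤ × ℤ))} (h : 𝓕 ⊆ 𝓖) :
    latG D cut P 𝓖 ≤ latG D cut P 𝓕 := AddSubgroup.map_mono (admL_anti D P h)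

/-- the lattice identity behind the positive association -/
theorem latG_inf (D : Finset (ℤ × ℤ)) (cut : Set Bond) (P : Set (ℤ × ℤ)) (𝓑 𝓕 𝓖 : Set (Set (ℤ × ℤ)))
    (h𝓕 : ∀ F ∈ 𝓕, OneComp D cut (F ∩ ↑D)) :
    latG D cut P (𝓑 ∪ 𝓖) ⊓ latG D cut P (𝓑 ∪ 𝓕) = latG D cut P (𝓑 ∪ 𝓕 ∪ 𝓖) := by
  apply le_antisymm
  · rintro z ⟨hz1, hz2⟩
    obtain ⟨h, hh, rfl⟩ := AddSubgroup.mem_map.1 hz1
    obtain ⟨h', hh', e⟩ := AddSubgroup.mem_map.1 hz2
    have e1 : gradD D cut (h - h') = 0 := by rw [map_sub, e]; simp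
    have lc := (gradD_eq_zero_iff D cut _).1 e1
    refine AddSubgroup.mem_map.2 ⟨h, ⟨hh.1, ?_⟩, rfl⟩
    rintro F ((hF | hF) | hF) a ha c hc haD hcD
    · exact hh.2 F (Or.inl hF) a ha c hc haD hcD
    · have e2 := h𝓕 F hF _ lc a ⟨ha, haD⟩ c ⟨hc, hcD⟩
      have e3 := hh'.2 F (Or.inr hF) a ha c hc haD hcD
      simp only [Pi.sub_apply] at e2
      linarith
    · exact hh.2 F (Or.inr hF) a ha c hc haD hcD
  · refine le_inf (latG_anti D cut P ?_) (latG_anti D cut P ?_)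
    · rintro F (hF | hF)
      · exact Or.inl (Or.inl hF)
      · exact Or.inr hF
    · exact Set.subset_union_left

theorem ZD_zero_ZL (b : ℝ) (D : Finset (ℤ × ℤ)) (cut : Set Bond) (P : Set (ℤ × ℤ)) (𝓕 : Set (Set (ℤ × ℤ))) :
    ZD b D cut P 𝓕 0 0 = ZL b (domBonds D cut) (latG D cut P 𝓕) 0 := by
  rw [ZD_eq_ZG]
  refine ZL_congr b _ _ _ _ fun e _ => ?_
  simp [grad]

/-- positive association of centred flat pins (every member of `𝓕` in one component) -/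
theorem flat_assoc (b : ℝ) (hb : 0 < b) (D : Finset (ℤ × ℤ)) (cut : Set Bond) (P : Set (ℤ × ℤ)) (𝓑 𝓕 𝓖 : Set (Set (ℤ × ℤ)))
    (h𝓕 : ∀ F ∈ 𝓕, OneComp D cut (F ∩ ↑D)) :
    ZD b D cut P (𝓑 ∪ 𝓕) 0 0 * ZD b D cut P (𝓑 ∪ 𝓖) 0 0 ≤ ZD b D cut P (𝓑 ∪ 𝓕 ∪ 𝓖) 0 0 * ZD b D cut P 𝓑 0 0 := by
  set S := (dlaw D cut P 𝓑).sys b with hS
  have hOk : S.Ok := dlaw_ok b hb D cut P 𝓑
  let M₁ : AddSubgroup S.Amb := ((dlaw D cut P (𝓑 ∪ 𝓕)).sys b).L
  let M₂ : AddSubgroup S.Amb := ((dlaw D cut P (𝓑 ∪ 𝓖)).sys b).L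
  have ev := lsys_event_mono (Rsd.subRef S M₂) hOk (lsys_ok_sub S hOk M₂) M₁
  have hinj := extHom_injective D cut
  let L₀ : AddSubgroup (((domG D cut).E → ℤ) × (Empty → ℝ)) := ((dlaw D cut P 𝓑).sys b).L
  let L₁ : AddSubgroup (((domG D cut).E → ℤ) × (Empty → ℝ)) := ((dlaw D cut P (𝓑 ∪ 𝓕)).sys b).L
  let L₂ : AddSubgroup (((domG D cut).E → ℤ) × (Empty → ℝ)) := ((dlaw D cut P (𝓑 ∪ 𝓖)).sys b).L
  have m0 : L₀.map (extHom D cut) = latG D cut P 𝓑 := dlaw_map_ext b D cut P 𝓑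
  have m1 : L₁.map (extHom D cut) = latG D cut P (𝓑 ∪ 𝓕) := dlaw_map_ext b D cut P (𝓑 ∪ 𝓕)
  have m2 : L₂.map (extHom D cut) = latG D cut P (𝓑 ∪ 𝓖) := dlaw_map_ext b D cut P (𝓑 ∪ 𝓖)
  have w0 : S.w 0 = ZL b (domBonds D cut) (latG D cut P 𝓑) 0 := by
    have := sysL_w0 b D cut L₀
    rw [m0] at this
    exact this
  have w1 : (S.sub M₁).w 0 = ZL b (domBonds D cut) (latG D cut P (𝓑 ∪ 𝓕)) 0 := by
    have := sysL_w0 b D cut (L₀ ⊓ L₁)
    rw [AddSubgroup.map_inf _ _ _ hinj, m0, m1, inf_eq_right.2 (latG_anti D cut P Set.subset_union_left)] at this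
    exact this
  have w2 : (S.sub M₂).w 0 = ZL b (domBonds D cut) (latG D cut P (𝓑 ∪ 𝓖)) 0 := by
    have := sysL_w0 b D cut (L₀ ⊓ L₂)
    rw [AddSubgroup.map_inf _ _ _ hinj, m0, m2, inf_eq_right.2 (latG_anti D cut P Set.subset_union_left)] at this
    exact this
  have w3 : ((S.sub M₂).sub (M₁.comap (Rsd.subRef S M₂).res)).w 0 = ZL b (domBonds D cut) (latG D cut P (𝓑 ∪ 𝓕 ∪ 𝓖)) 0 := by
    have := sysL_w0 b D cut ((L₀ ⊓ L₂) ⊓ L₁)
    rw [AddSubgroup.map_inf _ _ _ hinj, AddSubgroup.map_inf _ _ _ hinj, m0, m1, m2,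
      inf_eq_right.2 (latG_anti D cut P Set.subset_union_left), latG_inf D cut P 𝓑 𝓕 𝓖 h𝓕] at this
    exact this
  rw [w0, w1, w2, w3] at ev
  rw [ZD_zero_ZL, ZD_zero_ZL, ZD_zero_ZL, ZD_zero_ZL]
  have p0 := ZL_pos b hb _ _ (latG_supp D cut P 𝓑) 0
  have p2 := ZL_pos b hb _ _ (latG_supp D cut P (𝓑 ∪ 𝓖)) 0
  rw [div_le_div_iff₀ p0 p2] at ev
  linarith

/-- flat pins are positively correlated ([S]P4.1, first assertion) -/
theorem Dbar_nonneg (b : ℝ) (hb : 0 < b) (D : Finset (ℤ × ℤ)) (cut : Set Bond) (H p : Set (ℤ × ℤ)) (hp : OneComp D cut (p ∩ ↑D)) :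
    0 ≤ Dbar b D cut H p := by
  have h := flat_assoc b hb D cut ∅ ∅ {p} {H} (by rintro F rfl; exact hp)
  have e1 : (∅ ∪ {p} : Set (Set (ℤ × ℤ))) = {p} := by simp
  have e2 : (∅ ∪ {H} : Set (Set (ℤ × ℤ))) = {H} := by simp
  have e3 : ({p} ∪ {H} : Set (Set (ℤ × ℤ))) = {H, p} := by
    ext F; simp
  rw [e1, e2, e3] at h
  have p0 := ZD_pos b hb D cut ∅ ∅ 0 0
  have p1 := ZD_pos b hb D cut ∅ {p} 0 0
  have p2 := ZD_pos b hb D cut ∅ {H} 0 0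
  have p3 := ZD_pos b hb D cut ∅ {H, p} 0 0
  unfold Dbar pFlat
  rw [Real.log_div p3.ne' p0.ne', Real.log_div p2.ne' p0.ne', Real.log_div p1.ne' p0.ne']
  have h2 := Real.log_le_log (by positivity) h
  rw [Real.log_mul p1.ne' p2.ne', Real.log_mul p3.ne' p0.ne'] at h2
  linarith

/-- the refinement `cut ∪ seam → cut` -/
noncomputable def cutRef (b : ℝ) (D : Finset (ℤ × ℤ)) (cut seam : Set Bond) (P : Set (ℤ × ℤ)) (𝓕 : Set (Set (ℤ × ℤ))) :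
    LSys.Ref ((dlaw D (cut ∪ seam) P 𝓕).sys b) ((dlaw D cut P 𝓕).sys b) where
  iE := ⟨fun e => ⟨Subtype.val (p := fun e => e ∈ domBonds D (cut ∪ seam)) e, by
      have he := Subtype.property (p := fun e => e ∈ domBonds D (cut ∪ seam)) e
      obtain ⟨h1, h2, h3⟩ := mem_domBonds.1 he
      exact mem_domBonds.2 ⟨h1, h2, fun h' => h3 (Or.inl h')⟩⟩, by
    intro e e' h
    exact Subtype.ext (congrArg (Subtype.val (p := fun e => e ∈ domBonds D cut)) h)⟩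
  iO := Function.Embedding.refl _
  hb := fun _ => rfl
  map_mem := by
    intro z hz
    obtain ⟨h, hh, rfl⟩ := AddSubgroup.mem_map.1 hz
    exact AddSubgroup.mem_map.2 ⟨h, hh, rfl⟩

/-- **(K1) = [S](8)**: `T^τ(x) ≤ d`.  Restoring the bonds `seam` decreases every data-to-centred ratio.  No hypothesis on the geometry. -/
theorem kernel_upper (b : ℝ) (hb : 0 < b) (D : Finset (ℤ × ℤ)) (cut seam : Set Bond) (P : Set (ℤ × ℤ)) (𝓕 : Set (Set (ℤ × ℤ)))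
    (x : ℤ × ℤ → ℤ) (τ : Bond → ℤ) :
    ZD b D cut P 𝓕 x τ / ZD b D cut P 𝓕 0 0 ≤ ZD b D (cut ∪ seam) P 𝓕 x τ / ZD b D (cut ∪ seam) P 𝓕 0 0 := by
  have h := lsys_ratio_mono (cutRef b D cut seam P 𝓕) (dlaw_ok b hb D (cut ∪ seam) P 𝓕) (dlaw_ok b hb D cut P 𝓕)
    (HLaw.Aff.amb (H := dlaw D cut P 𝓕) ⟨domFn x, domFnE τ, fun o => o.elim⟩ b) 0
  rw [AddMonoidHom.zero_comp, Rsd.cs_wT_zero, Rsd.cs_wT_zero] at h
  rw [ZD_zero, ZD_zero]
  exact h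

/-!
# ROW 285, S46 leaf L-S46-LOWER: [S](9) in ratio form.   PROVED (helper173, no sorry).   From `flat_assoc`, `ZL_mul`, `ZD_prod`.
`c = cut`, `c' = cut ∪ seam`, `𝓟 = range p`, `𝓗 = range H`, everything centred.
1. `P_res[𝓟] ≤ P_res[𝓟 | 𝓗]`: `flat_assoc` on `(D, c)` with `𝓑 = ∅`, `𝓕 = 𝓟` (`OneComp (A ℓ) c' (p ℓ)` implies `OneComp D c (p ℓ)`).
2. DECOUPLING: for `𝓖 ∈ {𝓗, 𝓗 ∪ 𝓟}`:  `ZD D c P 𝓖 = (∏_ℓ ZD (A ℓ) c' ∅ 𝓖) * R` with the SAME `R` (= `ZL` over the bonds of `(D,c)` which are not bonds of some `(A ℓ, c')`, lattice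
   `{gradient on these bonds of the h ∈ admL D P ∅ which are CONSTANT on every A ℓ}`): for `h` flat on `H ℓ` with value `k ℓ`: `h = (h - k ℓ) 1_{A ℓ} + (k ℓ on A ℓ, h outside)`; a seam bond sees only the second part because its endpoints in `A ℓ` lie in `H ℓ`.
3. `ZD D c' P 𝓖 = (∏_ℓ ZD (A ℓ) c' ∅ 𝓖) * ZD (D \ ⋃ A ℓ) c' P ∅` for `𝓖 ∈ {∅, 𝓟}` (`ZD_prod`, induction on `ι`), and `ZD (A ℓ) c' ∅ 𝓖 = ZD (A ℓ) c' ∅ {the members inside A ℓ}` (`ZD_congr_set`).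
4. algebra: `P_res[𝓟 | 𝓗] = ∏ pFlat_ℓ {H ℓ, p ℓ} / pFlat_ℓ {H ℓ} = ∏ pFlat_ℓ {p ℓ} e^{Dbar_ℓ} = P_cut[𝓟] e^{∑ Dbar_ℓ}`.
-/

section Dec

variable {ι : Type} [Fintype ι] {D : Finset (ℤ × ℤ)} {cut seam : Set Bond} {P : Set (ℤ × ℤ)} {A : ι → Finset (ℤ × ℤ)} {H : ι → Set (ℤ × ℤ)}

/-- a function vanishing off the blocks and on the ends has the same gradient in the restored graph and in the cut blocks -/
theorem dec_grad (hA : ∀ ℓ, A ℓ ⊆ D)
    (hiso : ∀ ℓ, ∀ e ∈ bdry (↑(A ℓ) : Set (ℤ × ℤ)), e.1 ∈ D → e.snd ∈ D → e ∈ cut ∪ seam)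
    (hend : ∀ ℓ, ∀ e ∈ seam, (e.1 ∈ A ℓ → e.1 ∈ H ℓ) ∧ (e.snd ∈ A ℓ → e.snd ∈ H ℓ))
    {g : ℤ × ℤ → ℤ} (g0 : ∀ v, v ∉ Finset.univ.biUnion A → g v = 0) (gH : ∀ ℓ, ∀ v ∈ H ℓ, g v = 0) :
    gradD D cut g = gradD (Finset.univ.biUnion A) (cut ∪ seam) g := by
  funext e
  by_cases he' : e ∈ domBonds (Finset.univ.biUnion A) (cut ∪ seam)
  · obtain ⟨h1, h2, h3⟩ := mem_domBonds.1 he'
    obtain ⟨ℓ1, hℓ1⟩ := mem_bI.1 h1
    obtain ⟨ℓ2, hℓ2⟩ := mem_bI.1 h2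
    have he : e ∈ domBonds D cut := mem_domBonds.2 ⟨hA ℓ1 hℓ1, hA ℓ2 hℓ2, fun h' => h3 (Or.inl h')⟩
    rw [gradD_apply _ _ _ he, gradD_apply _ _ _ he']
  · by_cases he : e ∈ domBonds D cut
    · obtain ⟨h1, h2, h3⟩ := mem_domBonds.1 he
      -- both endpoint values vanish
      have key : ∀ v, (v = e.1 ∨ v = e.snd) → e ∈ seam → g v = 0 := by
        intro v hv hs
        by_cases hvU : v ∈ Finset.univ.biUnion A
        · obtain ⟨ℓ, hℓ⟩ := mem_bI.1 hvU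
          rcases hv with rfl | rfl
          · exact gH ℓ _ ((hend ℓ e hs).1 hℓ)
          · exact gH ℓ _ ((hend ℓ e hs).2 hℓ)
        · exact g0 v hvU
      have hz : g e.snd = g e.1 := by
        by_cases hs : e ∈ seam
        · rw [key e.1 (Or.inl rfl) hs, key e.snd (Or.inr rfl) hs]
        · -- not a seam bond: then it does not leave any block
          by_cases a1 : e.1 ∈ Finset.univ.biUnion A
          · obtain ⟨ℓ, hℓ⟩ := mem_bI.1 a1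
            by_cases a2 : e.snd ∈ A ℓ
            · exact absurd (mem_domBonds.2 ⟨a1, mem_bI.2 ⟨ℓ, a2⟩, fun h' => h'.elim h3 hs⟩) he'
            · exact absurd (hiso ℓ e (Or.inl ⟨hℓ, a2⟩) h1 h2) (fun h' => h'.elim h3 hs)
          · by_cases a2 : e.snd ∈ Finset.univ.biUnion A
            · obtain ⟨ℓ, hℓ⟩ := mem_bI.1 a2
              have a1' : e.1 ∉ A ℓ := fun h' => a1 (mem_bI.2 ⟨ℓ, h'⟩)
              exact absurd (hiso ℓ e (Or.inr ⟨a1', hℓ⟩) h1 h2) (fun h' => h'.elim h3 hs)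
            · rw [g0 _ a1, g0 _ a2]
      rw [gradD_apply _ _ _ he, hz]
      simp [gradD, he']
    · simp [gradD, he, he']

/-- decoupling: with flat ends the restored sum is the product of the cut blocks and a factor which does not depend on the other flat pins -/
theorem dec_factor (b : ℝ) (hb : 0 < b) (σ : Bond → ℤ) (𝓖 : Set (Set (ℤ × ℤ)))
    (hA : ∀ ℓ, A ℓ ⊆ D) (hdis : ∀ ℓ ℓ', ℓ ≠ ℓ' → Disjoint (A ℓ) (A ℓ')) (hH : ∀ ℓ, H ℓ ⊆ ↑(A ℓ))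
    (hP : ∀ ℓ, Disjoint P ↑(A ℓ))
    (hiso : ∀ ℓ, ∀ e ∈ bdry (↑(A ℓ) : Set (ℤ × ℤ)), e.1 ∈ D → e.snd ∈ D → e ∈ cut ∪ seam)
    (hend : ∀ ℓ, ∀ e ∈ seam, (e.1 ∈ A ℓ → e.1 ∈ H ℓ) ∧ (e.snd ∈ A ℓ → e.snd ∈ H ℓ))
    (hGH : ∀ ℓ, H ℓ ∈ 𝓖) (hGA : ∀ G ∈ 𝓖, ∃ ℓ, G ⊆ ↑(A ℓ)) :
    ZG b D cut P 𝓖 σ = ZG b (Finset.univ.biUnion A) (cut ∪ seam) ∅ 𝓖 σ
      * ZL b (domBonds D cut \ domBonds (Finset.univ.biUnion A) (cut ∪ seam)) (latG D cut P (Set.range fun ℓ => (↑(A ℓ) : Set (ℤ × ℤ)))) σ := by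
  set U := Finset.univ.biUnion A with hU
  set 𝓐 : Set (Set (ℤ × ℤ)) := Set.range fun ℓ => (↑(A ℓ) : Set (ℤ × ℤ)) with h𝓐
  have hUD : U ⊆ D := by
    intro v hv
    obtain ⟨ℓ, hℓ⟩ := mem_bI.1 hv
    exact hA ℓ hℓ
  have hsub : domBonds U (cut ∪ seam) ⊆ domBonds D cut := by
    intro e he
    obtain ⟨h1, h2, h3⟩ := mem_domBonds.1 he
    exact mem_domBonds.2 ⟨hUD h1, hUD h2, fun h' => h3 (Or.inl h')⟩
  have hE : Disjoint (domBonds U (cut ∪ seam)) (domBonds D cut \ domBonds U (cut ∪ seam)) := Finset.disjoint_sdiff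
  have hEU : domBonds D cut = domBonds U (cut ∪ seam) ∪ (domBonds D cut \ domBonds U (cut ∪ seam)) :=
    (Finset.union_sdiff_of_subset hsub).symm
  have hPU : ∀ v, v ∈ P → v ∉ U := by
    intro v hv hI
    obtain ⟨ℓ', hℓ'⟩ := mem_bI.1 hI
    exact (Set.disjoint_left.1 (hP ℓ')) hv hℓ'
  -- a bond of the cut blocks stays in one block
  have hblock : ∀ e ∈ domBonds U (cut ∪ seam), ∃ ℓ, e.1 ∈ A ℓ ∧ e.snd ∈ A ℓ := by
    intro e he
    obtain ⟨h1, h2, h3⟩ := mem_domBonds.1 he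
    obtain ⟨ℓ, hℓ⟩ := mem_bI.1 h1
    refine ⟨ℓ, hℓ, ?_⟩
    by_contra a2
    exact h3 (hiso ℓ e (Or.inl ⟨hℓ, a2⟩) (hUD h1) (hUD h2))
  have hs2 : ∀ z ∈ latG D cut P 𝓐, ∀ e, e ∉ domBonds D cut \ domBonds U (cut ∪ seam) → z e = 0 := by
    intro z hz e he
    obtain ⟨k, hk, rfl⟩ := AddSubgroup.mem_map.1 hz
    by_cases h1 : e ∈ domBonds D cut
    · have h2 : e ∈ domBonds U (cut ∪ seam) := by
        by_contra h'
        exact he (Finset.mem_sdiff.2 ⟨h1, h'⟩)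
      obtain ⟨ℓ, a1, a2⟩ := hblock e h2
      rw [gradD_apply _ _ _ h1, hk.2 _ ⟨ℓ, rfl⟩ e.snd a2 e.1 a1 (hA ℓ a2) (hA ℓ a1)]; simp
    · simp [gradD, h1]
  -- the block constants
  have kval : ∀ (h : ℤ × ℤ → ℤ), (∀ ℓ, ∀ a ∈ H ℓ, ∀ c ∈ H ℓ, h a = h c) → ∀ ℓ, ∀ v ∈ H ℓ, fillF D A H h v = h v := by
    intro h hflat ℓ v hv
    rw [fillF_in hdis h (hH ℓ hv)]
    have hne : (H ℓ ∩ ↑D).Nonempty := ⟨v, hv, hA ℓ (hH ℓ hv)⟩
    rw [dif_pos hne]
    exact hflat ℓ _ hne.some_mem.1 v hv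
  have kconst : ∀ (h : ℤ × ℤ → ℤ) ℓ, ∀ a ∈ A ℓ, ∀ c ∈ A ℓ, fillF D A H h a = fillF D A H h c := by
    intro h ℓ a ha c hc
    rw [fillF_in hdis h ha, fillF_in hdis h hc]
  have hΛ : latG D cut P 𝓖 = latG U (cut ∪ seam) ∅ 𝓖 ⊔ latG D cut P 𝓐 := by
    apply le_antisymm
    · intro z hz
      obtain ⟨h, hh, rfl⟩ := AddSubgroup.mem_map.1 hz
      have hflat : ∀ ℓ, ∀ a ∈ H ℓ, ∀ c ∈ H ℓ, h a = h c := fun ℓ a ha c hc =>
        hh.2 (H ℓ) (hGH ℓ) a ha c hc (hA ℓ (hH ℓ ha)) (hA ℓ (hH ℓ hc))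
      have e1 : gradD D cut h = gradD U (cut ∪ seam) (h - fillF D A H h) + gradD D cut (fillF D A H h) := by
        rw [← dec_grad hA hiso hend (g := h - fillF D A H h) (fun v hv => by simp [fillF_off h hv])
          (fun ℓ v hv => by simp [kval h hflat ℓ v hv]), ← map_add]
        congr 1; abel
      rw [e1]
      refine AddSubgroup.add_mem_sup (AddSubgroup.mem_map.2 ⟨_, ⟨fun v hv => absurd hv (Set.notMem_empty v), ?_⟩, rfl⟩)
        (AddSubgroup.mem_map.2 ⟨_, ⟨?_, ?_⟩, rfl⟩)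
      · intro G hG a ha c hc haU hcU
        obtain ⟨ℓ, hℓ⟩ := hGA G hG
        simp only [Pi.sub_apply]
        rw [kconst h ℓ a (hℓ ha) c (hℓ hc), hh.2 G hG a ha c hc (hUD haU) (hUD hcU)]
      · intro v hv hvD
        rw [fillF_off h (hPU v hv)]
        exact hh.1 v hv hvD
      · rintro _ ⟨ℓ, rfl⟩ a ha c hc _ _
        exact kconst h ℓ a ha c hc
    · refine sup_le ?_ ?_
      · intro z hz
        obtain ⟨g, hg, rfl⟩ := AddSubgroup.mem_map.1 hz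
        -- normalise `g`: zero on the ends, zero off the blocks
        set g' : ℤ × ℤ → ℤ := fun v => if v ∈ U then g v - fillF D A H g v else 0 with hg'
        have hflat : ∀ ℓ, ∀ a ∈ H ℓ, ∀ c ∈ H ℓ, g a = g c := fun ℓ a ha c hc =>
          hg.2 (H ℓ) (hGH ℓ) a ha c hc (mem_bI.2 ⟨ℓ, hH ℓ ha⟩) (mem_bI.2 ⟨ℓ, hH ℓ hc⟩)
        have e1 : gradD U (cut ∪ seam) g = gradD U (cut ∪ seam) g' := by
          funext e
          by_cases he : e ∈ domBonds U (cut ∪ seam)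
          · obtain ⟨ℓ, a1, a2⟩ := hblock e he
            rw [gradD_apply _ _ _ he, gradD_apply _ _ _ he]
            simp only [hg', mem_bI.2 ⟨ℓ, a1⟩, mem_bI.2 ⟨ℓ, a2⟩, if_true, hU]
            rw [kconst g ℓ e.snd a2 e.1 a1]; ring
          · simp [gradD, he]
        have e2 : gradD D cut g' = gradD U (cut ∪ seam) g' :=
          dec_grad hA hiso hend (fun v hv => by simp only [hg']; rw [if_neg hv])
            (fun ℓ v hv => by simp only [hg']; rw [if_pos (mem_bI.2 ⟨ℓ, hH ℓ hv⟩), kval g hflat ℓ v hv]; simp)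
        rw [e1, ← e2]
        refine AddSubgroup.mem_map.2 ⟨g', ⟨?_, ?_⟩, rfl⟩
        · intro v hv _
          simp only [hg']; rw [if_neg (hPU v hv)]
        · intro G hG a ha c hc _ _
          obtain ⟨ℓ, hℓ⟩ := hGA G hG
          have aU : a ∈ U := mem_bI.2 ⟨ℓ, hℓ ha⟩
          have cU : c ∈ U := mem_bI.2 ⟨ℓ, hℓ hc⟩
          simp only [hg']
          rw [if_pos aU, if_pos cU, kconst g ℓ a (hℓ ha) c (hℓ hc), hg.2 G hG a ha c hc aU cU]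
      · refine AddSubgroup.map_mono ?_
        intro k hk
        refine ⟨hk.1, fun G hG a ha c hc haD hcD => ?_⟩
        obtain ⟨ℓ, hℓ⟩ := hGA G hG
        exact hk.2 _ ⟨ℓ, rfl⟩ a (hℓ ha) c (hℓ hc) haD hcD
  unfold ZG
  rw [hΛ]
  conv_lhs => rw [hEU]
  exact ZL_mul b hb _ _ hE _ _ (latG_supp U (cut ∪ seam) ∅ 𝓖) hs2 _

end Dec

theorem ZD_empty (b : ℝ) (cut : Set Bond) (P : Set (ℤ × ℤ)) (𝓕 : Set (Set (ℤ × ℤ))) (x : ℤ × ℤ → ℤ) (τ : Bond → ℤ) :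
    ZD b ∅ cut P 𝓕 x τ = 1 := by
  rw [ZD_eq_ZG]
  unfold ZG ZL
  have hE : domBonds ∅ cut = ∅ := by
    ext e; simp [mem_domBonds]
  have hz : ∀ z : latG ∅ cut P 𝓕, z = 0 := by
    intro z
    apply Subtype.ext
    funext e
    exact latG_supp ∅ cut P 𝓕 z.1 z.2 e (by rw [hE]; simp)
  rw [tsum_eq_single (0 : latG ∅ cut P 𝓕) (fun z hz' => absurd (hz z) hz'), hE]
  simp

/-- product over finitely many isolated blocks -/
theorem ZD_prod_blocks (b : ℝ) (hb : 0 < b) {ι : Type} (A : ι → Finset (ℤ × ℤ)) (c : Set Bond) (P : Set (ℤ × ℤ)) (𝓖 : Set (Set (ℤ × ℤ)))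
    (x : ℤ × ℤ → ℤ) (τ : Bond → ℤ) (hdis : ∀ ℓ ℓ', ℓ ≠ ℓ' → Disjoint (A ℓ) (A ℓ'))
    (hiso : ∀ ℓ ℓ', ∀ e ∈ bdry (↑(A ℓ) : Set (ℤ × ℤ)), (e.1 ∈ A ℓ' ∨ e.snd ∈ A ℓ') → ℓ ≠ ℓ' → e ∈ c)
    (hGA : ∀ G ∈ 𝓖, ∃ ℓ, G ⊆ ↑(A ℓ)) (s : Finset ι) :
    ZD b (s.biUnion A) c P 𝓖 x τ = ∏ ℓ ∈ s, ZD b (A ℓ) c P 𝓖 x τ := by
  induction s using Finset.induction_on with
  | empty => simp [ZD_empty]
  | insert ℓ s hℓ ih =>
    rw [Finset.biUnion_insert, Finset.prod_insert hℓ, ← ih]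
    have hd : Disjoint (A ℓ) (s.biUnion A) := by
      rw [Finset.disjoint_biUnion_right]
      intro ℓ' hℓ'
      exact hdis ℓ ℓ' (fun h => hℓ (h ▸ hℓ'))
    refine ZD_prod b hb _ _ c P 𝓖 x τ hd ?_ ?_
    · intro e he h1 h2
      rcases he with ⟨a1, a2⟩ | ⟨a1, a2⟩
      · have : e.snd ∈ s.biUnion A := (Finset.mem_union.1 h2).resolve_left a2
        obtain ⟨ℓ', hℓ', h3⟩ := Finset.mem_biUnion.1 this
        exact hiso ℓ ℓ' e (Or.inl ⟨a1, a2⟩) (Or.inr h3) (fun h => hℓ (h ▸ hℓ'))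
      · have : e.1 ∈ s.biUnion A := (Finset.mem_union.1 h1).resolve_left a1
        obtain ⟨ℓ', hℓ', h3⟩ := Finset.mem_biUnion.1 this
        exact hiso ℓ ℓ' e (Or.inr ⟨a1, a2⟩) (Or.inl h3) (fun h => hℓ (h ▸ hℓ'))
    · intro G hG
      obtain ⟨ℓ', hℓ'⟩ := hGA G hG
      by_cases h : ℓ' = ℓ
      · subst h
        right
        rw [Set.disjoint_left]
        intro v hv hv'
        exact (Finset.disjoint_left.1 hd) (hℓ' hv) hv'
      · left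
        rw [Set.disjoint_left]
        intro v hv hv'
        exact (Finset.disjoint_left.1 (hdis ℓ' ℓ h)) (hℓ' hv) hv'

theorem OneComp_mono {D D' : Finset (ℤ × ℤ)} {cut cut' : Set Bond} {A A' : Set (ℤ × ℤ)} (h : OneComp D cut A) (hD : domBonds D cut ⊆ domBonds D' cut')
    (hA : A' ⊆ A) : OneComp D' cut' A' :=
  fun f hf x hx y hy => h f (fun e he => hf e (hD he)) x (hA hx) y (hA hy)

/-- **(K3) = [S](9)** in ratio form: `∫ T⁰/d ∏ dm⁰ = P_cut([p]) / P_res([p]) ≥ exp(-∑ \bar D_ℓ)`.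
Incident blocks `A ℓ` (isolated once `seam` is cut), guards `p ℓ ⊆ A ℓ` (each in one component of its block), ends `H ℓ ⊆ A ℓ` containing all seam endpoints in `A ℓ`.
The rest `D \ ⋃ A ℓ` (exterior, core) is arbitrary and may carry the hard pin `P`. -/
theorem kernel_average_lower (b : ℝ) (hb : 0 < b) (D : Finset (ℤ × ℤ)) (cut seam : Set Bond) (P : Set (ℤ × ℤ))
    {ι : Type} [Fintype ι] (A : ι → Finset (ℤ × ℤ)) (H p : ι → Set (ℤ × ℤ))
    (hA : ∀ ℓ, A ℓ ⊆ D) (hdis : ∀ ℓ ℓ', ℓ ≠ ℓ' → Disjoint (A ℓ) (A ℓ')) (hH : ∀ ℓ, H ℓ ⊆ ↑(A ℓ)) (hp : ∀ ℓ, p ℓ ⊆ ↑(A ℓ))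
    (hpc : ∀ ℓ, OneComp (A ℓ) (cut ∪ seam) (p ℓ))
    (hP : ∀ ℓ, Disjoint P ↑(A ℓ))
    (hiso : ∀ ℓ, ∀ e ∈ bdry (↑(A ℓ) : Set (ℤ × ℤ)), e.1 ∈ D → e.snd ∈ D → e ∈ cut ∪ seam)
    (hend : ∀ ℓ, ∀ e ∈ seam, (e.1 ∈ A ℓ → e.1 ∈ H ℓ) ∧ (e.snd ∈ A ℓ → e.snd ∈ H ℓ)) :
    Real.exp (-∑ ℓ, Dbar b (A ℓ) (cut ∪ seam) (H ℓ) (p ℓ)) * pFlat b D cut P (Set.range p) ≤ pFlat b D (cut ∪ seam) P (Set.range p) := by
  set c' := cut ∪ seam with hc'
  set U := Finset.univ.biUnion A with hU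
  set 𝓠 := Set.range p with h𝓠
  set 𝓗 := Set.range H with h𝓗
  have hUD : U ⊆ D := by
    intro v hv
    obtain ⟨ℓ, hℓ⟩ := mem_bI.1 hv
    exact hA ℓ hℓ
  -- step 1
  have s1 := flat_assoc b hb D cut P ∅ 𝓠 𝓗 (by
    rintro _ ⟨ℓ, rfl⟩
    refine OneComp_mono (hpc ℓ) ?_ Set.inter_subset_left
    intro e he
    obtain ⟨h1, h2, h3⟩ := mem_domBonds.1 he
    exact mem_domBonds.2 ⟨hA ℓ h1, hA ℓ h2, fun h' => h3 (Or.inl h')⟩)
  rw [Set.empty_union, Set.empty_union] at s1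
  -- step 2
  have hGA1 : ∀ G ∈ 𝓗, ∃ ℓ, G ⊆ ↑(A ℓ) := by rintro _ ⟨ℓ, rfl⟩; exact ⟨ℓ, hH ℓ⟩
  have hGA0 : ∀ G ∈ 𝓠, ∃ ℓ, G ⊆ ↑(A ℓ) := by rintro _ ⟨ℓ, rfl⟩; exact ⟨ℓ, hp ℓ⟩
  have hGA2 : ∀ G ∈ 𝓠 ∪ 𝓗, ∃ ℓ, G ⊆ ↑(A ℓ) := by
    rintro G (hG | hG)
    · exact hGA0 G hG
    · exact hGA1 G hG
  set R := ZL b (domBonds D cut \ domBonds U c') (latG D cut P (Set.range fun ℓ => (↑(A ℓ) : Set (ℤ × ℤ)))) (grad 0 + 0) with hR
  have d1 : ZD b D cut P 𝓗 0 0 = ZD b U c' ∅ 𝓗 0 0 * R := by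
    rw [ZD_eq_ZG, ZD_eq_ZG]
    exact dec_factor b hb _ 𝓗 hA hdis hH hP hiso hend (fun ℓ => ⟨ℓ, rfl⟩) hGA1
  have d2 : ZD b D cut P (𝓠 ∪ 𝓗) 0 0 = ZD b U c' ∅ (𝓠 ∪ 𝓗) 0 0 * R := by
    rw [ZD_eq_ZG, ZD_eq_ZG]
    exact dec_factor b hb _ (𝓠 ∪ 𝓗) hA hdis hH hP hiso hend (fun ℓ => Or.inr ⟨ℓ, rfl⟩) hGA2
  -- step 3
  have hDU : D = U ∪ (D \ U) := (Finset.union_sdiff_of_subset hUD).symm
  have hcutU : ∀ e ∈ bdry (↑U : Set (ℤ × ℤ)), e.1 ∈ U ∪ (D \ U) → e.snd ∈ U ∪ (D \ U) → e ∈ c' := by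
    intro e he h1 h2
    rw [← hDU] at h1 h2
    rcases he with ⟨a1, a2⟩ | ⟨a1, a2⟩
    · obtain ⟨ℓ, hℓ⟩ := mem_bI.1 a1
      exact hiso ℓ e (Or.inl ⟨hℓ, fun h' => a2 (mem_bI.2 ⟨ℓ, h'⟩)⟩) h1 h2
    · obtain ⟨ℓ, hℓ⟩ := mem_bI.1 a2
      exact hiso ℓ e (Or.inr ⟨fun h' => a1 (mem_bI.2 ⟨ℓ, h'⟩), hℓ⟩) h1 h2
  have c1 : ∀ 𝓖 : Set (Set (ℤ × ℤ)), (∀ G ∈ 𝓖, ∃ ℓ, G ⊆ ↑(A ℓ)) →
      ZD b D c' P 𝓖 0 0 = ZD b U c' ∅ 𝓖 0 0 * ZD b (D \ U) c' P ∅ 0 0 := by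
    intro 𝓖 hG
    have hGU : ∀ G ∈ 𝓖, ∀ v ∈ G, v ∈ U := fun G hG' v hv => by
      obtain ⟨ℓ, hℓ⟩ := hG G hG'
      exact mem_bI.2 ⟨ℓ, hℓ hv⟩
    have := ZD_prod b hb U (D \ U) c' P 𝓖 0 0 Finset.disjoint_sdiff hcutU (fun G hG' => Or.inr (by
      rw [Set.disjoint_left]
      intro v hv hv'
      exact (Finset.mem_sdiff.1 hv').2 (hGU G hG' v hv)))
    rw [← hDU] at this
    rw [this]
    congr 1
    · refine ZD_congr_set b U c' c' P ∅ 𝓖 𝓖 0 0 rfl ?_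
      ext h
      constructor
      · intro hh; exact ⟨fun v hv => absurd hv (Set.notMem_empty v), hh.2⟩
      · intro hh
        refine ⟨fun v hv hvU => ?_, hh.2⟩
        obtain ⟨ℓ, hℓ⟩ := mem_bI.1 hvU
        exact absurd hℓ (fun h' => (Set.disjoint_left.1 (hP ℓ)) hv h')
    · refine ZD_congr_set b (D \ U) c' c' P P 𝓖 ∅ 0 0 rfl ?_
      ext h
      constructor
      · intro hh; exact ⟨hh.1, fun F hF => absurd hF (Set.notMem_empty F)⟩
      · intro hh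
        refine ⟨hh.1, fun G hG' a ha c _ haD _ => ?_⟩
        exact absurd (hGU G hG' a ha) (Finset.mem_sdiff.1 haD).2
  have c2 := c1 ∅ (fun G hG => absurd hG (Set.notMem_empty G))
  have c3 := c1 𝓠 hGA0
  -- step 4: products over the blocks
  have hiso' : ∀ ℓ ℓ', ∀ e ∈ bdry (↑(A ℓ) : Set (ℤ × ℤ)), (e.1 ∈ A ℓ' ∨ e.snd ∈ A ℓ') → ℓ ≠ ℓ' → e ∈ c' := by
    intro ℓ ℓ' e he h1 hne
    rcases he with ⟨a1, a2⟩ | ⟨a1, a2⟩
    · rcases h1 with h1 | h1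
      · exact absurd h1 (fun h' => (Finset.disjoint_left.1 (hdis ℓ ℓ' hne)) a1 h')
      · exact hiso ℓ e (Or.inl ⟨a1, a2⟩) (hA ℓ a1) (hA ℓ' h1)
    · rcases h1 with h1 | h1
      · exact hiso ℓ e (Or.inr ⟨a1, a2⟩) (hA ℓ' h1) (hA ℓ a2)
      · exact absurd h1 (fun h' => (Finset.disjoint_left.1 (hdis ℓ ℓ' hne)) a2 h')
  have pr : ∀ 𝓖 : Set (Set (ℤ × ℤ)), (∀ G ∈ 𝓖, ∃ ℓ, G ⊆ ↑(A ℓ)) → ZD b U c' ∅ 𝓖 0 0 = ∏ ℓ, ZD b (A ℓ) c' ∅ 𝓖 0 0 :=
    fun 𝓖 hG => ZD_prod_blocks b hb A c' ∅ 𝓖 0 0 hdis hiso' hG Finset.univ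
  -- a flat pin in another block is invisible
  have hinv : ∀ (q : ι → Set (ℤ × ℤ)), (∀ ℓ, q ℓ ⊆ ↑(A ℓ)) → ∀ ℓ ℓ' v, v ∈ q ℓ' → v ∈ A ℓ → ℓ' = ℓ := by
    intro q hq ℓ ℓ' v hv hvA
    by_contra hne
    exact (Finset.disjoint_left.1 (hdis ℓ' ℓ hne)) (hq ℓ' hv) hvA
  have b0 : ∀ ℓ, ZD b (A ℓ) c' ∅ 𝓠 0 0 = ZD b (A ℓ) c' ∅ {p ℓ} 0 0 := by
    intro ℓ
    refine ZD_congr_set b (A ℓ) c' c' ∅ ∅ _ _ 0 0 rfl ?_
    ext h
    constructor
    · intro hh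
      exact ⟨hh.1, by rintro _ rfl a ha c hc haD hcD; exact hh.2 _ ⟨ℓ, rfl⟩ a ha c hc haD hcD⟩
    · intro hh
      refine ⟨hh.1, ?_⟩
      rintro _ ⟨ℓ', rfl⟩ a ha c hc haD hcD
      have := hinv p hp ℓ ℓ' a ha haD
      subst this
      exact hh.2 _ rfl a ha c hc haD hcD
  have b1 : ∀ ℓ, ZD b (A ℓ) c' ∅ 𝓗 0 0 = ZD b (A ℓ) c' ∅ {H ℓ} 0 0 := by
    intro ℓ
    refine ZD_congr_set b (A ℓ) c' c' ∅ ∅ _ _ 0 0 rfl ?_
    ext h
    constructor
    · intro hh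
      exact ⟨hh.1, by rintro _ rfl a ha c hc haD hcD; exact hh.2 _ ⟨ℓ, rfl⟩ a ha c hc haD hcD⟩
    · intro hh
      refine ⟨hh.1, ?_⟩
      rintro _ ⟨ℓ', rfl⟩ a ha c hc haD hcD
      have := hinv H hH ℓ ℓ' a ha haD
      subst this
      exact hh.2 _ rfl a ha c hc haD hcD
  have b2 : ∀ ℓ, ZD b (A ℓ) c' ∅ (𝓠 ∪ 𝓗) 0 0 = ZD b (A ℓ) c' ∅ {H ℓ, p ℓ} 0 0 := by
    intro ℓ
    refine ZD_congr_set b (A ℓ) c' c' ∅ ∅ _ _ 0 0 rfl ?_
    ext h
    constructor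
    · intro hh
      refine ⟨hh.1, ?_⟩
      rintro _ (rfl | rfl) a ha c hc haD hcD
      · exact hh.2 _ (Or.inr ⟨ℓ, rfl⟩) a ha c hc haD hcD
      · exact hh.2 _ (Or.inl ⟨ℓ, rfl⟩) a ha c hc haD hcD
    · intro hh
      refine ⟨hh.1, ?_⟩
      rintro _ (⟨ℓ', rfl⟩ | ⟨ℓ', rfl⟩) a ha c hc haD hcD
      · have := hinv p hp ℓ ℓ' a ha haD
        subst this
        exact hh.2 _ (Or.inr rfl) a ha c hc haD hcD
      · have := hinv H hH ℓ ℓ' a ha haD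
        subst this
        exact hh.2 _ (Or.inl rfl) a ha c hc haD hcD
  -- positivity
  have pa : ∀ ℓ, 0 < ZD b (A ℓ) c' ∅ ∅ 0 0 := fun ℓ => ZD_pos b hb _ _ _ _ _ _
  have pb : ∀ ℓ, 0 < ZD b (A ℓ) c' ∅ {H ℓ} 0 0 := fun ℓ => ZD_pos b hb _ _ _ _ _ _
  have pc : ∀ ℓ, 0 < ZD b (A ℓ) c' ∅ {p ℓ} 0 0 := fun ℓ => ZD_pos b hb _ _ _ _ _ _
  have pd : ∀ ℓ, 0 < ZD b (A ℓ) c' ∅ {H ℓ, p ℓ} 0 0 := fun ℓ => ZD_pos b hb _ _ _ _ _ _
  have hexp : ∀ ℓ, Real.exp (-Dbar b (A ℓ) c' (H ℓ) (p ℓ)) =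
      ZD b (A ℓ) c' ∅ {H ℓ} 0 0 * ZD b (A ℓ) c' ∅ {p ℓ} 0 0 / (ZD b (A ℓ) c' ∅ ∅ 0 0 * ZD b (A ℓ) c' ∅ {H ℓ, p ℓ} 0 0) := by
    intro ℓ
    unfold Dbar pFlat
    have e : -(Real.log (ZD b (A ℓ) c' ∅ {H ℓ, p ℓ} 0 0 / ZD b (A ℓ) c' ∅ ∅ 0 0) - Real.log (ZD b (A ℓ) c' ∅ {H ℓ} 0 0 / ZD b (A ℓ) c' ∅ ∅ 0 0)
        - Real.log (ZD b (A ℓ) c' ∅ {p ℓ} 0 0 / ZD b (A ℓ) c' ∅ ∅ 0 0))
        = Real.log (ZD b (A ℓ) c' ∅ {H ℓ} 0 0 * ZD b (A ℓ) c' ∅ {p ℓ} 0 0 / (ZD b (A ℓ) c' ∅ ∅ 0 0 * ZD b (A ℓ) c' ∅ {H ℓ, p ℓ} 0 0)) := by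
      rw [Real.log_div (pd ℓ).ne' (pa ℓ).ne', Real.log_div (pb ℓ).ne' (pa ℓ).ne', Real.log_div (pc ℓ).ne' (pa ℓ).ne',
        Real.log_div (mul_pos (pb ℓ) (pc ℓ)).ne' (mul_pos (pa ℓ) (pd ℓ)).ne', Real.log_mul (pb ℓ).ne' (pc ℓ).ne', Real.log_mul (pa ℓ).ne' (pd ℓ).ne']
      ring
    rw [e, Real.exp_log (div_pos (mul_pos (pb ℓ) (pc ℓ)) (mul_pos (pa ℓ) (pd ℓ)))]
  -- assembly
  have pR : 0 < R := by
    have h1 := ZD_pos b hb D cut P 𝓗 0 0
    rw [d1] at h1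
    exact (pos_iff_pos_of_mul_pos h1).1 (ZD_pos b hb _ _ _ _ _ _)
  have pX := ZD_pos b hb (D \ U) c' P ∅ 0 0
  have p0 := ZD_pos b hb D cut P ∅ 0 0
  have pH := ZD_pos b hb U c' ∅ 𝓗 0 0
  have up : pFlat b D cut P 𝓠 ≤ ZD b U c' ∅ (𝓠 ∪ 𝓗) 0 0 / ZD b U c' ∅ 𝓗 0 0 := by
    unfold pFlat
    rw [div_le_div_iff₀ p0 pH]
    rw [d1, d2] at s1
    nlinarith
  have low : pFlat b D c' P 𝓠 = ZD b U c' ∅ 𝓠 0 0 / ZD b U c' ∅ ∅ 0 0 := by
    unfold pFlat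
    rw [c2, c3, mul_div_mul_right _ _ pX.ne']
  rw [low]
  refine (mul_le_mul_of_nonneg_left up (Real.exp_pos _).le).trans (le_of_eq ?_)
  rw [pr _ hGA2, pr _ hGA1, pr _ hGA0, pr ∅ (fun G hG => absurd hG (Set.notMem_empty G)), ← Finset.sum_neg_distrib, Real.exp_sum,
    ← Finset.prod_div_distrib, ← Finset.prod_div_distrib, ← Finset.prod_mul_distrib]
  refine Finset.prod_congr rfl fun ℓ _ => ?_
  rw [hexp, b0, b1, b2]
  have := (pa ℓ).ne'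
  have := (pb ℓ).ne'
  have := (pd ℓ).ne'
  field_simp

/-!
# ROW 285, S46: FAMILY versions of `ZD_total` (several disjoint guards at once) and `ZD_prod` (several isolated blocks).   (owner helper12)   NO sorry.
Consumers: `F3/Attach.lean` ([F] (3.4)-(3.12)), `S46/Lower.lean` step 3.
The data on a family of guards `p i` with base points `o i` are ONE type: `Dat (⋃ i, p i) (Set.range o)`.
-/

/-- total probability: summation over the relative data on a family of new pairwise disjoint guards, each lying in one component -/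
theorem ZD_total_fam (b : ℝ) (hb : 0 < b) (D : Finset (ℤ × ℤ)) (cut : Set Bond) (P : Set (ℤ × ℤ)) (𝓕 : Set (Set (ℤ × ℤ)))
    (x : ℤ × ℤ → ℤ) (τ : Bond → ℤ) {ι : Type} (p : ι → Set (ℤ × ℤ)) (o : ι → ℤ × ℤ) (ho : ∀ i, o i ∈ p i) (hpD : ∀ i, p i ⊆ ↑D)
    (hc : ∀ i, OneComp D cut (p i)) (hdis : ∀ i j, i ≠ j → Disjoint (p i) (p j))
    (hpP : ∀ i, Disjoint (p i) P) (hpF : ∀ i, ∀ F ∈ 𝓕, Disjoint (p i) F) :
    HasSum (fun u : Dat (⋃ i, p i) (Set.range o) => ZD b D cut P (Set.range p ∪ 𝓕) (x + u.1) τ) (ZD b D cut P 𝓕 x τ) := by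
  have hnP : ∀ v ∈ P, v ∉ ⋃ i, p i := fun v hv hvp => by
    obtain ⟨i, hi⟩ := Set.mem_iUnion.1 hvp
    exact (Set.disjoint_left.1 (hpP i)) hi hv
  have hnF : ∀ F ∈ 𝓕, ∀ v ∈ F, v ∉ ⋃ i, p i := fun F hF v hv hvp => by
    obtain ⟨i, hi⟩ := Set.mem_iUnion.1 hvp
    exact (Set.disjoint_left.1 (hpF i F hF)) hi hv
  have hle : latG D cut P (Set.range p ∪ 𝓕) ≤ latG D cut P 𝓕 := by
    refine AddSubgroup.map_mono ?_
    rintro h ⟨h1, h2⟩
    exact ⟨h1, fun F hF => h2 F (Set.mem_union_right _ hF)⟩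
  have hu : ∀ u : Dat (⋃ i, p i) (Set.range o), u.1 ∈ admL D P 𝓕 := fun u =>
    ⟨fun v hv _ => u.2 v (Or.inl (hnP v hv)), fun F hF a ha c hc' _ _ => by
      rw [u.2 a (Or.inl (hnF F hF a ha)), u.2 c (Or.inl (hnF F hF c hc'))]⟩
  -- the index of a guard site
  have hidx : ∀ (v : ℤ × ℤ) (hv : ∃ i, v ∈ p i) (i : ι), v ∈ p i → hv.choose = i := by
    intro v hv i hi
    by_contra hne
    exact (Set.disjoint_left.1 (hdis _ _ hne)) hv.choose_spec hi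
  have key := ZL_coset b hb (domBonds D cut) (latG D cut P 𝓕) (latG D cut P (Set.range p ∪ 𝓕)) (latG_supp D cut P 𝓕) hle
    (R := Dat (⋃ i, p i) (Set.range o)) (fun u => gradD D cut u.1) (fun u => AddSubgroup.mem_map.2 ⟨u.1, hu u, rfl⟩) ?_ (grad x + τ)
  · rw [ZD_eq_ZG]
    have key' : HasSum (fun ρ : Dat (⋃ i, p i) (Set.range o) =>
        ZL b (domBonds D cut) (latG D cut P (Set.range p ∪ 𝓕)) (grad x + τ + (gradD D cut) ρ.1))
      (ZG b D cut P 𝓕 (grad x + τ)) := key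
    convert key' using 1
    funext u
    rw [ZD_eq_ZG]
    refine ZL_congr b _ _ _ _ fun e he => ?_
    simp only [Pi.add_apply, gradD_apply D cut u.1 he, grad]; ring
  · intro z hz
    obtain ⟨h, hh, rfl⟩ := AddSubgroup.mem_map.1 hz
    set u0 : ℤ × ℤ → ℤ := fun v => if hv : ∃ i, v ∈ p i then h v - h (o hv.choose) else 0 with hu0
    have hu0p : ∀ i, ∀ v ∈ p i, u0 v = h v - h (o i) := by
      intro i v hv
      have hv' : ∃ i, v ∈ p i := ⟨i, hv⟩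
      simp only [hu0, hv', dif_pos]
      rw [hidx v hv' i hv]
    have hu0n : ∀ v, v ∉ ⋃ i, p i → u0 v = 0 := by
      intro v hv
      have hv' : ¬ ∃ i, v ∈ p i := fun ⟨i, hi⟩ => hv (Set.mem_iUnion.2 ⟨i, hi⟩)
      simp only [hu0, hv', dif_neg, not_false_iff]
    have h0 : gradD D cut h - gradD D cut u0 ∈ latG D cut P (Set.range p ∪ 𝓕) := by
      rw [← map_sub]
      refine AddSubgroup.mem_map.2 ⟨_, ⟨?_, ?_⟩, rfl⟩
      · intro v hv hvD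
        simp [hu0n v (hnP v hv), hh.1 v hv hvD]
      · intro F hF a ha c hc' haD hcD
        rcases hF with ⟨i, rfl⟩ | hF
        · simp [hu0p i a ha, hu0p i c hc']
        · simp [hu0n a (hnF F hF a ha), hu0n c (hnF F hF c hc'), hh.2 F hF a ha c hc' haD hcD]
    refine ⟨⟨u0, ?_⟩, h0, ?_⟩
    · rintro v (hv | ⟨i, rfl⟩)
      · exact hu0n v hv
      · rw [hu0p i _ (ho i), sub_self]
    · intro u' hu'
      obtain ⟨k, hk, hk'⟩ := AddSubgroup.mem_map.1 ((latG D cut P (Set.range p ∪ 𝓕)).sub_mem h0 hu')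
      have e1 : gradD D cut (k - (u'.1 - u0)) = 0 := by
        rw [map_sub, map_sub, hk']; abel
      apply Subtype.ext
      funext v
      by_cases hv : v ∈ ⋃ i, p i
      · obtain ⟨i, hi⟩ := Set.mem_iUnion.1 hv
        have e2 := hc i _ ((gradD_eq_zero_iff D cut _).1 e1)
        have e3 := e2 v hi (o i) (ho i)
        have e4 := hk.2 (p i) (Set.mem_union_left _ ⟨i, rfl⟩) v hi (o i) (ho i) (hpD i hi) (hpD i (ho i))
        have e5 : u'.1 (o i) = 0 := u'.2 (o i) (Or.inr ⟨i, rfl⟩)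
        have e6 : u0 (o i) = 0 := by rw [hu0p i _ (ho i), sub_self]
        simp only [Pi.sub_apply] at e3
        show u'.1 v = u0 v
        linarith
      · show u'.1 v = u0 v
        rw [u'.2 v (Or.inl hv), hu0n v hv]

/-- product over a finite family of isolated blocks; the rest `D \ ⋃ A i` is arbitrary -/
theorem ZD_prod_fam (b : ℝ) (hb : 0 < b) (D : Finset (ℤ × ℤ)) (cut : Set Bond) (P : Set (ℤ × ℤ)) (𝓕 : Set (Set (ℤ × ℤ)))
    (x : ℤ × ℤ → ℤ) (τ : Bond → ℤ) {ι : Type} (S : Finset ι) (A : ι → Finset (ℤ × ℤ)) (hA : ∀ i ∈ S, A i ⊆ D)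
    (hdis : ∀ i ∈ S, ∀ j ∈ S, i ≠ j → Disjoint (A i) (A j))
    (hiso : ∀ i ∈ S, ∀ e ∈ bdry (↑(A i) : Set (ℤ × ℤ)), e.1 ∈ D → e.snd ∈ D → e ∈ cut)
    (hF : ∀ F ∈ 𝓕, ∀ i ∈ S, Disjoint F ↑(A i) ∨ Disjoint F ↑(D \ A i)) :
    ZD b D cut P 𝓕 x τ = ZD b (D \ S.biUnion A) cut P 𝓕 x τ * ∏ i ∈ S, ZD b (A i) cut P 𝓕 x τ := by
  induction S using Finset.induction_on with
  | empty => simp
  | insert j S hj ih =>
    have ih' := ih (fun i hi => hA i (Finset.mem_insert_of_mem hi))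
      (fun i hi k hk => hdis i (Finset.mem_insert_of_mem hi) k (Finset.mem_insert_of_mem hk))
      (fun i hi => hiso i (Finset.mem_insert_of_mem hi)) (fun F hF' i hi => hF F hF' i (Finset.mem_insert_of_mem hi))
    have hjS := Finset.mem_insert_self j S
    have hsplit : D \ S.biUnion A = A j ∪ (D \ (insert j S).biUnion A) := by
      ext v
      simp only [Finset.mem_sdiff, Finset.mem_biUnion, Finset.mem_union, Finset.mem_insert, not_exists, not_and]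
      constructor
      · rintro ⟨h1, h2⟩
        by_cases hv : v ∈ A j
        · exact Or.inl hv
        · refine Or.inr ⟨h1, ?_⟩
          rintro i (rfl | hi)
          · exact hv
          · exact h2 i hi
      · rintro (hv | ⟨h1, h2⟩)
        · refine ⟨hA j hjS hv, fun i hi hvi => ?_⟩
          have hne : i ≠ j := fun h => hj (h ▸ hi)
          exact (Finset.disjoint_left.1 (hdis i (Finset.mem_insert_of_mem hi) j hjS hne)) hvi hv
        · exact ⟨h1, fun i hi => h2 i (Or.inr hi)⟩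
    have hd : Disjoint (A j) (D \ (insert j S).biUnion A) := by
      rw [Finset.disjoint_left]
      intro v hv hv'
      exact (Finset.mem_sdiff.1 hv').2 (Finset.mem_biUnion.2 ⟨j, hjS, hv⟩)
    have hsub : ∀ v, v ∈ A j ∪ (D \ (insert j S).biUnion A) → v ∈ D := by
      intro v hv
      rcases Finset.mem_union.1 hv with h | h
      · exact hA j hjS h
      · exact (Finset.mem_sdiff.1 h).1
    rw [ih', hsplit, ZD_prod b hb (A j) (D \ (insert j S).biUnion A) cut P 𝓕 x τ hd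
      (fun e he h1 h2 => hiso j hjS e he (hsub _ h1) (hsub _ h2)) ?_, Finset.prod_insert hj]
    · ring
    · intro F hF'
      rcases hF F hF' j hjS with h | h
      · exact Or.inl h
      · refine Or.inr (h.mono_right ?_)
        intro v hv
        have hv' : v ∈ D \ (insert j S).biUnion A := by exact_mod_cast hv
        have : v ∈ D \ A j := Finset.mem_sdiff.2 ⟨(Finset.mem_sdiff.1 hv').1, fun h' =>
          (Finset.mem_sdiff.1 hv').2 (Finset.mem_biUnion.2 ⟨j, hjS, h'⟩)⟩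
        exact_mod_cast this

end Claimed.Agent.R285.S46
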